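import Vale.Agent.P298.H119.Ctl
import Mathlib.Analysis.Calculus.InverseFunctionTheorem.ContDiff
import Mathlib.Topology.TietzeExtension

namespace Vale.Agent.P298.H119

open Set Metric Filter Topology Vale.Agent.P298
open scoped NNReal ContDiff Manifold

/-- Gluing local `C^2` selections of a convex valued map over an open set. -/
theorem exists_selection_two {Z X : Type*} [NormedAddCommGroup Z] [NormedSpace ℝ Z]
    [FiniteDimensional ℝ Z] [NormedAddCommGroup X] [NormedSpace ℝ X]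
    {G : Set Z} (hG : IsOpen G) (t : Z → Set X) (ht : ∀ p ∈ G, Convex ℝ (t p))
    (hloc : ∀ p₀ ∈ G, ∃ g : Z → X, ContDiffAt ℝ 2 g p₀ ∧ ∀ᶠ p in 𝓝 p₀, g p ∈ t p) :
    ∃ u : Z → X, ContDiffOn ℝ 2 u G ∧ ∀ p ∈ G, u p ∈ t p := by
  classical
  let M : TopologicalSpace.Opens Z := ⟨G, hG⟩
  have : ProperSpace Z := FiniteDimensional.proper ℝ Z
  have : LocallyCompactSpace M := hG.locallyCompactSpace
  have : SecondCountableTopology Z := inferInstance
  have : SigmaCompactSpace M := inferInstance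
  obtain ⟨g, hg⟩ := exists_contMDiffMap_forall_mem_convex_of_local (n := 2) 𝓘(ℝ, Z)
    (M := M) (F := X) (t := fun x : M => t x.1) (fun x => ht x.1 x.2) (by
      intro x
      obtain ⟨g, hg1, hg2⟩ := hloc x.1 x.2
      have hg1' : ∀ᶠ p in 𝓝 x.1, ContDiffAt ℝ 2 g p := hg1.eventually (by simp)
      have hev : ∀ᶠ p in 𝓝 x.1, ContDiffAt ℝ 2 g p ∧ g p ∈ t p := hg1'.and hg2
      have hev' : ∀ᶠ p : M in 𝓝 x, ContDiffAt ℝ 2 g p.1 ∧ g p.1 ∈ t p.1 :=
        (continuous_subtype_val.tendsto x).eventually hev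
      refine ⟨{p : M | ContDiffAt ℝ 2 g p.1 ∧ g p.1 ∈ t p.1}, hev', fun p => g p.1, ?_, ?_⟩
      · intro p hp
        exact (contMDiffAt_subtype_iff.2 hp.1.contMDiffAt).contMDiffWithinAt
      · intro y hy
        exact hy.2)
  refine ⟨fun p => if h : p ∈ G then g ⟨p, h⟩ else 0, ?_, ?_⟩
  · intro p hp
    have h1 : ContMDiffAt 𝓘(ℝ, Z) 𝓘(ℝ, X) 2
        (fun p => if h : p ∈ G then g (⟨p, h⟩ : M) else 0) (⟨p, hp⟩ : M).1 := by
      rw [← contMDiffAt_subtype_iff (U := M)]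
      have h2 := g.contMDiff (⟨p, hp⟩ : M)
      refine h2.congr_of_eventuallyEq (Eventually.of_forall fun q => ?_)
      have hq : q.1 ∈ G := q.2
      simp [hq]
    exact (contMDiffAt_iff_contDiffAt.1 h1).contDiffWithinAt
  · intro p hp
    simp only [hp, dif_pos]
    exact hg ⟨p, hp⟩

variable {n : ℕ}

/-- The parameter of an immersed family of arcs extends to a smooth function. -/
theorem exists_local_coord {γ : ℂ × ℂ → (Fin n → ℂ)} {q₀ : ℂ × ℂ} (h : AnalyticAt ℂ γ q₀)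
    (hd : fderiv ℂ γ q₀ (1, 0) ≠ 0) :
    ∃ S : (Fin n → ℂ) × ℂ → ℂ, ContDiffAt ℝ 2 S (γ q₀, q₀.2) ∧
      ∀ᶠ q in 𝓝 q₀, S (γ q, q.2) = q.1 := by
  obtain ⟨j, hj⟩ := Function.ne_iff.1 hd
  set A : ℂ × ℂ →L[ℂ] ℂ := (ContinuousLinearMap.proj j).comp (fderiv ℂ γ q₀) with hA
  set a : ℂ := A (1, 0) with ha
  set b : ℂ := A (0, 1) with hb
  have ha0 : a ≠ 0 := hj
  set g : ℂ × ℂ → ℂ × ℂ := fun q => (γ q j, q.2) with hg
  have hγd : HasFDerivAt γ (fderiv ℂ γ q₀) q₀ := h.differentiableAt.hasFDerivAt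
  have h1 : HasFDerivAt (fun q => γ q j) A q₀ :=
    (ContinuousLinearMap.proj (R := ℂ) (φ := fun _ : Fin n => ℂ) j).hasFDerivAt.comp q₀ hγd
  have h2 : HasFDerivAt g (A.prod (ContinuousLinearMap.snd ℂ ℂ ℂ)) q₀ :=
    h1.prodMk hasFDerivAt_snd
  have hAv : ∀ v : ℂ × ℂ, A v = a * v.1 + b * v.2 := by
    intro v
    have e : v = v.1 • ((1, 0) : ℂ × ℂ) + v.2 • ((0, 1) : ℂ × ℂ) := by
      ext <;> simp
    conv_lhs => rw [e]
    rw [map_add, map_smul, map_smul, smul_eq_mul, smul_eq_mul]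
    ring
  set g' : (ℂ × ℂ) ≃L[ℂ] ℂ × ℂ := ContinuousLinearEquiv.equivOfInverse
    (A.prod (ContinuousLinearMap.snd ℂ ℂ ℂ))
    ((a⁻¹ • (ContinuousLinearMap.fst ℂ ℂ ℂ - b • ContinuousLinearMap.snd ℂ ℂ ℂ)).prod
      (ContinuousLinearMap.snd ℂ ℂ ℂ)) (by
        intro v
        ext
        · simp [hAv]
          field_simp
        · simp) (by
        intro v
        ext
        · simp [hAv]
          field_simp
          ring
        · simp) with hg'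
  have h3 : HasFDerivAt g (g' : ℂ × ℂ →L[ℂ] ℂ × ℂ) q₀ := h2
  have h4 : ContDiffAt ℂ 2 g q₀ := by
    have h5 : ContDiffAt ℂ 2 γ q₀ := h.contDiffAt
    have h6 : ContDiffAt ℂ 2 (fun q => γ q j) q₀ :=
      (ContinuousLinearMap.proj (R := ℂ) (φ := fun _ : Fin n => ℂ) j).contDiff.contDiffAt.comp q₀ h5
    exact h6.prodMk contDiffAt_snd
  have hn : (2 : WithTop ℕ∞) ≠ 0 := by norm_num
  set I := h4.localInverse h3 hn with hI
  have h7 : ContDiffAt ℂ 2 I (g q₀) := h4.to_localInverse h3 hn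
  have h8 : ∀ᶠ q in 𝓝 q₀, I (g q) = q :=
    (h4.hasStrictFDerivAt' h3 hn).eventually_left_inverse
  have h9 : ContDiff ℂ 2 (fun p : (Fin n → ℂ) × ℂ => (p.1 j, p.2)) :=
    ((ContinuousLinearMap.proj (R := ℂ) (φ := fun _ : Fin n => ℂ) j).contDiff.comp
      contDiff_fst).prodMk contDiff_snd
  refine ⟨fun p => (I (p.1 j, p.2)).1, ?_, ?_⟩
  · have h10 : ContDiffAt ℂ 2 (fun p : (Fin n → ℂ) × ℂ => I (p.1 j, p.2)) (γ q₀, q₀.2) :=
      ContDiffAt.comp (g := I) (f := fun p : (Fin n → ℂ) × ℂ => (p.1 j, p.2)) (γ q₀, q₀.2) h7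
        h9.contDiffAt
    exact (contDiff_fst.contDiffAt.comp (γ q₀, q₀.2) h10).restrict_scalars ℝ
  · filter_upwards [h8] with q hq
    change (I (g q)).1 = q.1
    rw [hq]

/-- Finitely many injectively immersed holomorphic families of arcs `γ i (·, t)` issued from
`0`, on the closed bidisk of radius `σ`. -/
structure Arcs (σ : ℝ) {k : ℕ} (γ : Fin k → ℂ × ℂ → (Fin n → ℂ)) : Prop where
  an : ∀ i, ∀ q : ℂ × ℂ, ‖q.1‖ ≤ σ → ‖q.2‖ ≤ σ → AnalyticAt ℂ (γ i) q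
  zero : ∀ i, ∀ t : ℂ, ‖t‖ ≤ σ → γ i (0, t) = 0
  inj : ∀ i j, ∀ s s' t : ℂ, ‖s‖ ≤ σ → ‖s'‖ ≤ σ → ‖t‖ ≤ σ → γ i (s, t) = γ j (s', t) →
    (s = 0 ∧ s' = 0) ∨ (i = j ∧ s = s')
  imm : ∀ i, ∀ s t : ℂ, s ≠ 0 → ‖s‖ ≤ σ → ‖t‖ ≤ σ → fderiv ℂ (γ i) (s, t) (1, 0) ≠ 0

/-- The closed bidisk. -/
def Dk (σ : ℝ) : Set (ℂ × ℂ) := closedBall 0 σ ×ˢ closedBall 0 σ

theorem mem_Dk {σ : ℝ} {q : ℂ × ℂ} : q ∈ Dk σ ↔ ‖q.1‖ ≤ σ ∧ ‖q.2‖ ≤ σ := by
  simp [Dk, mem_prod]

theorem isCompact_Dk (σ : ℝ) : IsCompact (Dk σ) :=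
  (isCompact_closedBall _ _).prod (isCompact_closedBall _ _)

/-- A control function on the arcs. -/
theorem exists_control {σ : ℝ} {k : ℕ} [Nonempty (Fin k)]
    {γ : Fin k → ℂ × ℂ → (Fin n → ℂ)} (h : Arcs σ γ) :
    ∃ R : (Fin n → ℂ) × ℂ → ℝ, (∀ p, p.1 ≠ 0 → ContDiffAt ℝ 2 R p) ∧
      (∀ t : ℂ, ‖t‖ ≤ σ → ContinuousAt R (0, t)) ∧ (∀ t : ℂ, R (0, t) = 0) ∧
      (∀ i, ∀ q ∈ Dk σ, R (γ i q, q.2) = ‖q.1‖ ^ 2) := by
  classical
  -- the maps
  set Γ : Fin k → ℂ × ℂ → (Fin n → ℂ) × ℂ := fun i q => (γ i q, q.2) with hΓ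
  have hΓc : ∀ i, ContinuousOn (Γ i) (Dk σ) := by
    intro i q hq
    rw [mem_Dk] at hq
    exact ((h.an i q hq.1 hq.2).continuousAt.prodMk continuous_snd.continuousAt).continuousWithinAt
  have hΓinj : ∀ i j, ∀ q ∈ Dk σ, ∀ q' ∈ Dk σ, Γ i q = Γ j q' → γ i q ≠ 0 → i = j ∧ q = q' := by
    intro i j q hq q' hq' he hne
    rw [mem_Dk] at hq hq'
    obtain ⟨h1, h2⟩ := Prod.ext_iff.1 he
    simp only [hΓ] at h1 h2
    have e1 : q = (q.1, q.2) := rfl
    have e2 : q' = (q'.1, q.2) := by rw [h2]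
    have h3 : γ i (q.1, q.2) = γ j (q'.1, q.2) := by rw [← e1, ← e2, h1]
    rcases h.inj i j q.1 q'.1 q.2 hq.1 hq'.1 hq.2 h3 with h4 | h4
    · exfalso
      apply hne
      rw [e1, h4.1, h.zero i _ hq.2]
    · exact ⟨h4.1, by rw [e2, ← h4.2]⟩
  have hsq : ∀ i j, ∀ q ∈ Dk σ, ∀ q' ∈ Dk σ, Γ i q = Γ j q' → ‖q.1‖ ^ 2 = ‖q'.1‖ ^ 2 := by
    intro i j q hq q' hq' he
    by_cases hne : γ i q = 0
    · rw [mem_Dk] at hq hq'
      obtain ⟨h1, h2⟩ := Prod.ext_iff.1 he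
      simp only [hΓ] at h1 h2
      have e1 : q = (q.1, q.2) := rfl
      have e2 : q' = (q'.1, q.2) := by rw [h2]
      have h3 : γ i (q.1, q.2) = γ j (q'.1, q.2) := by rw [← e1, ← e2, h1]
      rcases h.inj i j q.1 q'.1 q.2 hq.1 hq'.1 hq.2 h3 with h4 | h4
      · rw [h4.1, h4.2]
      · rw [h4.2]
    · rw [(hΓinj i j q hq q' hq' he hne).2]
  -- a continuous extension of `|s|²`
  set A : Set ((Fin n → ℂ) × ℂ) := ⋃ i, Γ i '' Dk σ with hA
  have hAc : IsClosed A := by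
    refine isClosed_iUnion_of_finite fun i => ?_
    exact ((isCompact_Dk σ).image_of_continuousOn (hΓc i)).isClosed
  have hAex : ∀ p : A, ∃ i, ∃ q ∈ Dk σ, Γ i q = p.1 := by
    rintro ⟨p, hp⟩
    obtain ⟨i, q, hq, he⟩ := mem_iUnion.1 hp
    exact ⟨i, q, hq, he⟩
  choose iA qA hqA hA' using hAex
  have hfc : Continuous (fun p : A => ‖(qA p).1‖ ^ 2) := by
    rw [continuous_iff_isClosed]
    intro C hC
    have e1 : (fun p : A => ‖(qA p).1‖ ^ 2) ⁻¹' C =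
        Subtype.val ⁻¹' (⋃ i, Γ i '' (Dk σ ∩ {q | ‖q.1‖ ^ 2 ∈ C})) := by
      ext p
      simp only [mem_preimage, mem_iUnion]
      constructor
      · intro hp
        exact ⟨iA p, qA p, ⟨hqA p, hp⟩, hA' p⟩
      · rintro ⟨i, q, ⟨hq, hq2⟩, he⟩
        have h1 : ‖q.1‖ ^ 2 ∈ C := hq2
        rw [hsq (iA p) i (qA p) (hqA p) q hq (by rw [hA' p, he])]
        exact h1
    rw [e1]
    refine IsClosed.preimage continuous_subtype_val (isClosed_iUnion_of_finite fun i => ?_)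
    have h2 : IsCompact (Dk σ ∩ {q | ‖q.1‖ ^ 2 ∈ C}) := by
      refine (isCompact_Dk σ).inter_right ?_
      exact hC.preimage (continuous_fst.norm.pow 2)
    exact (h2.image_of_continuousOn ((hΓc i).mono inter_subset_left)).isClosed
  obtain ⟨R₀, hR₀⟩ := ContinuousMap.exists_restrict_eq hAc
    (⟨fun p : A => ‖(qA p).1‖ ^ 2, hfc⟩ : C(A, ℝ))
  have hR₀' : ∀ i, ∀ q ∈ Dk σ, R₀ (Γ i q) = ‖q.1‖ ^ 2 := by
    intro i q hq
    have hm : Γ i q ∈ A := mem_iUnion.2 ⟨i, q, hq, rfl⟩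
    have h1 := DFunLike.congr_fun hR₀ ⟨Γ i q, hm⟩
    change R₀ (Γ i q) = ‖(qA ⟨Γ i q, hm⟩).1‖ ^ 2 at h1
    rw [h1]
    exact hsq _ i _ (hqA _) q hq (hA' ⟨Γ i q, hm⟩)
  -- fibres
  have hfib : ∀ p₀ : (Fin n → ℂ) × ℂ, ∀ V : Fin k → Set (ℂ × ℂ), (∀ i, IsOpen (V i)) →
      (∀ i, ∀ q ∈ Dk σ, Γ i q = p₀ → q ∈ V i) →
      ∀ᶠ p in 𝓝 p₀, ∀ i, ∀ q ∈ Dk σ, Γ i q = p → q ∈ V i := by
    intro p₀ V hV hp₀
    rw [eventually_all]
    intro i
    have h1 : IsCompact (Dk σ \ V i) := (isCompact_Dk σ).diff (hV i)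
    have h2 : IsClosed (Γ i '' (Dk σ \ V i)) :=
      (h1.image_of_continuousOn ((hΓc i).mono sdiff_subset)).isClosed
    have h3 : p₀ ∉ Γ i '' (Dk σ \ V i) := by
      rintro ⟨q, ⟨hq1, hq2⟩, he⟩
      exact hq2 (hp₀ i q hq1 he)
    filter_upwards [h2.isOpen_compl.mem_nhds h3] with p hp q hq he
    by_contra hc
    exact hp ⟨q, ⟨hq, hc⟩, he⟩
  -- the selection
  set G : Set ((Fin n → ℂ) × ℂ) := {p | p.1 ≠ 0} with hG
  have hGo : IsOpen G := isOpen_ne_fun continuous_fst continuous_const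
  set K : (Fin n → ℂ) × ℂ → Set ℝ := fun p =>
    {y | |y - R₀ p| < ‖p.1‖ ∧ ∀ i, ∀ q ∈ Dk σ, Γ i q = p → y = ‖q.1‖ ^ 2} with hK
  obtain ⟨u, hu, huK⟩ := exists_selection_two hGo K (by
    intro p _ y hy z hz a b ha hb hab
    refine ⟨?_, fun i q hq he => ?_⟩
    · have h1 : (a • y + b • z) - R₀ p = a * (y - R₀ p) + b * (z - R₀ p) := by
        simp only [smul_eq_mul]
        linear_combination (R₀ p) * hab
      rw [h1]
      have h2 := hy.1
      have h3 := hz.1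
      calc |a * (y - R₀ p) + b * (z - R₀ p)| ≤ |a * (y - R₀ p)| + |b * (z - R₀ p)| := abs_add_le _ _
        _ = a * |y - R₀ p| + b * |z - R₀ p| := by
          rw [abs_mul, abs_mul, abs_of_nonneg ha, abs_of_nonneg hb]
        _ < ‖p.1‖ := by
          rcases eq_or_lt_of_le ha with h4 | h4
          · rw [← h4] at hab ⊢
            have : b = 1 := by linarith
            rw [this]; linarith
          · have h5 := mul_lt_mul_of_pos_left h2 h4
            have h6 := mul_le_mul_of_nonneg_left h3.le hb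
            have h7 : a * ‖p.1‖ + b * ‖p.1‖ = ‖p.1‖ := by rw [← add_mul, hab, one_mul]
            linarith
    · rw [hy.2 i q hq he, hz.2 i q hq he]
      simp only [smul_eq_mul]
      rw [← add_mul, hab, one_mul]) (by
    intro p₀ hp₀
    have hpos : 0 < ‖p₀.1‖ := norm_pos_iff.2 hp₀
    have hn1 : ContinuousAt (fun p : (Fin n → ℂ) × ℂ => ‖p.1‖) p₀ :=
      continuous_fst.norm.continuousAt
    by_cases hex : ∃ i, ∃ q ∈ Dk σ, Γ i q = p₀
    · obtain ⟨i₀, q₀, hq₀, he₀⟩ := hex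
      have hγ0 : γ i₀ q₀ ≠ 0 := by
        have h1 : (Γ i₀ q₀).1 = p₀.1 := by rw [he₀]
        intro hc
        exact hp₀ (h1.symm.trans hc)
      have hq₀' := mem_Dk.1 hq₀
      have hs0 : q₀.1 ≠ 0 := by
        intro hc
        apply hγ0
        have e1 : q₀ = (0, q₀.2) := by rw [← hc]
        rw [e1, h.zero i₀ _ hq₀'.2]
      obtain ⟨S, hS1, hS2⟩ := exists_local_coord (h.an i₀ q₀ hq₀'.1 hq₀'.2)
        (h.imm i₀ q₀.1 q₀.2 hs0 hq₀'.1 hq₀'.2)
      have he₀' : (γ i₀ q₀, q₀.2) = p₀ := he₀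
      rw [he₀'] at hS1
      obtain ⟨V, hV1, hV2, hV3⟩ := _root_.eventually_nhds_iff.1 hS2
      refine ⟨fun p => ‖S p‖ ^ 2, hS1.norm_sq ℝ, ?_⟩
      have hSp : S p₀ = q₀.1 := by rw [← he₀']; exact hV1 q₀ hV3
      have h1 : ContinuousAt (fun p => |‖S p‖ ^ 2 - R₀ p|) p₀ :=
        (((hS1.continuousAt.norm).pow 2).sub R₀.continuous.continuousAt).abs
      have h2 : ∀ᶠ p in 𝓝 p₀, |‖S p‖ ^ 2 - R₀ p| < ‖p.1‖ := by
        refine h1.eventually_lt hn1 ?_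
        have e1 : R₀ p₀ = ‖q₀.1‖ ^ 2 := by rw [← he₀]; exact hR₀' i₀ q₀ hq₀
        rw [hSp, e1, sub_self, abs_zero]
        exact hpos
      have h3 := hfib p₀ (fun i => if i = i₀ then V else ∅) (by
        intro i
        by_cases hi : i = i₀
        · rw [if_pos hi]; exact hV2
        · rw [if_neg hi]; exact isOpen_empty) (by
        intro i q hq he
        obtain ⟨h4, h5⟩ := hΓinj i₀ i q₀ hq₀ q hq (by rw [he₀, he]) hγ0
        rw [if_pos h4.symm, ← h5]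
        exact hV3)
      filter_upwards [h2, h3] with p hp1 hp2
      refine ⟨hp1, fun i q hq he => ?_⟩
      have h4 := hp2 i q hq he
      by_cases hi : i = i₀
      · rw [if_pos hi] at h4
        have h5 := hV1 q h4
        rw [← he, hi]
        change ‖S (γ i₀ q, q.2)‖ ^ 2 = _
        rw [h5]
      · rw [if_neg hi] at h4
        exact absurd h4 (notMem_empty _)
    · refine ⟨fun _ => R₀ p₀, contDiffAt_const, ?_⟩
      have h1 : ContinuousAt (fun p => |R₀ p₀ - R₀ p|) p₀ :=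
        (continuousAt_const.sub R₀.continuous.continuousAt).abs
      have h2 : ∀ᶠ p in 𝓝 p₀, |R₀ p₀ - R₀ p| < ‖p.1‖ := by
        refine h1.eventually_lt hn1 ?_
        rw [sub_self, abs_zero]
        exact hpos
      have h3 := hfib p₀ (fun _ => ∅) (fun _ => isOpen_empty) (by
        intro i q hq he
        exact absurd ⟨i, q, hq, he⟩ hex)
      filter_upwards [h2, h3] with p hp1 hp2
      exact ⟨hp1, fun i q hq he => absurd (hp2 i q hq he) (notMem_empty _)⟩)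
  set R : (Fin n → ℂ) × ℂ → ℝ := fun p => if p.1 = 0 then 0 else u p with hR
  have hax : ∀ t : ℂ, ‖t‖ ≤ σ → R₀ (0, t) = 0 := by
    intro t ht
    have i : Fin k := Classical.arbitrary _
    have h1 := hR₀' i (0, t) (mem_Dk.2 ⟨by simpa using (norm_nonneg t).trans ht, ht⟩)
    have h2 : Γ i (0, t) = (0, t) := by
      simp only [hΓ]
      rw [h.zero i t ht]
    rw [h2] at h1
    simpa using h1
  refine ⟨R, ?_, ?_, fun t => by simp [hR], ?_⟩
  · intro p hp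
    have h1 : ContDiffAt ℝ 2 u p := (hu p hp).contDiffAt (hGo.mem_nhds hp)
    refine h1.congr_of_eventuallyEq ?_
    filter_upwards [hGo.mem_nhds hp] with q hq
    have : q.1 ≠ 0 := hq
    simp [hR, this]
  · intro t ht
    have h1 : ∀ p : (Fin n → ℂ) × ℂ, |R p| ≤ ‖p.1‖ + |R₀ p| := by
      intro p
      by_cases hp : p.1 = 0
      · simp [hR, hp]
      · have h2 := (huK p hp).1
        simp only [hR, hp, if_false]
        have h3 : u p = (u p - R₀ p) + R₀ p := by ring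
        calc |u p| = |(u p - R₀ p) + R₀ p| := by rw [← h3]
          _ ≤ |u p - R₀ p| + |R₀ p| := abs_add_le _ _
          _ ≤ ‖p.1‖ + |R₀ p| := by linarith
    have h2 : R (0, t) = 0 := by simp [hR]
    rw [ContinuousAt, h2]
    have h3 : Tendsto (fun p : (Fin n → ℂ) × ℂ => ‖p.1‖ + |R₀ p|) (𝓝 (0, t)) (𝓝 0) := by
      have h4 : Continuous (fun p : (Fin n → ℂ) × ℂ => ‖p.1‖ + |R₀ p|) :=
        continuous_fst.norm.add R₀.continuous.abs
      have h5 := h4.tendsto (0, t)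
      simpa [hax t ht] using h5
    exact squeeze_zero_norm (fun p => by rw [Real.norm_eq_abs]; exact h1 p) h3
  · intro i q hq
    by_cases hp : γ i q = 0
    · have h1 := hR₀' i q hq
      have h2 : q.1 = 0 := by
        have hq' := mem_Dk.1 hq
        have h3 : γ i (q.1, q.2) = γ i (0, q.2) := by
          rw [h.zero i _ hq'.2]; exact hp
        rcases h.inj i i q.1 0 q.2 hq'.1 (by simpa using (norm_nonneg _).trans hq'.1) hq'.2 h3
          with h4 | h4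
        · exact h4.1
        · exact h4.2
      simp [hR, hp, h2]
    · have h1 := (huK (γ i q, q.2) hp).2 i q hq rfl
      simp only [hR, hp, if_false]
      exact h1

end Vale.Agent.P298.H119
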