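import Vale.Agent.P298.StmtFlag

namespace Vale.Agent.P298.H119

open Filter Topology Metric Vale.Agent.P298

/-- The germs at `0` of the curves `f_t = e_t = 0` are simultaneously parametrized by the
holomorphic families of arcs `γ₀(·, t), …, γ_{k-1}(·, t)`, `|t| < ρ`: the arc `γᵢ(·, t)` starts
at `γᵢ(0, t) = 0`, it is immersed outside `0`, the arcs are injective and disjoint outside `0`,
and near `(0, 0)` every `(x, t)` with `f_t(x) = e_t(x) = 0` is of the form `(γᵢ(s, t), t)` with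
small `s`. -/
structure ParamCurves {n k : ℕ} (F E : (Fin n → ℂ) → ℂ → ℂ)
    (γ : Fin k → ℂ → ℂ → (Fin n → ℂ)) (ρ : ℝ) : Prop where
  pos : 0 < ρ
  hol : ∀ i, ∀ s ∈ ball (0 : ℂ) ρ, ∀ t ∈ ball (0 : ℂ) ρ,
    AnalyticAt ℂ (fun q : ℂ × ℂ => γ i q.1 q.2) (s, t)
  zero : ∀ i, ∀ t ∈ ball (0 : ℂ) ρ, γ i 0 t = 0
  mem : ∀ i, ∀ s ∈ ball (0 : ℂ) ρ, ∀ t ∈ ball (0 : ℂ) ρ,
    F (γ i s t) t = 0 ∧ E (γ i s t) t = 0
  imm : ∀ i, ∀ s ∈ ball (0 : ℂ) ρ, ∀ t ∈ ball (0 : ℂ) ρ, s ≠ 0 →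
    deriv (fun s => γ i s t) s ≠ 0
  inj : ∀ i j, ∀ s ∈ ball (0 : ℂ) ρ, ∀ s' ∈ ball (0 : ℂ) ρ, ∀ t ∈ ball (0 : ℂ) ρ,
    γ i s t = γ j s' t → (s = 0 ∧ s' = 0) ∨ (i = j ∧ s = s')
  cover : ∀ ε > 0, ∀ᶠ p in 𝓝 ((0 : Fin n → ℂ), (0 : ℂ)), F p.1 p.2 = 0 → E p.1 p.2 = 0 →
    ∃ i, ∃ s ∈ ball (0 : ℂ) ε, p.1 = γ i s p.2

/-- `Φ` is a topological right-trivialization of the family `f_t = F(·, t)`, `|t| < δ`, exactly
as in `TopRightTrivial`. -/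
def IsTriv {n : ℕ} (δ : ℝ) (F : (Fin n → ℂ) → ℂ → ℂ)
    (Φ : OpenPartialHomeomorph ((Fin n → ℂ) × ℂ) ((Fin n → ℂ) × ℂ)) : Prop :=
  (∀ p ∈ Φ.source, p.2 ∈ ball (0 : ℂ) δ) ∧
  (∀ t ∈ ball (0 : ℂ) δ, (0, t) ∈ Φ.source ∧ Φ (0, t) = (0, t)) ∧
  (∀ p ∈ Φ.source, (Φ p).2 = p.2 ∧ F (Φ p).1 p.2 = F p.1 0)

/-- After shrinking the disk there is a topological right-trivialization `Φ(x, t) = (φ_t(x), t)`
of the family `f_t` which preserves the flag: `e_t(φ_t(x)) = e_0(x)` for all `x` with `f_0(x) = 0`,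
and `h_t(φ_t(x)) = h_0(x)` for all `x` with `f_0(x) = e_0(x) = 0`. -/
def FlagTrivial {n : ℕ} (r : ℝ) (F E H : (Fin n → ℂ) → ℂ → ℂ) : Prop :=
  ∃ δ : ℝ, 0 < δ ∧ δ ≤ r ∧ ∃ Φ, IsTriv δ F Φ ∧ ∀ p ∈ Φ.source, F p.1 0 = 0 →
    E (Φ p).1 p.2 = E p.1 0 ∧ (E p.1 0 = 0 → H (Φ p).1 p.2 = H p.1 0)

/-- After shrinking the disk there is a topological right-trivialization `Φ(x, t) = (φ_t(x), t)`
of the family `f_t` such that `e_t(φ_t(x)) = e_0(x)` for all `x` with `f_0(x) = 0`, and such that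
`φ_t(γᵢ(s, 0)) = γᵢ(s, t)` for all `i`, all small `s` and all `t` for which the left-hand side is
defined. -/
def ArcTrivial {n k : ℕ} (r : ℝ) (F E : (Fin n → ℂ) → ℂ → ℂ)
    (γ : Fin k → ℂ → ℂ → (Fin n → ℂ)) : Prop :=
  ∃ δ : ℝ, 0 < δ ∧ δ ≤ r ∧ ∃ Φ, IsTriv δ F Φ ∧
    (∀ p ∈ Φ.source, F p.1 0 = 0 → E (Φ p).1 p.2 = E p.1 0) ∧
    ∀ i, ∃ ε > 0, ∀ s ∈ ball (0 : ℂ) ε, ∀ t ∈ ball (0 : ℂ) δ, (γ i s 0, t) ∈ Φ.source →
      Φ (γ i s 0, t) = (γ i s t, t)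

/-- The germs of `f` and `g` at `0` are topologically right-equivalent: `g(φ(x)) = f(x)` for a
homeomorphism `φ` between open neighbourhoods of `0` with `φ(0) = 0`. -/
def RightEquiv {n : ℕ} (f g : (Fin n → ℂ) → ℂ) : Prop :=
  ∃ φ : OpenPartialHomeomorph (Fin n → ℂ) (Fin n → ℂ), 0 ∈ φ.source ∧ φ 0 = 0 ∧
    ∀ x ∈ φ.source, g (φ x) = f x

/-- The colength of `(f_t, 2 × 2 minors of d(f_t, e_t))` is finite and does not depend on `t`. -/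
def Companion (r : ℝ) (F E : (Fin 3 → ℂ) → ℂ → ℂ) : Prop :=
  IsHolFamily r E ∧ ∃ a : ℕ, ∀ t ∈ ball (0 : ℂ) r, Colength ![(F · t),
    minor2 0 1 (F · t) (E · t), minor2 0 2 (F · t) (E · t), minor2 1 2 (F · t) (E · t)] a

/-- The colengths of `(f_t, e_t, det d(f_t, e_t, h_t))` and of `(f_t, e_t, h_t)` are finite and do
not depend on `t`. -/
def Companion2 (r : ℝ) (F E H : (Fin 3 → ℂ) → ℂ → ℂ) : Prop :=
  IsHolFamily r H ∧
  (∃ b : ℕ, ∀ t ∈ ball (0 : ℂ) r, Colength ![(F · t), (E · t),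
    jac3 (F · t) (E · t) (H · t)] b) ∧
  ∃ c : ℕ, ∀ t ∈ ball (0 : ℂ) r, Colength ![(F · t), (E · t), (H · t)] c

/-- `R` is a control function on the germs at `0` of the zero sets
`Z_t = {x | g_{1,t}(x) = … = g_{m,t}(x) = 0}` of the families `g_j = G j`: near `(0, 0)` the real
function `R` is continuous, it vanishes on the axis `x = 0`, and away from the axis it is of class
`C²` and has neither zeros nor critical points on the `Z_t`, i.e. its differential is not zero on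
the common kernel of the `d_x g_{j,t}`. -/
def Control {m : ℕ} (G : Fin m → (Fin 3 → ℂ) → ℂ → ℂ) (R : (Fin 3 → ℂ) → ℂ → ℝ) : Prop :=
  ∀ᶠ p in 𝓝 ((0 : Fin 3 → ℂ), (0 : ℂ)),
    ContinuousAt (fun q : (Fin 3 → ℂ) × ℂ => R q.1 q.2) p ∧ (p.1 = 0 → R p.1 p.2 = 0) ∧
    (p.1 ≠ 0 → ContDiffAt ℝ 2 (fun q : (Fin 3 → ℂ) × ℂ => R q.1 q.2) p ∧
      ((∀ j, G j p.1 p.2 = 0) → R p.1 p.2 ≠ 0 ∧
        ∃ w, (∀ j, fderiv ℂ (G j · p.2) p.1 w = 0) ∧ fderiv ℝ (R · p.2) p.1 w ≠ 0))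

/-- The family `f_t`, `|t| < r`, is controlled near `t = 0`: either there is a control function on
the surfaces `f_t = 0`; or there is a companion `e_t` such that moreover there is a second
companion `h_t`, or there is a control function on the curves `f_t = e_t = 0`, or these curves are
simultaneously parametrized. -/
def HasFlag (r : ℝ) (F : (Fin 3 → ℂ) → ℂ → ℂ) : Prop :=
  (∃ R, Control ![F] R) ∨
  ∃ E, Companion r F E ∧ ((∃ H, Companion2 r F E H) ∨ (∃ R, Control ![F, E] R) ∨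
    ∃ (k : ℕ) (γ : Fin k → ℂ → ℂ → (Fin 3 → ℂ)) (ρ : ℝ), ParamCurves F E γ ρ)

end Vale.Agent.P298.H119
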