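import Vale.Agent.P298.H119.Cond
import Vale.Agent.P298.H119.Defs

namespace Vale.Agent.P298.H119

open Set Metric Filter Topology Vale.Agent.P298
open scoped NNReal ContDiff Manifold

variable {k : ℕ} {F E : (Fin 3 → ℂ) → ℂ → ℂ} {γ : Fin k → ℂ → ℂ → (Fin 3 → ℂ)} {ρ : ℝ}

/-- The uncurried arc. -/
def arc (γ : Fin k → ℂ → ℂ → (Fin 3 → ℂ)) : Fin k → ℂ × ℂ → (Fin 3 → ℂ) :=
  fun i q => γ i q.1 q.2

theorem hasDerivAt_arc (h : ParamCurves F E γ ρ) (i : Fin k) {s t : ℂ} (hs : s ∈ ball (0 : ℂ) ρ)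
    (ht : t ∈ ball (0 : ℂ) ρ) :
    HasDerivAt (fun s => γ i s t) (fderiv ℂ (arc γ i) (s, t) (1, 0)) s := by
  have h1 : HasFDerivAt (arc γ i) (fderiv ℂ (arc γ i) (s, t)) (s, t) :=
    (h.hol i s hs t ht).differentiableAt.hasFDerivAt
  have h2 : HasDerivAt (fun z : ℂ => (z, t)) ((1 : ℂ), (0 : ℂ)) s :=
    (hasDerivAt_id s).prodMk (hasDerivAt_const s t)
  exact h1.comp_hasDerivAt s h2

theorem hasDerivAt_arc_t (h : ParamCurves F E γ ρ) (i : Fin k) {s t : ℂ}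
    (hs : s ∈ ball (0 : ℂ) ρ) (ht : t ∈ ball (0 : ℂ) ρ) :
    HasDerivAt (fun t => γ i s t) (fderiv ℂ (arc γ i) (s, t) (0, 1)) t := by
  have h1 : HasFDerivAt (arc γ i) (fderiv ℂ (arc γ i) (s, t)) (s, t) :=
    (h.hol i s hs t ht).differentiableAt.hasFDerivAt
  have h2 : HasDerivAt (fun z : ℂ => (s, z)) ((0 : ℂ), (1 : ℂ)) t :=
    (hasDerivAt_const t s).prodMk (hasDerivAt_id t)
  exact h1.comp_hasDerivAt t h2

theorem arcs_of_param (h : ParamCurves F E γ ρ) : Arcs (ρ / 2) (arc γ) := by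
  have hρ := h.pos
  have hb : ∀ s : ℂ, ‖s‖ ≤ ρ / 2 → s ∈ ball (0 : ℂ) ρ := fun s hs => by
    rw [mem_ball, dist_zero_right]
    linarith
  refine ⟨fun i q h1 h2 => h.hol i q.1 (hb _ h1) q.2 (hb _ h2), fun i t ht => h.zero i t (hb _ ht),
    fun i j s s' t h1 h2 h3 he => h.inj i j s (hb _ h1) s' (hb _ h2) t (hb _ h3) he,
    fun i s t h0 h1 h2 => ?_⟩
  rw [← (hasDerivAt_arc h i (hb _ h1) (hb _ h2)).deriv]
  exact h.imm i s (hb _ h1) t (hb _ h2) h0

/-- The tangent vectors of the arcs are in the kernel of `d_x f_t`. -/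
theorem dX_arc {G : (Fin 3 → ℂ) → ℂ → ℂ} (h : ParamCurves F E γ ρ)
    (hG : ∀ i, ∀ s ∈ ball (0 : ℂ) ρ, ∀ t ∈ ball (0 : ℂ) ρ, G (γ i s t) t = 0)
    (i : Fin k) {s t : ℂ} (hs : s ∈ ball (0 : ℂ) ρ) (ht : t ∈ ball (0 : ℂ) ρ)
    (aG : AnalyticAt ℂ (unc G) (γ i s t, t)) :
    dX (unc G) (γ i s t, t) (fderiv ℂ (arc γ i) (s, t) (1, 0)) = 0 := by
  have h1 : HasFDerivAt (unc G) (fderiv ℂ (unc G) (γ i s t, t)) (γ i s t, t) :=
    aG.differentiableAt.hasFDerivAt
  have h2 : HasDerivAt (fun z : ℂ => (γ i z t, t))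
      (fderiv ℂ (arc γ i) (s, t) (1, 0), (0 : ℂ)) s :=
    (hasDerivAt_arc h i hs ht).prodMk (hasDerivAt_const s t)
  have h3 : HasDerivAt (fun z : ℂ => unc G (γ i z t, t))
      (fderiv ℂ (unc G) (γ i s t, t) (fderiv ℂ (arc γ i) (s, t) (1, 0), (0 : ℂ))) s :=
    HasFDerivAt.comp_hasDerivAt (f := fun z : ℂ => (γ i z t, t)) s h1 h2
  have h4 : (fun z : ℂ => unc G (γ i z t, t)) =ᶠ[𝓝 s] fun _ => (0 : ℂ) := by
    filter_upwards [isOpen_ball.mem_nhds hs] with z hz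
    exact hG i z hz t ht
  have h5 := (hasDerivAt_const s (0 : ℂ)).congr_of_eventuallyEq h4
  exact h3.unique h5

/-- The `t`-derivatives of the arcs lift `∂/∂t` to the zero set. -/
theorem dT_arc {G : (Fin 3 → ℂ) → ℂ → ℂ} (h : ParamCurves F E γ ρ)
    (hG : ∀ i, ∀ s ∈ ball (0 : ℂ) ρ, ∀ t ∈ ball (0 : ℂ) ρ, G (γ i s t) t = 0)
    (i : Fin k) {s t : ℂ} (hs : s ∈ ball (0 : ℂ) ρ) (ht : t ∈ ball (0 : ℂ) ρ)
    (aG : AnalyticAt ℂ (unc G) (γ i s t, t)) :
    fderiv ℂ (unc G) (γ i s t, t) (fderiv ℂ (arc γ i) (s, t) (0, 1), 1) = 0 := by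
  have h1 : HasFDerivAt (unc G) (fderiv ℂ (unc G) (γ i s t, t)) (γ i s t, t) :=
    aG.differentiableAt.hasFDerivAt
  have h2 : HasDerivAt (fun z : ℂ => (γ i s z, z))
      (fderiv ℂ (arc γ i) (s, t) (0, 1), (1 : ℂ)) t :=
    (hasDerivAt_arc_t h i hs ht).prodMk (hasDerivAt_id t)
  have h3 : HasDerivAt (fun z : ℂ => unc G (γ i s z, z))
      (fderiv ℂ (unc G) (γ i s t, t) (fderiv ℂ (arc γ i) (s, t) (0, 1), (1 : ℂ))) t :=
    HasFDerivAt.comp_hasDerivAt (f := fun z : ℂ => (γ i s z, z)) t h1 h2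
  have h4 : (fun z : ℂ => unc G (γ i s z, z)) =ᶠ[𝓝 t] fun _ => (0 : ℂ) := by
    filter_upwards [isOpen_ball.mem_nhds ht] with z hz
    exact hG i s hs z hz
  have h5 := (hasDerivAt_const t (0 : ℂ)).congr_of_eventuallyEq h4
  exact h3.unique h5

/-- A control function `R` with `R = |s|²` on the arcs is not critical on the arcs. -/
theorem cplx_arc_ne {R : (Fin 3 → ℂ) × ℂ → ℝ} (h : ParamCurves F E γ ρ)
    (hR : ∀ i, ∀ q ∈ Dk (ρ / 2), R (arc γ i q, q.2) = ‖q.1‖ ^ 2)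
    (i : Fin k) {s t : ℂ} (hs : ‖s‖ < ρ / 2) (ht : ‖t‖ < ρ / 2) (h0 : s ≠ 0)
    (dR : DifferentiableAt ℝ R (γ i s t, t)) :
    rX (cplx (fderiv ℝ R (γ i s t, t))) (fderiv ℂ (arc γ i) (s, t) (1, 0)) ≠ 0 := by
  have hρ := h.pos
  have hs' : s ∈ ball (0 : ℂ) ρ := by rw [mem_ball, dist_zero_right]; linarith
  have ht' : t ∈ ball (0 : ℂ) ρ := by rw [mem_ball, dist_zero_right]; linarith
  set w : Fin 3 → ℂ := fderiv ℂ (arc γ i) (s, t) (1, 0) with hw
  set D := fderiv ℝ R (γ i s t, t) with hD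
  intro hc
  -- along the real line through `s` in direction `s`
  have h1 : HasFDerivAt R D (γ i s t, t) := dR.hasFDerivAt
  have h2 : HasDerivAt (fun z : ℂ => (γ i z t, t)) (w, (0 : ℂ)) s :=
    (hasDerivAt_arc h i hs' ht').prodMk (hasDerivAt_const s t)
  have h3 : HasDerivAt (fun a : ℝ => ((1 + a : ℝ) : ℂ) * s) s 0 := by
    have h4 : HasDerivAt (fun a : ℝ => (1 + a : ℝ)) 1 0 := by
      simpa using (hasDerivAt_id (0 : ℝ)).const_add 1
    simpa using h4.ofReal_comp.mul_const s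
  have h5 : HasDerivAt (fun a : ℝ => (γ i (((1 + a : ℝ) : ℂ) * s) t, t)) (s • (w, (0 : ℂ))) 0 := by
    have h6 : HasDerivAt (fun z : ℂ => (γ i z t, t)) (w, (0 : ℂ)) (((1 + (0 : ℝ) : ℝ) : ℂ) * s) := by
      simpa using h2
    exact h6.scomp (0 : ℝ) h3
  have h7 : HasDerivAt (fun a : ℝ => R (γ i (((1 + a : ℝ) : ℂ) * s) t, t)) (D (s • (w, (0 : ℂ)))) 0 := by
    have h8 : HasFDerivAt R D (γ i (((1 + (0 : ℝ) : ℝ) : ℂ) * s) t, t) := by
      simpa using h1
    exact h8.comp_hasDerivAt (0 : ℝ) h5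
  have h9 : (fun a : ℝ => R (γ i (((1 + a : ℝ) : ℂ) * s) t, t)) =ᶠ[𝓝 0]
      fun a : ℝ => (1 + a) ^ 2 * ‖s‖ ^ 2 := by
    have hcont : ContinuousAt (fun a : ℝ => ‖((1 + a : ℝ) : ℂ) * s‖) 0 := by fun_prop
    have h10 : ∀ᶠ a : ℝ in 𝓝 0, ‖((1 + a : ℝ) : ℂ) * s‖ < ρ / 2 := by
      refine hcont.eventually_lt continuousAt_const ?_
      simpa using hs
    filter_upwards [h10] with a ha
    have h11 := hR i (((1 + a : ℝ) : ℂ) * s, t) (mem_Dk.2 ⟨ha.le, ht.le⟩)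
    simp only [arc] at h11
    rw [h11, norm_mul, mul_pow, Complex.norm_real, Real.norm_eq_abs, sq_abs]
  have h12 : HasDerivAt (fun a : ℝ => (1 + a) ^ 2 * ‖s‖ ^ 2) (2 * ‖s‖ ^ 2) 0 := by
    have h13 : HasDerivAt (fun a : ℝ => (1 + a) ^ 2) (2 : ℝ) 0 := by
      have h14 : HasDerivAt (fun a : ℝ => (1 + a : ℝ)) 1 0 := by
        simpa using (hasDerivAt_id (0 : ℝ)).const_add 1
      simpa using h14.fun_pow 2
    exact h13.mul_const _
  have h15 : D (s • (w, (0 : ℂ))) = 2 * ‖s‖ ^ 2 :=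
    h7.unique (h12.congr_of_eventuallyEq h9)
  have h16 : D (s • (w, (0 : ℂ))) = 0 := by
    rw [← re_cplx, map_smul]
    have h17 : cplx D (w, (0 : ℂ)) = 0 := hc
    rw [h17, smul_zero, Complex.zero_re]
  rw [h16] at h15
  have h18 : 0 < ‖s‖ := norm_pos_iff.2 h0
  nlinarith [pow_pos h18 2]

/-- The `t`-derivatives of the arcs preserve a control function `R` with `R = |s|²` on the
arcs. -/
theorem cplx_arc_t {R : (Fin 3 → ℂ) × ℂ → ℝ} (h : ParamCurves F E γ ρ)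
    (hR : ∀ i, ∀ q ∈ Dk (ρ / 2), R (arc γ i q, q.2) = ‖q.1‖ ^ 2)
    (i : Fin k) {s t : ℂ} (hs : ‖s‖ < ρ / 2) (ht : ‖t‖ < ρ / 2)
    (dR : DifferentiableAt ℝ R (γ i s t, t)) :
    cplx (fderiv ℝ R (γ i s t, t)) (fderiv ℂ (arc γ i) (s, t) (0, 1), 1) = 0 := by
  have hρ := h.pos
  have hs' : s ∈ ball (0 : ℂ) ρ := by rw [mem_ball, dist_zero_right]; linarith
  have ht' : t ∈ ball (0 : ℂ) ρ := by rw [mem_ball, dist_zero_right]; linarith
  set w : Fin 3 → ℂ := fderiv ℂ (arc γ i) (s, t) (0, 1) with hw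
  set D := fderiv ℝ R (γ i s t, t) with hD
  have key : ∀ c : ℂ, D (c • (w, (1 : ℂ))) = 0 := by
    intro c
    have h1 : HasFDerivAt R D (γ i s t, t) := dR.hasFDerivAt
    have h2 : HasDerivAt (fun z : ℂ => (γ i s z, z)) (w, (1 : ℂ)) t :=
      (hasDerivAt_arc_t h i hs' ht').prodMk (hasDerivAt_id t)
    have h3 : HasDerivAt (fun a : ℝ => t + (a : ℂ) * c) c 0 := by
      have h4 : HasDerivAt (fun a : ℝ => (a : ℝ)) 1 0 := hasDerivAt_id (0 : ℝ)
      simpa using (h4.ofReal_comp.mul_const c).const_add t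
    have h5 : HasDerivAt (fun a : ℝ => (γ i s (t + (a : ℂ) * c), t + (a : ℂ) * c))
        (c • (w, (1 : ℂ))) 0 := by
      have h6 : HasDerivAt (fun z : ℂ => (γ i s z, z)) (w, (1 : ℂ)) (t + ((0 : ℝ) : ℂ) * c) := by
        simpa using h2
      exact h6.scomp (0 : ℝ) h3
    have h7 : HasDerivAt (fun a : ℝ => R (γ i s (t + (a : ℂ) * c), t + (a : ℂ) * c))
        (D (c • (w, (1 : ℂ)))) 0 := by
      have h8 : HasFDerivAt R D (γ i s (t + ((0 : ℝ) : ℂ) * c), t + ((0 : ℝ) : ℂ) * c) := by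
        simpa using h1
      exact h8.comp_hasDerivAt (0 : ℝ) h5
    have h9 : (fun a : ℝ => R (γ i s (t + (a : ℂ) * c), t + (a : ℂ) * c)) =ᶠ[𝓝 0]
        fun _ : ℝ => ‖s‖ ^ 2 := by
      have hcont : ContinuousAt (fun a : ℝ => ‖t + (a : ℂ) * c‖) 0 := by fun_prop
      have h10 : ∀ᶠ a : ℝ in 𝓝 0, ‖t + (a : ℂ) * c‖ < ρ / 2 := by
        refine hcont.eventually_lt continuousAt_const ?_
        simpa using ht
      filter_upwards [h10] with a ha
      exact hR i (s, t + (a : ℂ) * c) (mem_Dk.2 ⟨hs.le, ha.le⟩)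
    exact h7.unique ((hasDerivAt_const (0 : ℝ) (‖s‖ ^ 2)).congr_of_eventuallyEq h9)
  have k1 := key 1
  rw [one_smul] at k1
  rw [cplx_apply, k1, key Complex.I]
  simp

/-- **One companion.** If the curves `f_t = e_t = 0` are simultaneously parametrized then the
family is topologically right-trivial, by a trivialization which extends the one of the
curves. -/
theorem triv_of_arcs {r : ℝ} (hr : 0 < r) (hF : IsHolFamily r F) (hE : IsHolFamily r E) {μ a : ℕ}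
    (h₁ : ∀ t ∈ ball (0 : ℂ) r, Milnor (F · t) μ)
    (h₂ : ∀ t ∈ ball (0 : ℂ) r, Colength ![(F · t), minor2 0 1 (F · t) (E · t),
      minor2 0 2 (F · t) (E · t), minor2 1 2 (F · t) (E · t)] a)
    (h : ParamCurves F E γ ρ) :
    ∃ δ : ℝ, 0 < δ ∧ δ ≤ r ∧ δ ≤ ρ ∧ ∃ e : OpenPartialHomeomorph ((Fin 3 → ℂ) × ℂ) ((Fin 3 → ℂ) × ℂ),
      (∀ p ∈ e.source, ‖p.2‖ < δ) ∧ (∀ t : ℂ, ‖t‖ < δ → (0, t) ∈ e.source) ∧
      (∀ p, (e p).2 = p.2) ∧ (∀ t, e (0, t) = (0, t)) ∧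
      (∀ p ∈ e.source, F (e p).1 p.2 = F p.1 0) ∧
      (∀ p ∈ e.source, F p.1 0 = 0 → E (e p).1 p.2 = E p.1 0) ∧
      (∀ i, ∃ ε > 0, ∀ s ∈ ball (0 : ℂ) ε, ∀ t : ℂ, (γ i s 0, t) ∈ e.source →
        e (γ i s 0, t) = (γ i s t, t)) := by
  have hρ := h.pos
  have h0r : (0 : ℂ) ∈ ball (0 : ℂ) r := mem_ball_self hr
  have aF : AnalyticAt ℂ (unc F) (0, 0) := (hF 0 h0r).1
  have aE : AnalyticAt ℂ (unc E) (0, 0) := (hE 0 h0r).1
  have hne : Nonempty (Fin k) := by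
    obtain ⟨i, -⟩ := (h.cover 1 one_pos).self_of_nhds (hF 0 h0r).2 (hE 0 h0r).2
    exact ⟨i⟩
  obtain ⟨R, R1, R2, R3, R4⟩ := exists_control (arcs_of_param h)
  set r₀ : ℝ := min (r / 2) (ρ / 2) with hr₀
  have hr₀0 : 0 < r₀ := lt_min (by linarith) (by linarith)
  have hr₀r : r₀ < r := (min_le_left _ _).trans_lt (by linarith)
  have hr₀ρ : r₀ ≤ ρ / 2 := min_le_right _ _
  have hsnd : ∀ᶠ p in 𝓝 ((0 : Fin 3 → ℂ), (0 : ℂ)), ‖p.2‖ < ρ / 2 := by
    refine (continuous_snd.norm.continuousAt).eventually_lt continuousAt_const ?_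
    simpa using hρ
  have main : Triv r₀ (unc F) (unc E) (fun p => (R p : ℂ)) (fderiv ℂ (unc E))
      (fun p => cplx (fderiv ℝ R p)) := by
    refine triv_of_eventually hr₀0 aF
      (aE.eventually_analyticAt.mono fun p hp => ctlAt_of_analytic hp) ?_ ?_ ?_
    · filter_upwards [hsnd] with p hp
      refine ctlAt_of_real ?_ (R1 p)
      by_cases hp1 : p.1 = 0
      · have : p = (0, p.2) := by rw [← hp1]
        rw [this]
        exact R2 p.2 hp.le
      · exact (R1 p hp1).continuousAt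
    · filter_upwards [eventually_axis hr hF, eventually_axis hr hE] with t h1 h2
      exact ⟨h1, h2, by rw [R3 t, Complex.ofReal_zero]⟩
    · filter_upwards [good_of_colength hr hF hE h₁ h₂, h.cover (ρ / 2) (by linarith), hsnd,
        aF.eventually_analyticAt, aE.eventually_analyticAt] with p hp hc hp2 aFp aEp
      refine ⟨hp.1, hp.2, fun h3 h5 h6 => ?_, fun h5 h6 h7 => ?_⟩
      · obtain ⟨i, s, hs, he⟩ := hc h5 h6
        have hs' : ‖s‖ < ρ / 2 := by simpa using hs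
        have hsρ : s ∈ ball (0 : ℂ) ρ := by rw [mem_ball, dist_zero_right]; linarith
        have htρ : p.2 ∈ ball (0 : ℂ) ρ := by rw [mem_ball, dist_zero_right]; linarith
        have hs0 : s ≠ 0 := by
          intro hs0
          apply h3
          rw [he, hs0, h.zero i _ htρ]
        have hpe : (γ i s p.2, p.2) = p := Prod.ext he.symm rfl
        have hg := hp.2 h3 h5
        have ha : dX (unc F) p (fderiv ℂ (arc γ i) (s, p.2) (1, 0)) = 0 := by
          have := dX_arc h (G := F) (fun i s hs t ht => (h.mem i s hs t ht).1) i hsρ htρ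
            (by rw [hpe]; exact aFp)
          rwa [hpe] at this
        have hb : dX (unc E) p (fderiv ℂ (arc γ i) (s, p.2) (1, 0)) = 0 := by
          have := dX_arc h (G := E) (fun i s hs t ht => (h.mem i s hs t ht).2) i hsρ htρ
            (by rw [hpe]; exact aEp)
          rwa [hpe] at this
        have hcc : rX (cplx (fderiv ℝ R p)) (fderiv ℂ (arc γ i) (s, p.2) (1, 0)) ≠ 0 := by
          have := cplx_arc_ne h R4 i hs' hp2 hs0
            (by rw [hpe]; exact (R1 p h3).differentiableAt (by norm_num))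
          rwa [hpe] at this
        exact surjective_triple hg ha hb hcc
      · by_contra hp1
        obtain ⟨i, s, hs, he⟩ := hc h5 h6
        have hs' : ‖s‖ < ρ / 2 := by simpa using hs
        have htρ : p.2 ∈ ball (0 : ℂ) ρ := by rw [mem_ball, dist_zero_right]; linarith
        have h8 := R4 i (s, p.2) (mem_Dk.2 ⟨hs'.le, hp2.le⟩)
        have h9 : ((arc γ i (s, p.2)), p.2) = p := Prod.ext he.symm rfl
        have h7' : ((R p : ℝ) : ℂ) = 0 := h7
        have h10 : R p = 0 := by exact_mod_cast h7'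
        rw [h9, h10] at h8
        have h11 : s = 0 := by
          have : ‖s‖ ^ 2 = 0 := h8.symm
          simpa using this
        apply hp1
        rw [he, h11, h.zero i _ htρ]
  obtain ⟨δ, r', hδ, hδr, hr', hr'r, e, e1, e2, e3, e4, e5, e6, -, -, -, e10⟩ := main
  have hδρ : δ ≤ ρ / 2 := hδr.trans hr₀ρ
  refine ⟨δ, hδ, by linarith, by linarith, e, e1, e2, e3, e4, ?_, ?_, ?_⟩
  · intro p hp
    have := e5 p hp
    simp only [unc] at this
    rw [e3 p] at this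
    exact this
  · intro p hp h0
    have := e6 p hp h0
    simp only [unc] at this
    rw [e3 p] at this
    exact this
  · intro i
    -- near the axis, uniformly in `t`
    have hcont : ∀ t : ℂ, ‖t‖ ≤ δ → ContinuousAt (fun z : ℂ × ℂ => γ i z.1 z.2) (0, t) :=
      fun t ht => (h.hol i 0 (mem_ball_self hρ) t (by
        rw [mem_ball, dist_zero_right]; linarith)).continuousAt
    have hcont2 : ∀ t : ℂ, ‖t‖ ≤ δ → Tendsto (fun z : ℂ × ℂ => (γ i z.1 z.2, z.2)) (𝓝 (0, t))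
        (𝓝 ((0 : Fin 3 → ℂ), t)) := by
      intro t ht
      have h1 : ContinuousAt (fun z : ℂ × ℂ => (γ i z.1 z.2, z.2)) (0, t) :=
        (hcont t ht).prodMk continuous_snd.continuousAt
      have h2 := h1.tendsto
      simp only at h2
      rwa [h.zero i t (by rw [mem_ball, dist_zero_right]; linarith)] at h2
    have htr : ∀ t : ℂ, ‖t‖ ≤ δ → t ∈ ball (0 : ℂ) r := fun t ht => by
      rw [mem_ball, dist_zero_right]; linarith
    have hev : ∀ᶠ s in 𝓝 (0 : ℂ), ∀ t ∈ closedBall (0 : ℂ) δ, ‖γ i s t‖ < r' ∧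
        AnalyticAt ℂ (unc F) (γ i s t, t) ∧ AnalyticAt ℂ (unc E) (γ i s t, t) := by
      refine (isCompact_closedBall (0 : ℂ) δ).eventually_forall_of_forall_eventually
        (P := fun s t => ‖γ i s t‖ < r' ∧ AnalyticAt ℂ (unc F) (γ i s t, t) ∧
          AnalyticAt ℂ (unc E) (γ i s t, t)) ?_
      intro t ht
      have ht' : ‖t‖ ≤ δ := by simpa using ht
      have k1 : ∀ᶠ z : ℂ × ℂ in 𝓝 (0, t), ‖γ i z.1 z.2‖ < r' := by
        refine (hcont t ht').norm.eventually_lt continuousAt_const ?_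
        simp only
        rw [h.zero i t (by rw [mem_ball, dist_zero_right]; linarith), norm_zero]
        exact hr'
      have k2 : ∀ᶠ z : ℂ × ℂ in 𝓝 (0, t), AnalyticAt ℂ (unc F) (γ i z.1 z.2, z.2) :=
        (hcont2 t ht').eventually ((hF t (htr t ht')).1.eventually_analyticAt)
      have k3 : ∀ᶠ z : ℂ × ℂ in 𝓝 (0, t), AnalyticAt ℂ (unc E) (γ i z.1 z.2, z.2) :=
        (hcont2 t ht').eventually ((hE t (htr t ht')).1.eventually_analyticAt)
      filter_upwards [k1, k2, k3] with z h1 h2 h3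
      exact ⟨h1, h2, h3⟩
    obtain ⟨ε₁, hε₁, hball⟩ := Metric.eventually_nhds_iff_ball.1 hev
    refine ⟨min ε₁ (ρ / 2), lt_min hε₁ (by linarith), fun s hs t hp => ?_⟩
    have hs1 : s ∈ ball (0 : ℂ) ε₁ := ball_subset_ball (min_le_left _ _) hs
    have hs2 : ‖s‖ < ρ / 2 := by
      have : s ∈ ball (0 : ℂ) (ρ / 2) := ball_subset_ball (min_le_right _ _) hs
      simpa using this
    have hsρ : s ∈ ball (0 : ℂ) ρ := by rw [mem_ball, dist_zero_right]; linarith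
    have htδ : ‖t‖ < δ := e1 _ hp
    have h0ρ : (0 : ℂ) ∈ ball (0 : ℂ) ρ := mem_ball_self hρ
    have htρ : t ∈ ball (0 : ℂ) ρ := by rw [mem_ball, dist_zero_right]; linarith
    by_cases hs0 : s = 0
    · rw [hs0, h.zero i 0 h0ρ, h.zero i t htρ]
      exact e4 t
    · have hτt : ∀ τ ∈ Icc (0 : ℝ) 1, ‖τ • t‖ ≤ ‖t‖ := by
        intro τ hτ
        rw [norm_smul, Real.norm_eq_abs, abs_of_nonneg hτ.1]
        exact mul_le_of_le_one_left (norm_nonneg t) hτ.2
      have hfin : Module.finrank ℂ (Fin 3 → ℂ) = 3 := by simp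
      have key := e10 hfin (γ i s 0, t) hp (fun τ => γ i s (τ • t))
        (fun τ => fderiv ℂ (arc γ i) (s, τ • t) (0, 1)) (by simp) (by
          intro τ hτ
          have h1 : ‖τ • t‖ < δ := (hτt τ hτ).trans_lt htδ
          have h2 : τ • t ∈ ball (0 : ℂ) ρ := by rw [mem_ball, dist_zero_right]; linarith
          have h3 : ‖τ • t‖ < ρ / 2 := by linarith
          obtain ⟨b1, b2, b3⟩ := hball s hs1 (τ • t) (by
            rw [mem_closedBall_zero_iff]; exact h1.le)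
          have hγ0 : γ i s (τ • t) ≠ 0 := by
            intro hc
            rcases h.inj i i s hsρ 0 h0ρ (τ • t) h2 (by rw [hc, h.zero i _ h2]) with h4 | h4
            · exact hs0 h4.1
            · exact hs0 h4.2
          have dR : DifferentiableAt ℝ R (γ i s (τ • t), τ • t) :=
            (R1 (γ i s (τ • t), τ • t) hγ0).differentiableAt (by norm_num)
          refine ⟨hγ0, b1, (h.mem i s hsρ _ h2).1, (h.mem i s hsρ _ h2).2,
            dT_arc h (G := F) (fun i s hs t ht => (h.mem i s hs t ht).1) i hsρ h2 b2,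
            dT_arc h (G := E) (fun i s hs t ht => (h.mem i s hs t ht).2) i hsρ h2 b3,
            cplx_arc_t h R4 i hs2 h3 dR, ?_⟩
          have h5 : HasDerivAt (fun τ : ℝ => τ • t) ((1 : ℝ) • t) τ :=
            (hasDerivAt_id τ).smul_const t
          rw [one_smul] at h5
          have h6 : HasDerivAt (fun τ : ℝ => γ i s (τ • t))
              (t • fderiv ℂ (arc γ i) (s, τ • t) (0, 1)) τ :=
            (hasDerivAt_arc_t h i hsρ h2).scomp τ h5
          exact h6.hasDerivWithinAt)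
      simpa using key

end Vale.Agent.P298.H119
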