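import Vale.Agent.P298.H119.Arc

namespace Vale.Agent.P298.H119

open Set Metric Filter Topology Vale.Agent.P298
open scoped NNReal ContDiff Manifold

variable {X : Type*} [NormedAddCommGroup X] [NormedSpace ℂ X] [FiniteDimensional ℂ X]

/-- `E` is controlled by `DE` at the point `p`. -/
def CtlAt (E : X × ℂ → ℂ) (DE : X × ℂ → (X × ℂ →L[ℂ] ℂ)) (p : X × ℂ) : Prop :=
  ContinuousAt E p ∧ (p.1 ≠ 0 → ContDiffAt ℝ 1 DE p ∧ DifferentiableAt ℝ E p ∧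
    ∀ v : X, DE p (v, 1) = 0 → ∀ c : ℂ, fderiv ℝ E p (c • ((v, 1) : X × ℂ)) = 0)

omit [FiniteDimensional ℂ X] in
theorem ctlAt_of_analytic {E : X × ℂ → ℂ} {p : X × ℂ} (hE : AnalyticAt ℂ E p) :
    CtlAt E (fderiv ℂ E) p := by
  refine ⟨hE.continuousAt, fun _ => ⟨hE.fderiv.contDiffAt.restrict_scalars ℝ,
    hE.differentiableAt.restrictScalars ℝ, fun v hv c => ?_⟩⟩
  have h1 : fderiv ℝ E p = (fderiv ℂ E p).restrictScalars ℝ :=
    ((hE.differentiableAt.hasFDerivAt).restrictScalars ℝ).fderiv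
  rw [h1]
  change fderiv ℂ E p (c • ((v, 1) : X × ℂ)) = 0
  rw [map_smul, hv, smul_zero]

omit [FiniteDimensional ℂ X] in
theorem ctlAt_of_real {R : X × ℂ → ℝ} {p : X × ℂ} (hc : ContinuousAt R p)
    (hR : p.1 ≠ 0 → ContDiffAt ℝ 2 R p) :
    CtlAt (fun p => (R p : ℂ)) (fun p => cplx (fderiv ℝ R p)) p := by
  refine ⟨Complex.continuous_ofReal.continuousAt.comp hc, fun hne => ?_⟩
  have h1 : DifferentiableAt ℝ R p := (hR hne).differentiableAt (by norm_num)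
  have h2 : HasFDerivAt (fun p => (R p : ℂ)) (Complex.ofRealCLM.comp (fderiv ℝ R p)) p :=
    Complex.ofRealCLM.hasFDerivAt.comp p h1.hasFDerivAt
  refine ⟨contDiffAt_cplx ((hR hne).fderiv_right (m := 1) (by norm_num)), h2.differentiableAt,
    fun v hv c => ?_⟩
  rw [h2.fderiv]
  change ((fderiv ℝ R p (c • ((v, 1) : X × ℂ)) : ℝ) : ℂ) = 0
  rw [← re_cplx, map_smul, hv, smul_zero, Complex.zero_re, Complex.ofReal_zero]

/-- The conditions on a controlled flag at the point `p`. -/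
def Good (F E H : X × ℂ → ℂ) (DE DH : X × ℂ → (X × ℂ →L[ℂ] ℂ)) (p : X × ℂ) : Prop :=
  (p.1 ≠ 0 → Function.Surjective (dX F p)) ∧
  (p.1 ≠ 0 → F p = 0 → Function.Surjective ((dX F p).prod (rX (DE p)))) ∧
  (p.1 ≠ 0 → F p = 0 → E p = 0 →
    Function.Surjective ((dX F p).prod ((rX (DE p)).prod (rX (DH p))))) ∧
  (F p = 0 → E p = 0 → H p = 0 → p.1 = 0)

/-- A trivialization preserving a flag. -/
def Triv (r : ℝ) (F E H : X × ℂ → ℂ) (DE DH : X × ℂ → (X × ℂ →L[ℂ] ℂ)) : Prop :=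
  ∃ δ r' : ℝ, 0 < δ ∧ δ ≤ r ∧ 0 < r' ∧ r' ≤ r ∧ ∃ e : OpenPartialHomeomorph (X × ℂ) (X × ℂ),
      (∀ p ∈ e.source, ‖p.2‖ < δ) ∧ (∀ t : ℂ, ‖t‖ < δ → (0, t) ∈ e.source) ∧
      (∀ p, (e p).2 = p.2) ∧ (∀ t, e (0, t) = (0, t)) ∧
      (∀ p ∈ e.source, F (e p) = F (p.1, 0)) ∧
      (∀ p ∈ e.source, F (p.1, 0) = 0 → E (e p) = E (p.1, 0)) ∧
      (∀ p ∈ e.source, F (p.1, 0) = 0 → E (p.1, 0) = 0 → H (e p) = H (p.1, 0)) ∧
      (∀ p ∈ e.source, p.1 ≠ 0 → (e p).1 ≠ 0) ∧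
      (∀ p ∈ e.source, ‖p.1‖ < r' ∧ ‖(e p).1‖ < r') ∧
      (Module.finrank ℂ X = 3 → ∀ p ∈ e.source, ∀ y w : ℝ → X, y 0 = p.1 →
        Follows F E DE DH r' p.2 y w → e p = (y 1, p.2))

/-- The germ form of the theorem on controlled flags. -/
theorem triv_of_eventually {F E H : X × ℂ → ℂ} {DE DH : X × ℂ → (X × ℂ →L[ℂ] ℂ)} {r : ℝ}
    (hr : 0 < r) (aF : AnalyticAt ℂ F (0, 0)) (cE : ∀ᶠ p in 𝓝 (0, 0), CtlAt E DE p)
    (cH : ∀ᶠ p in 𝓝 (0, 0), CtlAt H DH p)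
    (hz : ∀ᶠ t in 𝓝 (0 : ℂ), F (0, t) = 0 ∧ E (0, t) = 0 ∧ H (0, t) = 0)
    (hg : ∀ᶠ p in 𝓝 (0, 0), Good F E H DE DH p) : Triv r F E H DE DH := by
  have hall := ((aF.eventually_analyticAt.and (cE.and cH)).and hg)
  obtain ⟨ε, hε, hball⟩ := Metric.eventually_nhds_iff_ball.1 hall
  obtain ⟨ε', hε', hball'⟩ := Metric.eventually_nhds_iff_ball.1 hz
  set ρ : ℝ := min (min (ε / 2) (ε' / 2)) (r / 2) with hρ
  have hρ0 : 0 < ρ := lt_min (lt_min (by linarith) (by linarith)) (by linarith)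
  have hρε : ρ < ε := (min_le_left _ _).trans_lt ((min_le_left _ _).trans_lt (by linarith))
  have hρε' : ρ < ε' := (min_le_left _ _).trans_lt ((min_le_right _ _).trans_lt (by linarith))
  have hρr : ρ < r := (min_le_right _ _).trans_lt (by linarith)
  have hbox : ∀ p : X × ℂ, ‖p.1‖ ≤ ρ → ‖p.2‖ ≤ ρ → p ∈ ball ((0 : X), (0 : ℂ)) ε := by
    intro p h1 h2
    rw [mem_ball, dist_eq_norm]
    refine lt_of_le_of_lt ?_ hρε
    rw [Prod.norm_def]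
    simpa using ⟨h1, h2⟩
  have hmem : ∀ p ∈ (closedBall (0 : X) ρ ×ˢ closedBall (0 : ℂ) ρ),
      p ∈ ball ((0 : X), (0 : ℂ)) ε := by
    rintro p ⟨h1, h2⟩
    exact hbox p (by simpa using h1) (by simpa using h2)
  have ht : ∀ t : ℂ, ‖t‖ ≤ ρ → t ∈ ball (0 : ℂ) ε' := by
    intro t h
    rw [mem_ball, dist_zero_right]
    linarith
  have mk : ∀ {E : X × ℂ → ℂ} {DE : X × ℂ → (X × ℂ →L[ℂ] ℂ)},
      (∀ p ∈ ball ((0 : X), (0 : ℂ)) ε, CtlAt E DE p) → (∀ t ∈ ball (0 : ℂ) ε', E (0, t) = 0) →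
      Ctl (closedBall 0 ρ ×ˢ closedBall 0 ρ) ρ E DE := by
    intro E DE h1 h2
    exact { cont := fun p hp => (h1 p (hmem p hp)).1.continuousWithinAt
            smooth := fun p hp hne => ((h1 p (hmem p hp)).2 hne).1
            axis := fun t h => h2 t (ht t h)
            diff := fun p hp hne => ((h1 p (hmem p hp)).2 hne).2.1
            deriv := fun p hp hne => ((h1 p (hmem p hp)).2 hne).2.2 }
  obtain ⟨e, e1, e2, e3, e4, e5, e6, e7, e8, e9, e10⟩ := trivial_of_ctl (F := F) (E := E) (H := H)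
    (DE := DE) (DH := DH) hρ0 hρ0
    (fun p hp => (hball p (hmem p hp)).1.1)
    (mk (fun p hp => (hball p hp).1.2.1) (fun t h => (hball' t h).2.1))
    (mk (fun p hp => (hball p hp).1.2.2) (fun t h => (hball' t h).2.2))
    (fun t h => (hball' t (ht t h)).1)
    (fun p h1 h2 h3 => (hball p (hbox p h1 h2)).2.1 h3)
    (fun p h1 h2 h3 h4 => (hball p (hbox p h1 h2)).2.2.1 h3 h4)
    (fun p h1 h2 h3 h4 h5 => (hball p (hbox p h1 h2)).2.2.2.1 h3 h4 h5)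
    (fun p h1 h2 h3 h4 h5 => (hball p (hbox p h1 h2)).2.2.2.2 h3 h4 h5)
  exact ⟨ρ / 2, ρ, by linarith, by linarith, hρ0, hρr.le, e, e1, e2, e3, e4, e5, e6, e7, e8, e9, e10⟩

end Vale.Agent.P298.H119
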