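import Vale.Agent.P298.H119.Defs

namespace Vale.Agent.P298.H119

open Filter Topology Metric Vale.Agent.P298

variable {n : ℕ}

/-- `F(x, t) = φ(f(x), g(x), t)` near `(0, 0)` for holomorphic germs `f, g, φ` with
`f(0) = g(0) = 0`: all members of the family are functions of two fixed functions. -/
def OfTwo (F : (Fin n → ℂ) → ℂ → ℂ) : Prop :=
  ∃ (f g : (Fin n → ℂ) → ℂ) (φ : ℂ × ℂ × ℂ → ℂ), Hol f ∧ Hol g ∧ f 0 = 0 ∧ g 0 = 0 ∧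
    AnalyticAt ℂ φ 0 ∧ ∀ᶠ p in 𝓝 ((0 : Fin n → ℂ), (0 : ℂ)), F p.1 p.2 = φ (f p.1, g p.1, p.2)

/-- `F(x, t) = φ(f(x), g₁(x), …, g_k(x), t)` near `(0, 0)` for holomorphic germs vanishing at `0`
such that `dφ₀(0)` is a nonzero multiple of `du`, and such that the linear system
`f + ∑ εⱼ gⱼ` has constant Milnor number near `ε = 0`. -/
def OfSystem (F : (Fin n → ℂ) → ℂ → ℂ) : Prop :=
  ∃ (k : ℕ) (f : (Fin n → ℂ) → ℂ) (g : Fin k → (Fin n → ℂ) → ℂ)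
    (φ : ℂ × (Fin k → ℂ) × ℂ → ℂ) (μ : ℕ), Hol f ∧ (∀ j, Hol (g j)) ∧ f 0 = 0 ∧
    (∀ j, g j 0 = 0) ∧ AnalyticAt ℂ φ 0 ∧ fderiv ℂ φ 0 (1, 0, 0) ≠ 0 ∧
    (∀ w : Fin k → ℂ, fderiv ℂ φ 0 (0, w, 0) = 0) ∧
    (∀ᶠ ε in 𝓝 (0 : Fin k → ℂ), Milnor (fun x => f x + ∑ j, ε j * g j x) μ) ∧
    ∀ᶠ p in 𝓝 ((0 : Fin n → ℂ), (0 : ℂ)), F p.1 p.2 = φ (f p.1, fun j => g j p.1, p.2)

/-- There are holomorphic families `g_{j,t}` such that `∂ₜf_t` and the `∂ₜg_{j,t}` are bounded by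
a multiple of `|f_t| + ∑ |g_{j,t}|`, and such that `f_t + ∑ εⱼ g_{j,t}` has constant Milnor number
near `(t, ε) = (0, 0)`. -/
def LinStable (F : (Fin n → ℂ) → ℂ → ℂ) : Prop :=
  ∃ (k : ℕ) (G : Fin k → (Fin n → ℂ) → ℂ → ℂ) (C : ℝ) (μ : ℕ),
    (∀ j, AnalyticAt ℂ (fun p : (Fin n → ℂ) × ℂ => G j p.1 p.2) (0, 0) ∧
      ∀ᶠ t in 𝓝 (0 : ℂ), G j 0 t = 0) ∧
    (∀ᶠ p in 𝓝 ((0 : Fin n → ℂ), (0 : ℂ)),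
      ‖deriv (fun t => F p.1 t) p.2‖ ≤ C * (‖F p.1 p.2‖ + ∑ j, ‖G j p.1 p.2‖) ∧
      ∀ i, ‖deriv (fun t => G i p.1 t) p.2‖ ≤ C * (‖F p.1 p.2‖ + ∑ j, ‖G j p.1 p.2‖)) ∧
    ∀ᶠ q in 𝓝 ((0 : ℂ), (0 : Fin k → ℂ)),
      Milnor (fun x => F x q.1 + ∑ j, q.2 j * G j x q.1) μ

/-- `F = u · (f + κ g)` near `(0, 0)` for holomorphic germs `f, g` on `ℂⁿ` vanishing at `0` and
holomorphic functions `u, κ` of `(x, t)` with `u(0, 0) ≠ 0` and `∂ₜκ(0, 0) ≠ 0`, and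
`|∂ₜF| ≤ C ∑ |∂F/∂xᵢ|` near `(0, 0)`. -/
def Twisted (F : (Fin n → ℂ) → ℂ → ℂ) : Prop :=
  ∃ (f g : (Fin n → ℂ) → ℂ) (u κ : (Fin n → ℂ) × ℂ → ℂ) (C : ℝ), Hol f ∧ Hol g ∧ f 0 = 0 ∧
    g 0 = 0 ∧ AnalyticAt ℂ u 0 ∧ AnalyticAt ℂ κ 0 ∧ u 0 ≠ 0 ∧ fderiv ℂ κ 0 (0, 1) ≠ 0 ∧
    (∀ᶠ p in 𝓝 ((0 : Fin n → ℂ), (0 : ℂ)), F p.1 p.2 = u p * (f p.1 + κ p * g p.1)) ∧
    ∀ᶠ p in 𝓝 ((0 : Fin n → ℂ), (0 : ℂ)),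
      ‖deriv (fun t => F p.1 t) p.2‖ ≤ C * ∑ i, ‖pd i (fun x => F x p.2) p.1‖

/-- The families of the four kinds above. -/
def Special (F : (Fin n → ℂ) → ℂ → ℂ) : Prop :=
  OfTwo F ∨ OfSystem F ∨ LinStable F ∨ Twisted F

end Vale.Agent.P298.H119
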