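import Vale.Agent.P298.H119.LinSys2
import Vale.Agent.P298.H974.BoundPhi

namespace Vale.Agent.P298.H119

open Set Metric Filter Topology Vale.Agent.P298
open scoped NNReal ContDiff Manifold

variable {n k : ℕ}

/-- **Functions of several functions spanning a `μ`-constant linear system.** -/
theorem isTriv_of_several {r : ℝ} (hr : 0 < r) {f : (Fin n → ℂ) → ℂ}
    {g : Fin k → (Fin n → ℂ) → ℂ} {φ : ℂ × (Fin k → ℂ) × ℂ → ℂ}
    (hf : AnalyticAt ℂ f 0) (hg : ∀ j, AnalyticAt ℂ (g j) 0) (f0 : f 0 = 0)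
    (g0 : ∀ j, g j 0 = 0) (hφ : AnalyticAt ℂ φ 0)
    (h0 : ∀ t ∈ ball (0 : ℂ) r, φ (0, 0, t) = 0)
    (hu : fderiv ℂ φ 0 (1, 0, 0) ≠ 0) (hv : ∀ w : Fin k → ℂ, fderiv ℂ φ 0 (0, w, 0) = 0) {μ : ℕ}
    (hμ : ∀ᶠ ε in 𝓝 (0 : Fin k → ℂ), Milnor (fun x => f x + ∑ j, ε j * g j x) μ) :
    ∃ δ : ℝ, 0 < δ ∧ δ ≤ r ∧ ∃ Φ, IsTriv δ (fun x t => φ (f x, fun j => g j x, t)) Φ ∧
      ∀ p ∈ Φ.source, f p.1 = 0 → (∀ j, g j p.1 = 0) → Φ p = p := by
  have h0r : (0 : ℂ) ∈ ball (0 : ℂ) r := mem_ball_self hr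
  have hnr : ∀ᶠ t in 𝓝 (0 : ℂ), t ∈ ball (0 : ℂ) r := isOpen_ball.mem_nhds h0r
  have hfst : Tendsto (fun p : (Fin n → ℂ) × ℂ => p.1) (𝓝 (0, 0)) (𝓝 0) :=
    (continuous_fst (X := Fin n → ℂ) (Y := ℂ)).tendsto (0, 0)
  have lift : ∀ {h : (Fin n → ℂ) → ℂ} {p : (Fin n → ℂ) × ℂ}, AnalyticAt ℂ h p.1 →
      AnalyticAt ℂ (fun p : (Fin n → ℂ) × ℂ => h p.1) p := fun hh => hh.comp analyticAt_fst
  have evf : ∀ᶠ p in 𝓝 ((0 : Fin n → ℂ), (0 : ℂ)), AnalyticAt ℂ f p.1 :=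
    hfst.eventually hf.eventually_analyticAt
  have evg : ∀ᶠ p in 𝓝 ((0 : Fin n → ℂ), (0 : ℂ)), ∀ j, AnalyticAt ℂ (g j) p.1 :=
    hfst.eventually (eventually_all.2 fun j => (hg j).eventually_analyticAt)
  -- the map to `(u, v, t)`
  set m : (Fin n → ℂ) × ℂ → ℂ × (Fin k → ℂ) × ℂ := fun p => (f p.1, fun j => g j p.1, p.2)
    with hm
  set E : (Fin n → ℂ) × ℂ → (Fin k → ℂ) := vec fun j x _ => g j x with hE
  have hma : ∀ {p : (Fin n → ℂ) × ℂ}, AnalyticAt ℂ f p.1 → (∀ j, AnalyticAt ℂ (g j) p.1) →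
      AnalyticAt ℂ m p := by
    intro p h1 h2
    exact (lift h1).prod ((analyticAt_pi_iff.2 fun j => lift (h2 j)).prod analyticAt_snd)
  have hm0 : m (0, 0) = 0 := by
    simp only [hm]
    rw [Prod.ext_iff, Prod.ext_iff]
    exact ⟨f0, funext fun j => g0 j, rfl⟩
  have hmt : Tendsto m (𝓝 (0, 0)) (𝓝 0) := by
    have h1 := (hma (p := ((0 : Fin n → ℂ), (0 : ℂ))) hf hg).continuousAt.tendsto
    rwa [hm0] at h1
  have evφ : ∀ᶠ p in 𝓝 ((0 : Fin n → ℂ), (0 : ℂ)), AnalyticAt ℂ φ (m p) :=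
    hmt.eventually hφ.eventually_analyticAt
  have aF : AnalyticAt ℂ (fun p => φ (m p)) (0, 0) := by
    have h1 : AnalyticAt ℂ φ (m (0, 0)) := by rw [hm0]; exact hφ
    exact AnalyticAt.comp (g := φ) (f := m) h1 (hma (p := ((0 : Fin n → ℂ), (0 : ℂ))) hf hg)
  have aG : ∀ j, AnalyticAt ℂ (fun p : (Fin n → ℂ) × ℂ => g j p.1) (0, 0) := fun j =>
    lift (p := ((0 : Fin n → ℂ), (0 : ℂ))) (hg j)
  have af : AnalyticAt ℂ (fun p : (Fin n → ℂ) × ℂ => f p.1) (0, 0) :=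
    lift (p := ((0 : Fin n → ℂ), (0 : ℂ))) hf
  -- the chain rule
  have hchain : ∀ p : (Fin n → ℂ) × ℂ, AnalyticAt ℂ f p.1 → (∀ j, AnalyticAt ℂ (g j) p.1) →
      AnalyticAt ℂ φ (m p) → ∀ w : (Fin n → ℂ) × ℂ, fderiv ℂ (fun p => φ (m p)) p w =
        fderiv ℂ φ (m p) (fderiv ℂ f p.1 w.1, fun j => fderiv ℂ (g j) p.1 w.1, w.2) := by
    intro p h1 h2 h3 w
    have k1 : HasFDerivAt (fun q : (Fin n → ℂ) × ℂ => f q.1)
        ((fderiv ℂ f p.1).comp (ContinuousLinearMap.fst ℂ _ ℂ)) p :=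
      h1.differentiableAt.hasFDerivAt.comp p hasFDerivAt_fst
    have k2 : ∀ j, HasFDerivAt (fun q : (Fin n → ℂ) × ℂ => g j q.1)
        ((fderiv ℂ (g j) p.1).comp (ContinuousLinearMap.fst ℂ _ ℂ)) p := fun j =>
      (h2 j).differentiableAt.hasFDerivAt.comp p hasFDerivAt_fst
    have k3 : HasFDerivAt m (((fderiv ℂ f p.1).comp (ContinuousLinearMap.fst ℂ _ ℂ)).prod
        ((ContinuousLinearMap.pi fun j =>
          (fderiv ℂ (g j) p.1).comp (ContinuousLinearMap.fst ℂ _ ℂ)).prod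
          (ContinuousLinearMap.snd ℂ _ ℂ))) p :=
      k1.prodMk ((hasFDerivAt_pi.2 k2).prodMk hasFDerivAt_snd)
    have k4 := HasFDerivAt.comp (g := φ) (f := m) p h3.differentiableAt.hasFDerivAt k3
    have k5 : fderiv ℂ (fun p => φ (m p)) p = _ := k4.fderiv
    rw [k5]
    rfl
  obtain ⟨C, hC⟩ := Vale.Agent.P298.H974.bound_phi hφ (hnr.mono h0) hu
  -- nonvanishing for the linear system
  obtain ⟨ρ₁, hρ₁, hV⟩ := nonvanish_of_milnor (F := fun x _ => f x) (G := fun j x _ => g j x)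
    (μ := μ) af aG (by
      have h1 : Tendsto (fun q : ℂ × (Fin k → ℂ) => q.2) (𝓝 (0, 0)) (𝓝 0) :=
        (continuous_snd (X := ℂ) (Y := Fin k → ℂ)).tendsto (0, 0)
      exact h1.eventually hμ)
  set a₀ : ℂ := fderiv ℂ φ 0 (1, 0, 0) with ha₀
  have ha₀' : 0 < ‖a₀‖ := norm_pos_iff.2 hu
  have hdφ : ∀ w, ContinuousAt (fun q => fderiv ℂ φ q w) 0 := fun w =>
    hφ.fderiv.continuousAt.clm_apply continuousAt_const
  have ev1 : ∀ᶠ q in 𝓝 (0 : ℂ × (Fin k → ℂ) × ℂ), ‖a₀‖ / 2 < ‖fderiv ℂ φ q (1, 0, 0)‖ :=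
    (hdφ (1, 0, 0)).norm.eventually (lt_mem_nhds (by
      change ‖a₀‖ / 2 < ‖a₀‖
      linarith))
  set η : ℝ := ρ₁ * ‖a₀‖ / 8 with hη
  have hη0 : 0 < η := by positivity
  have ev2 : ∀ᶠ q in 𝓝 (0 : ℂ × (Fin k → ℂ) × ℂ), ∀ j : Fin k,
      ‖fderiv ℂ φ q (0, Pi.single j 1, 0)‖ < η := by
    refine eventually_all.2 fun j => ?_
    refine (hdφ (0, Pi.single j 1, 0)).norm.eventually (gt_mem_nhds ?_)
    change ‖fderiv ℂ φ 0 (0, Pi.single j 1, 0)‖ < η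
    rw [hv, norm_zero]
    exact hη0
  have h := triv_of_linear (k := k) (F := fun p => φ (m p)) (E := E) (C := C) (ρ := η) hr hη0 aF
    (analyticAt_vecG aG) ?_ ?_ ?_
  · obtain ⟨δ, hδ, hδr, e, e1, e2, e3, e4, e5, e6⟩ := h
    refine ⟨δ, hδ, hδr, e, ⟨?_, ?_, ?_⟩, ?_⟩
    · intro p hp
      rw [mem_ball, dist_zero_right]
      exact e1 p hp
    · intro t ht
      rw [mem_ball, dist_zero_right] at ht
      exact ⟨e2 t ht, e4 t⟩
    · intro p hp
      refine ⟨e3 p, ?_⟩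
      have := e5 p hp
      simp only [hm] at this
      rw [e3 p] at this
      exact this
    · intro p hp h1 h2
      refine e6 p hp fun τ hτ => ⟨?_, ?_⟩
      · simp only [hm, h1, h2]
        refine h0 _ ?_
        rw [mem_ball, dist_zero_right, norm_smul, Real.norm_eq_abs, abs_of_nonneg hτ.1]
        have h3 := e1 p hp
        have h4 := mul_le_of_le_one_left (norm_nonneg p.2) hτ.2
        linarith
      · funext j
        exact h2 j
  · filter_upwards [hnr] with t ht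
    refine ⟨?_, ?_⟩
    · have h1 : m (0, t) = (0, 0, t) := by
        simp only [hm]
        rw [Prod.ext_iff, Prod.ext_iff]
        exact ⟨f0, funext fun j => g0 j, rfl⟩
      rw [h1]
      exact h0 t ht
    · funext j
      exact g0 j
  · filter_upwards [evf, evg, evφ, hmt.eventually hC] with p p1 p2 p3 p4
    refine ⟨?_, ?_⟩
    · rw [hchain p p1 p2 p3]
      have e1 : ((fderiv ℂ f p.1 (0, (1 : ℂ)).1, fun j => fderiv ℂ (g j) p.1 (0, (1 : ℂ)).1,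
          ((0 : Fin n → ℂ), (1 : ℂ)).2) : ℂ × (Fin k → ℂ) × ℂ) = (0, 0, 1) := by
        rw [Prod.ext_iff, Prod.ext_iff]
        refine ⟨?_, ?_, rfl⟩
        · simp
        · funext j; simp
      rw [e1]
      exact p4
    · have e2 : fderiv ℂ E p (0, 1) = 0 := by
        funext j
        have h2 : ∀ j, AnalyticAt ℂ (fun p : (Fin n → ℂ) × ℂ => g j p.1) p := fun j =>
          lift (p2 j)
        rw [hE, fderiv_vec (G := fun j x _ => g j x) h2]
        have k2 : HasFDerivAt (fun q : (Fin n → ℂ) × ℂ => g j q.1)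
            ((fderiv ℂ (g j) p.1).comp (ContinuousLinearMap.fst ℂ _ ℂ)) p :=
          (p2 j).differentiableAt.hasFDerivAt.comp p hasFDerivAt_fst
        rw [k2.fderiv]
        simp
      rw [e2, norm_zero]
      have h5 := (norm_nonneg _).trans p4
      exact h5
  · filter_upwards [hV, evf, evg, evφ, hmt.eventually ev1, hmt.eventually ev2]
      with p p1 p2 p3 p4 p5 p6 hne ε hε
    set a : ℂ := fderiv ℂ φ (m p) (1, 0, 0) with ha
    have ha0 : a ≠ 0 := by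
      rw [← norm_pos_iff]
      exact lt_trans (by positivity) p5
    obtain ⟨v, hv⟩ := p1 hne (fun j => (fderiv ℂ φ (m p) (0, Pi.single j 1, 0) + ε j) / a) (by
      refine lt_of_le_of_lt ?_ (half_lt_self hρ₁)
      rw [pi_norm_le_iff_of_nonneg (by positivity)]
      intro j
      rw [norm_div, div_le_iff₀ (norm_pos_iff.2 ha0)]
      have h1 := norm_add_le (fderiv ℂ φ (m p) (0, Pi.single j 1, 0)) (ε j)
      have h2 := norm_le_pi_norm ε j
      have h3 := p6 j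
      have h4 : ρ₁ / 2 * (‖a₀‖ / 2) ≤ ρ₁ / 2 * ‖a‖ :=
        mul_le_mul_of_nonneg_left p5.le (by positivity)
      have h5 : ρ₁ / 2 * (‖a₀‖ / 2) = 2 * η := by rw [hη]; ring
      linarith)
    refine ⟨v, fun hc => hv ?_⟩
    have h2 : ∀ j, AnalyticAt ℂ (fun p : (Fin n → ℂ) × ℂ => g j p.1) p := fun j => lift (p3 j)
    have hdf : dX (fun p : (Fin n → ℂ) × ℂ => f p.1) p v = fderiv ℂ f p.1 v := by
      have k1 : HasFDerivAt (fun q : (Fin n → ℂ) × ℂ => f q.1)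
          ((fderiv ℂ f p.1).comp (ContinuousLinearMap.fst ℂ _ ℂ)) p :=
        p2.differentiableAt.hasFDerivAt.comp p hasFDerivAt_fst
      rw [dX_apply, k1.fderiv]
      simp
    have hdg : ∀ j, fderiv ℂ E p (v, 0) j = fderiv ℂ (g j) p.1 v := by
      intro j
      rw [hE, fderiv_vec (G := fun j x _ => g j x) h2]
      have k1 : HasFDerivAt (fun q : (Fin n → ℂ) × ℂ => g j q.1)
          ((fderiv ℂ (g j) p.1).comp (ContinuousLinearMap.fst ℂ _ ℂ)) p :=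
        (p3 j).differentiableAt.hasFDerivAt.comp p hasFDerivAt_fst
      rw [k1.fderiv]
      simp
    have hdF : dX (fun p => φ (m p)) p v = a * fderiv ℂ f p.1 v +
        ∑ j, fderiv ℂ φ (m p) (0, Pi.single j 1, 0) * fderiv ℂ (g j) p.1 v := by
      rw [dX_apply, hchain p p2 p3 p4]
      have e1 : ((fderiv ℂ f p.1 v, fun j => fderiv ℂ (g j) p.1 v, (0 : ℂ)) :
          ℂ × (Fin k → ℂ) × ℂ) = fderiv ℂ f p.1 v • ((1, 0, 0) : ℂ × (Fin k → ℂ) × ℂ) +
          ∑ j, fderiv ℂ (g j) p.1 v • ((0, Pi.single j 1, 0) : ℂ × (Fin k → ℂ) × ℂ) := by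
        rw [Prod.ext_iff, Prod.ext_iff]
        refine ⟨?_, ?_, ?_⟩
        · simp [Prod.fst_sum]
        · funext i
          simp [Prod.snd_sum, Prod.fst_sum, Finset.sum_apply, Pi.single_apply]
        · simp [Prod.snd_sum]
      change fderiv ℂ φ (m p) (fderiv ℂ f p.1 v, fun j => fderiv ℂ (g j) p.1 v, (0 : ℂ)) = _
      rw [e1, map_add, map_smul, map_sum, smul_eq_mul, mul_comm]
      congr 1
      refine Finset.sum_congr rfl fun j _ => ?_
      rw [map_smul, smul_eq_mul, mul_comm]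
    change dX (fun p => φ (m p)) p v + ∑ j, ε j * fderiv ℂ E p (v, 0) j = 0 at hc
    change dX (fun p : (Fin n → ℂ) × ℂ => f p.1) p v +
      ∑ j, (fderiv ℂ φ (m p) (0, Pi.single j 1, 0) + ε j) / a * fderiv ℂ E p (v, 0) j = 0
    rw [hdF] at hc
    rw [hdf]
    simp only [hdg] at hc ⊢
    have e3 : a * (fderiv ℂ f p.1 v + ∑ j, (fderiv ℂ φ (m p) (0, Pi.single j 1, 0) + ε j) / a *
        fderiv ℂ (g j) p.1 v) = a * fderiv ℂ f p.1 v +
        ∑ j, fderiv ℂ φ (m p) (0, Pi.single j 1, 0) * fderiv ℂ (g j) p.1 v +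
        ∑ j, ε j * fderiv ℂ (g j) p.1 v := by
      rw [mul_add, Finset.mul_sum, add_assoc, ← Finset.sum_add_distrib]
      congr 1
      refine Finset.sum_congr rfl fun j _ => ?_
      field_simp
    rw [← e3] at hc
    exact (mul_eq_zero.1 hc).resolve_left ha0

end Vale.Agent.P298.H119
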