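import Vale.Agent.P298.H119.LinSys2

namespace Vale.Agent.P298.H119

open Set Metric Filter Topology Vale.Agent.P298
open scoped NNReal ContDiff Manifold

section Germ

variable {X : Type*} [NormedAddCommGroup X] [NormedSpace ℂ X] [FiniteDimensional ℂ X]

/-- Linearly stable families: the condition on the zero sets is enough. -/
theorem triv_of_linear' {k : ℕ} {F : X × ℂ → ℂ} {E : X × ℂ → (Fin k → ℂ)} {r C ρ : ℝ}
    (hr : 0 < r) (hρ : 0 < ρ)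
    (aF : AnalyticAt ℂ F (0, 0)) (aE : AnalyticAt ℂ E (0, 0))
    (hz : ∀ᶠ t in 𝓝 (0 : ℂ), F (0, t) = 0 ∧ E (0, t) = 0)
    (hI : ∀ᶠ q in 𝓝 ((0 : X), (0 : ℂ)), ‖fderiv ℂ F q (0, 1)‖ ≤ C * (‖F q‖ + ‖E q‖) ∧
      ‖fderiv ℂ E q (0, 1)‖ ≤ C * (‖F q‖ + ‖E q‖))
    (hP : ∀ᶠ p in 𝓝 ((0 : X), (0 : ℂ)), p.1 ≠ 0 → ∃ v, dX F p v ≠ 0)
    (hV : ∀ᶠ p in 𝓝 ((0 : X), (0 : ℂ)), p.1 ≠ 0 → F p = 0 → ∀ ε : Fin k → ℂ, ‖ε‖ < ρ →
      ∃ v, dX F p v + ∑ j, ε j * fderiv ℂ E p (v, 0) j ≠ 0) : LogTrivV r F E := by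
  have hI' : ∀ᶠ q in 𝓝 ((0 : X), (0 : ℂ)),
      ‖fderiv ℂ F q (0, 1)‖ ≤ max C 0 * (‖F q‖ + ‖E q‖) ∧
      ‖fderiv ℂ E q (0, 1)‖ ≤ max C 0 * (‖F q‖ + ‖E q‖) := by
    filter_upwards [hI] with q hq
    have h1 : C * (‖F q‖ + ‖E q‖) ≤ max C 0 * (‖F q‖ + ‖E q‖) :=
      mul_le_mul_of_nonneg_right (le_max_left _ _) (by positivity)
    exact ⟨hq.1.trans h1, hq.2.trans h1⟩
  refine triv_logV_of_eventually (K := 2 * max C 0 * (2 / ρ + 2) + 1) hr ?_ aF aE hz ?_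
  · have : 0 ≤ max C 0 := le_max_right _ _
    positivity
  · filter_upwards [hP, hV, hI'.eventually_nhds, aF.eventually_analyticAt,
      aE.eventually_analyticAt] with p p0 p1 p2 p3 p4 hne
    obtain ⟨v, hv⟩ := p0 hne
    have h0 : 0 ≤ max C 0 := le_max_right _ _
    refine ⟨surjective_of_ne_zero hv, fun hF hE => ?_, fun hF hE => ?_⟩
    · obtain ⟨ν, hν, hνE⟩ := exists_dual hρ (dX F p)
        ((fderiv ℂ E p).comp (ContinuousLinearMap.inl ℂ X ℂ)) (p1 hne hF)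
      exact (logV_of h0 (by positivity) p3 p4 hne hF p2 hν hνE).1 hE
    · obtain ⟨ν, hν, hνE⟩ := exists_dual hρ (dX F p)
        ((fderiv ℂ E p).comp (ContinuousLinearMap.inl ℂ X ℂ)) (p1 hne hF)
      exact (logV_of h0 (by positivity) p3 p4 hne hF p2 hν hνE).2 hE

end Germ

variable {n : ℕ}

/-- The derivative of `u (f + κ g)`. -/
theorem fderiv_twist {f g : (Fin n → ℂ) → ℂ} {u κ : (Fin n → ℂ) × ℂ → ℂ}
    {p : (Fin n → ℂ) × ℂ} (hf : AnalyticAt ℂ f p.1) (hg : AnalyticAt ℂ g p.1)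
    (hu : AnalyticAt ℂ u p) (hκ : AnalyticAt ℂ κ p) (w : (Fin n → ℂ) × ℂ) :
    fderiv ℂ (fun p : (Fin n → ℂ) × ℂ => u p * (f p.1 + κ p * g p.1)) p w =
      fderiv ℂ u p w * (f p.1 + κ p * g p.1) +
      u p * (fderiv ℂ f p.1 w.1 + fderiv ℂ κ p w * g p.1 + κ p * fderiv ℂ g p.1 w.1) := by
  have k1 : HasFDerivAt (fun q : (Fin n → ℂ) × ℂ => f q.1)
      ((fderiv ℂ f p.1).comp (ContinuousLinearMap.fst ℂ _ ℂ)) p :=
    hf.differentiableAt.hasFDerivAt.comp p hasFDerivAt_fst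
  have k2 : HasFDerivAt (fun q : (Fin n → ℂ) × ℂ => g q.1)
      ((fderiv ℂ g p.1).comp (ContinuousLinearMap.fst ℂ _ ℂ)) p :=
    hg.differentiableAt.hasFDerivAt.comp p hasFDerivAt_fst
  have k3 := hu.differentiableAt.hasFDerivAt
  have k4 := hκ.differentiableAt.hasFDerivAt
  have k5 := k3.mul (k1.add (k4.mul k2))
  have k6 : fderiv ℂ (fun p : (Fin n → ℂ) × ℂ => u p * (f p.1 + κ p * g p.1)) p = _ := k5.fderiv
  rw [k6]
  simp only [_root_.add_apply, _root_.smul_apply, smul_eq_mul,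
    ContinuousLinearMap.comp_apply, ContinuousLinearMap.coe_fst', Pi.mul_apply, Pi.add_apply]
  ring

/-- The nonvanishing for twisted pencils. -/
theorem twist_nonvanish {f g : (Fin n → ℂ) → ℂ} {u κ G : (Fin n → ℂ) × ℂ → ℂ}
    (hf : AnalyticAt ℂ f 0) (hg : AnalyticAt ℂ g 0)
    (hu : AnalyticAt ℂ u (0, 0)) (hκ : AnalyticAt ℂ κ (0, 0)) (hu0 : u (0, 0) ≠ 0)
    (hκ0 : fderiv ℂ κ (0, 0) (0, 1) ≠ 0)
    (hG : ∀ᶠ p in 𝓝 ((0 : Fin n → ℂ), (0 : ℂ)), G p = u p * (f p.1 + κ p * g p.1))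
    {C : ℝ} (hLS : ∀ᶠ p in 𝓝 ((0 : Fin n → ℂ), (0 : ℂ)),
      ‖fderiv ℂ G p (0, 1)‖ ≤ C * ∑ i, ‖dX G p (Pi.single i 1)‖)
    (hP : ∀ᶠ p in 𝓝 ((0 : Fin n → ℂ), (0 : ℂ)), p.1 ≠ 0 → ∃ v, dX G p v ≠ 0) :
    ∃ ρ : ℝ, 0 < ρ ∧ ∀ᶠ p in 𝓝 ((0 : Fin n → ℂ), (0 : ℂ)), p.1 ≠ 0 → G p = 0 → ∀ e : ℂ,
      ‖e‖ < ρ → ∃ v, dX G p v + e * fderiv ℂ g p.1 v ≠ 0 := by
  set p0 : (Fin n → ℂ) × ℂ := (0, 0) with hp0
  have hfst : Tendsto (fun p : (Fin n → ℂ) × ℂ => p.1) (𝓝 p0) (𝓝 0) :=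
    (continuous_fst (X := Fin n → ℂ) (Y := ℂ)).tendsto p0
  -- the good points
  have hgood : ∀ᶠ p in 𝓝 p0, (u p ≠ 0 ∧ G p = u p * (f p.1 + κ p * g p.1)) ∧
      (∀ w, fderiv ℂ G p w = fderiv ℂ u p w * (f p.1 + κ p * g p.1) +
        u p * (fderiv ℂ f p.1 w.1 + fderiv ℂ κ p w * g p.1 + κ p * fderiv ℂ g p.1 w.1)) ∧
      ‖fderiv ℂ G p (0, 1)‖ ≤ C * ∑ i, ‖dX G p (Pi.single i 1)‖ ∧
      (p.1 ≠ 0 → ∃ v, dX G p v ≠ 0) := by
    filter_upwards [hu.continuousAt.eventually_ne hu0, hG.eventually_nhds,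
      hfst.eventually hf.eventually_analyticAt, hfst.eventually hg.eventually_analyticAt,
      hu.eventually_analyticAt, hκ.eventually_analyticAt, hLS, hP]
      with p h1 h2 h3 h4 h5 h6 h7 h8
    refine ⟨⟨h1, h2.self_of_nhds⟩, fun w => ?_, h7, h8⟩
    have h9 : G =ᶠ[𝓝 p] fun p => u p * (f p.1 + κ p * g p.1) := h2
    rw [h9.fderiv_eq]
    exact fderiv_twist h3 h4 h5 h6 w
  -- the two brackets
  set c : ℝ := ‖u p0 * fderiv ℂ κ p0 (0, 1)‖ / 2 with hc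
  have hc0 : 0 < c := by
    have : 0 < ‖u p0 * fderiv ℂ κ p0 (0, 1)‖ := norm_pos_iff.2 (mul_ne_zero hu0 hκ0)
    positivity
  set η : ℝ := c / (2 * (|C| * n + 1)) with hη
  have hη0 : 0 < η := by positivity
  let B : ((Fin n → ℂ) × ℂ) × ((Fin n → ℂ) × ℂ) × ℂ → ((Fin n → ℂ) × ℂ →L[ℂ] ℂ) := fun z =>
    (z.2.2 / u z.1) • fderiv ℂ u z.2.1 + u z.2.1 • (fderiv ℂ κ z.2.1 - fderiv ℂ κ z.1)
  let T : ((Fin n → ℂ) × ℂ) × ((Fin n → ℂ) × ℂ) × ℂ → ℂ := fun z =>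
    (z.2.2 / u z.1) * fderiv ℂ u z.2.1 (0, 1) + u z.2.1 * fderiv ℂ κ z.2.1 (0, 1)
  have c1 : ContinuousAt (fun z : ((Fin n → ℂ) × ℂ) × ((Fin n → ℂ) × ℂ) × ℂ => z.1)
      (p0, p0, 0) := by fun_prop
  have c2 : ContinuousAt (fun z : ((Fin n → ℂ) × ℂ) × ((Fin n → ℂ) × ℂ) × ℂ => z.2.1)
      (p0, p0, 0) := by fun_prop
  have c3 : ContinuousAt (fun z : ((Fin n → ℂ) × ℂ) × ((Fin n → ℂ) × ℂ) × ℂ => z.2.2)
      (p0, p0, 0) := by fun_prop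
  have u1 : ContinuousAt (fun z : ((Fin n → ℂ) × ℂ) × ((Fin n → ℂ) × ℂ) × ℂ => u z.1)
      (p0, p0, 0) := ContinuousAt.comp (g := u) hu.continuousAt c1
  have u2 : ContinuousAt (fun z : ((Fin n → ℂ) × ℂ) × ((Fin n → ℂ) × ℂ) × ℂ => u z.2.1)
      (p0, p0, 0) := ContinuousAt.comp (g := u) hu.continuousAt c2
  have d1 : ContinuousAt (fun z : ((Fin n → ℂ) × ℂ) × ((Fin n → ℂ) × ℂ) × ℂ =>
      fderiv ℂ κ z.1) (p0, p0, 0) := ContinuousAt.comp (g := fderiv ℂ κ) hκ.fderiv.continuousAt c1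
  have d2 : ContinuousAt (fun z : ((Fin n → ℂ) × ℂ) × ((Fin n → ℂ) × ℂ) × ℂ =>
      fderiv ℂ κ z.2.1) (p0, p0, 0) :=
    ContinuousAt.comp (g := fderiv ℂ κ) hκ.fderiv.continuousAt c2
  have d3 : ContinuousAt (fun z : ((Fin n → ℂ) × ℂ) × ((Fin n → ℂ) × ℂ) × ℂ =>
      fderiv ℂ u z.2.1) (p0, p0, 0) :=
    ContinuousAt.comp (g := fderiv ℂ u) hu.fderiv.continuousAt c2
  have cB : ContinuousAt B (p0, p0, 0) :=
    ((c3.div u1 hu0).smul d3).add (u2.smul (d2.sub d1))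
  have cT : ContinuousAt T (p0, p0, 0) :=
    ((c3.div u1 hu0).mul (d3.clm_apply continuousAt_const)).add
      (u2.mul (d2.clm_apply continuousAt_const))
  have eB : ∀ᶠ z in 𝓝 (p0, p0, (0 : ℂ)), ‖B z‖ < η := by
    refine cB.norm.eventually (gt_mem_nhds ?_)
    have h0 : B (p0, p0, 0) = 0 := by
      refine ContinuousLinearMap.ext fun v => ?_
      simp [B]
    change ‖B (p0, p0, 0)‖ < η
    rw [h0, norm_zero]
    exact hη0
  have eT : ∀ᶠ z in 𝓝 (p0, p0, (0 : ℂ)), c < ‖T z‖ := by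
    refine cT.norm.eventually (lt_mem_nhds ?_)
    simp only [T]
    rw [zero_div, zero_mul, zero_add]
    have : 0 < ‖u p0 * fderiv ℂ κ p0 (0, 1)‖ := norm_pos_iff.2 (mul_ne_zero hu0 hκ0)
    rw [hc]
    linarith
  obtain ⟨ρ₀, hρ₀, hball⟩ := Metric.eventually_nhds_iff_ball.1 (eB.and eT)
  -- the open map
  let Ψ : (Fin n → ℂ) × ℂ → (Fin n → ℂ) × ℂ := fun p => (p.1, κ p)
  have hΨ : HasStrictFDerivAt Ψ ((ContinuousLinearMap.fst ℂ (Fin n → ℂ) ℂ).prod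
      (fderiv ℂ κ p0)) p0 := hasStrictFDerivAt_fst.prodMk hκ.hasStrictFDerivAt
  have hsurj : ((ContinuousLinearMap.fst ℂ (Fin n → ℂ) ℂ).prod (fderiv ℂ κ p0)).range = ⊤ := by
    rw [LinearMap.range_eq_top]
    rintro ⟨a, b⟩
    refine ⟨(a, (b - fderiv ℂ κ p0 (a, 0)) / fderiv ℂ κ p0 (0, 1)), ?_⟩
    have e1 : (a, (b - fderiv ℂ κ p0 (a, 0)) / fderiv ℂ κ p0 (0, 1)) =
        ((a, 0) : (Fin n → ℂ) × ℂ) +
        ((b - fderiv ℂ κ p0 (a, 0)) / fderiv ℂ κ p0 (0, 1)) • ((0, 1) : (Fin n → ℂ) × ℂ) := by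
      rw [Prod.ext_iff]
      simp
    refine Prod.ext_iff.2 ⟨rfl, ?_⟩
    change fderiv ℂ κ p0 (a, (b - fderiv ℂ κ p0 (a, 0)) / fderiv ℂ κ p0 (0, 1)) = b
    rw [e1, map_add, map_smul, smul_eq_mul, div_mul_cancel₀ _ hκ0]
    ring
  have hmap := hΨ.map_nhds_eq_of_surj hsurj
  set N : Set ((Fin n → ℂ) × ℂ) := {p | p ∈ ball p0 ρ₀ ∧
    (u p ≠ 0 ∧ G p = u p * (f p.1 + κ p * g p.1)) ∧
      (∀ w, fderiv ℂ G p w = fderiv ℂ u p w * (f p.1 + κ p * g p.1) +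
        u p * (fderiv ℂ f p.1 w.1 + fderiv ℂ κ p w * g p.1 + κ p * fderiv ℂ g p.1 w.1)) ∧
      ‖fderiv ℂ G p (0, 1)‖ ≤ C * ∑ i, ‖dX G p (Pi.single i 1)‖ ∧
      (p.1 ≠ 0 → ∃ v, dX G p v ≠ 0)} with hN
  have hNn : N ∈ 𝓝 p0 := by
    filter_upwards [ball_mem_nhds p0 hρ₀, hgood] with p h1 h2
    exact ⟨h1, h2⟩
  have himg : Ψ '' N ∈ 𝓝 (Ψ p0) := by
    rw [← hmap]
    exact image_mem_map hNn
  have hmv : Tendsto (fun z : ((Fin n → ℂ) × ℂ) × ℂ => (z.1.1, κ z.1 + z.2 / u z.1))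
      (𝓝 (p0, 0)) (𝓝 (Ψ p0)) := by
    have a1 : ContinuousAt (fun z : ((Fin n → ℂ) × ℂ) × ℂ => z.1) (p0, 0) := by fun_prop
    have a2 : ContinuousAt (fun z : ((Fin n → ℂ) × ℂ) × ℂ => z.2) (p0, 0) := by fun_prop
    have a3 : ContinuousAt (fun z : ((Fin n → ℂ) × ℂ) × ℂ => κ z.1) (p0, 0) :=
      ContinuousAt.comp (g := κ) hκ.continuousAt a1
    have a4 : ContinuousAt (fun z : ((Fin n → ℂ) × ℂ) × ℂ => u z.1) (p0, 0) :=
      ContinuousAt.comp (g := u) hu.continuousAt a1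
    have a5 : ContinuousAt (fun z : ((Fin n → ℂ) × ℂ) × ℂ => z.1.1) (p0, 0) := by fun_prop
    have a6 := (a5.prodMk (a3.add (a2.div a4 hu0))).tendsto
    simpa [Ψ] using a6
  obtain ⟨ρ₁, hρ₁, hball₁⟩ := Metric.eventually_nhds_iff_ball.1 (hmv.eventually himg)
  refine ⟨min ρ₀ ρ₁, lt_min hρ₀ hρ₁, ?_⟩
  filter_upwards [hNn, ball_mem_nhds p0 hρ₁] with p hp hp1 hne hGp e he
  obtain ⟨hpb, ⟨hu1, hG1⟩, hd1, -, -⟩ := hp
  by_contra hcon
  push Not at hcon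
  have hz : (p, e) ∈ ball (p0, (0 : ℂ)) ρ₁ := by
    rw [mem_ball, dist_eq_norm, Prod.norm_def, max_lt_iff]
    rw [mem_ball, dist_eq_norm] at hp1
    refine ⟨hp1, ?_⟩
    simp only [Prod.snd_sub, sub_zero]
    exact he.trans_le (min_le_right _ _)
  obtain ⟨q, hq, hqe⟩ := hball₁ (p, e) hz
  obtain ⟨hqb, ⟨hu2, hG2⟩, hd2, hLS2, hP2⟩ := hq
  have hqe' : (q.1, κ q) = (p.1, κ p + e / u p) := hqe
  have hq1 : q.1 = p.1 := (Prod.ext_iff.1 hqe').1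
  have hq2 : κ q = κ p + e / u p := (Prod.ext_iff.1 hqe').2
  have hzz : (p, q, e) ∈ ball (p0, p0, (0 : ℂ)) ρ₀ := by
    rw [mem_ball, dist_eq_norm] at hpb hqb ⊢
    change max ‖p - p0‖ (max ‖q - p0‖ ‖e - 0‖) < ρ₀
    rw [sub_zero]
    exact max_lt hpb (max_lt hqb (he.trans_le (min_le_left _ _)))
  obtain ⟨hB, hT⟩ := hball _ hzz
  have hfg : f p.1 + κ p * g p.1 = 0 := by
    rw [hG1] at hGp
    exact (mul_eq_zero.1 hGp).resolve_left hu1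
  have hfg2 : f q.1 + κ q * g q.1 = e / u p * g p.1 := by
    rw [hq1, hq2]
    linear_combination hfg
  have key1 : ∀ v, dX G q v = g p.1 * B (p, q, e) (v, 0) := by
    intro v
    have h1 := hcon v
    rw [dX_apply, hd1, hfg] at h1
    simp only [mul_zero, zero_add] at h1
    rw [dX_apply, hd2, hfg2, hq1, hq2]
    simp only [B, _root_.add_apply, _root_.smul_apply,
      _root_.sub_apply, smul_eq_mul]
    have h2 : fderiv ℂ f p.1 v + κ p * fderiv ℂ g p.1 v + e / u p * fderiv ℂ g p.1 v =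
        - (fderiv ℂ κ p (v, 0) * g p.1) := by
      field_simp
      linear_combination h1
    linear_combination (u q) * h2
  have key2 : fderiv ℂ G q (0, 1) = g p.1 * T (p, q, e) := by
    rw [hd2, hfg2, hq1]
    simp only [T, map_zero]
    ring
  have hg0 : g p.1 = 0 := by
    by_contra hg1
    have hgpos : 0 < ‖g p.1‖ := norm_pos_iff.2 hg1
    have h1 : ∑ i, ‖dX G q (Pi.single i 1)‖ ≤ n * (‖g p.1‖ * η) := by
      calc ∑ i, ‖dX G q (Pi.single i 1)‖ ≤ ∑ _i : Fin n, ‖g p.1‖ * η := by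
            refine Finset.sum_le_sum fun i _ => ?_
            rw [key1, norm_mul]
            refine mul_le_mul_of_nonneg_left ?_ hgpos.le
            refine ((B (p, q, e)).le_opNorm _).trans ?_
            have h2 : ‖((Pi.single i 1 : Fin n → ℂ), (0 : ℂ))‖ ≤ 1 := by
              rw [Prod.norm_def]
              refine max_le ?_ (by simp)
              rw [pi_norm_le_iff_of_nonneg zero_le_one]
              intro j
              by_cases h : j = i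
              · subst h; simp
              · simp [h]
            calc ‖B (p, q, e)‖ * ‖((Pi.single i 1 : Fin n → ℂ), (0 : ℂ))‖ ≤ η * 1 :=
                  mul_le_mul hB.le h2 (norm_nonneg _) hη0.le
              _ = η := mul_one _
        _ = _ := by rw [Finset.sum_const, Finset.card_univ, Fintype.card_fin, nsmul_eq_mul]
    have h2 : ‖fderiv ℂ G q (0, 1)‖ ≤ |C| * (n * (‖g p.1‖ * η)) := by
      refine hLS2.trans ?_
      exact mul_le_mul (le_abs_self C) h1 (Finset.sum_nonneg fun _ _ => norm_nonneg _)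
        (abs_nonneg C)
    rw [key2, norm_mul] at h2
    have h3 : ‖g p.1‖ * c < ‖g p.1‖ * ‖T (p, q, e)‖ := mul_lt_mul_of_pos_left hT hgpos
    have h4 : |C| * (n * (‖g p.1‖ * η)) ≤ ‖g p.1‖ * (c / 2) := by
      have h5 : |C| * n * η ≤ c / 2 := by
        rw [hη, mul_div_assoc', div_le_div_iff₀ (by positivity) (by positivity)]
        have : 0 ≤ |C| * n := by positivity
        nlinarith
      calc |C| * (n * (‖g p.1‖ * η)) = ‖g p.1‖ * (|C| * n * η) := by ring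
        _ ≤ _ := mul_le_mul_of_nonneg_left h5 hgpos.le
    nlinarith
  obtain ⟨v, hv⟩ := hP2 (by rw [hq1]; exact hne)
  apply hv
  rw [key1, hg0, zero_mul]

/-- **Twisted pencils** `u (f + κ g)`. -/
theorem isTriv_of_twist {r : ℝ} (hr : 0 < r) {F : (Fin n → ℂ) → ℂ → ℂ} (hF : IsHolFamily r F)
    {μ : ℕ} (hμ : ∀ t ∈ ball (0 : ℂ) r, Milnor (F · t) μ)
    {f g : (Fin n → ℂ) → ℂ} {u κ : (Fin n → ℂ) × ℂ → ℂ}
    (hf : AnalyticAt ℂ f 0) (hg : AnalyticAt ℂ g 0) (g0 : g 0 = 0)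
    (hu : AnalyticAt ℂ u (0, 0)) (hκ : AnalyticAt ℂ κ (0, 0)) (hu0 : u (0, 0) ≠ 0)
    (hκ0 : fderiv ℂ κ (0, 0) (0, 1) ≠ 0)
    (hG : ∀ᶠ p in 𝓝 ((0 : Fin n → ℂ), (0 : ℂ)), F p.1 p.2 = u p * (f p.1 + κ p * g p.1))
    {C : ℝ} (hLS : ∀ᶠ p in 𝓝 ((0 : Fin n → ℂ), (0 : ℂ)),
      ‖deriv (fun t => F p.1 t) p.2‖ ≤ C * ∑ i, ‖pd i (fun x => F x p.2) p.1‖) :
    ∃ δ : ℝ, 0 < δ ∧ δ ≤ r ∧ ∃ Φ, IsTriv δ F Φ := by
  have h0r : (0 : ℂ) ∈ ball (0 : ℂ) r := mem_ball_self hr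
  have hnr : ∀ᶠ t in 𝓝 (0 : ℂ), t ∈ ball (0 : ℂ) r := isOpen_ball.mem_nhds h0r
  have aF := (hF 0 h0r).1
  set G : (Fin n → ℂ) × ℂ → ℂ := fun p => F p.1 p.2 with hGdef
  have hfst : Tendsto (fun p : (Fin n → ℂ) × ℂ => p.1) (𝓝 (0, 0)) (𝓝 0) :=
    (continuous_fst (X := Fin n → ℂ) (Y := ℂ)).tendsto (0, 0)
  have haF := aF.eventually_analyticAt
  have hpd : ∀ {p : (Fin n → ℂ) × ℂ}, AnalyticAt ℂ G p → ∀ i,
      pd i (fun x => F x p.2) p.1 = dX G p (Pi.single i 1) := by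
    intro p hp i
    have h1 : HasFDerivAt (fun x : Fin n → ℂ => (x, p.2)) (ContinuousLinearMap.inl ℂ _ ℂ) p.1 :=
      hasFDerivAt_prodMk_left p.1 p.2
    have h0 : HasFDerivAt G (fderiv ℂ G p) (p.1, p.2) := hp.differentiableAt.hasFDerivAt
    have h2 : HasFDerivAt (fun x => F x p.2) (dX G p) p.1 :=
      HasFDerivAt.comp (g := G) (f := fun x : Fin n → ℂ => (x, p.2)) p.1 h0 h1
    unfold pd
    rw [h2.fderiv]
  -- no critical points off the axis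
  have hP : ∀ᶠ p in 𝓝 ((0 : Fin n → ℂ), (0 : ℂ)), p.1 ≠ 0 → ∃ v, dX G p v ≠ 0 := by
    obtain ⟨ρ, hρ, h⟩ := nonvanish_of_milnor (k := 0) (F := F) (G := fun j => j.elim0) aF
      (fun j => j.elim0) (μ := μ) (by
        have h1 : Tendsto (fun q : ℂ × (Fin 0 → ℂ) => q.1) (𝓝 (0, 0)) (𝓝 0) :=
          (continuous_fst (X := ℂ) (Y := Fin 0 → ℂ)).tendsto (0, 0)
        filter_upwards [h1.eventually hnr] with q hq
        simpa using hμ q.1 hq)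
    filter_upwards [h] with p hp hne
    obtain ⟨v, hv⟩ := hp hne 0 (by rw [norm_zero]; exact hρ)
    exact ⟨v, by simpa using hv⟩
  have hLS' : ∀ᶠ p in 𝓝 ((0 : Fin n → ℂ), (0 : ℂ)),
      ‖fderiv ℂ G p (0, 1)‖ ≤ C * ∑ i, ‖dX G p (Pi.single i 1)‖ := by
    filter_upwards [hLS, haF] with p h1 h2
    rw [deriv_slice h2] at h1
    simpa only [hpd h2] using h1
  obtain ⟨ρ, hρ, hV⟩ := twist_nonvanish hf hg hu hκ hu0 hκ0 hG hLS' hP
  set E : (Fin n → ℂ) × ℂ → (Fin 1 → ℂ) := vec fun _ x _ => g x with hE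
  have lift : ∀ {p : (Fin n → ℂ) × ℂ}, AnalyticAt ℂ g p.1 →
      AnalyticAt ℂ (fun p : (Fin n → ℂ) × ℂ => g p.1) p := fun hh => hh.comp analyticAt_fst
  have evg : ∀ᶠ p in 𝓝 ((0 : Fin n → ℂ), (0 : ℂ)), AnalyticAt ℂ g p.1 :=
    hfst.eventually hg.eventually_analyticAt
  have hEd : ∀ {p : (Fin n → ℂ) × ℂ}, AnalyticAt ℂ g p.1 → ∀ w,
      fderiv ℂ E p w = fun _ => fderiv ℂ g p.1 w.1 := by
    intro p hp w
    funext j
    rw [hE, fderiv_vec (G := fun _ x _ => g x) fun _ => lift hp]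
    have k2 : HasFDerivAt (fun q : (Fin n → ℂ) × ℂ => g q.1)
        ((fderiv ℂ g p.1).comp (ContinuousLinearMap.fst ℂ _ ℂ)) p :=
      hp.differentiableAt.hasFDerivAt.comp p hasFDerivAt_fst
    rw [k2.fderiv]
    rfl
  have hEn : ∀ p : (Fin n → ℂ) × ℂ, ‖g p.1‖ ≤ ‖E p‖ := fun p => norm_le_pi_norm (E p) 0
  -- the constants
  set U : ℝ := ‖fderiv ℂ u (0, 0) (0, 1) / u (0, 0)‖ + 1 with hU
  set V : ℝ := ‖u (0, 0) * fderiv ℂ κ (0, 0) (0, 1)‖ + 1 with hVd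
  have cu : ∀ᶠ p in 𝓝 ((0 : Fin n → ℂ), (0 : ℂ)), ‖fderiv ℂ u p (0, 1) / u p‖ < U := by
    have h1 : ContinuousAt (fun p => fderiv ℂ u p (0, 1) / u p) (0, 0) :=
      (hu.fderiv.continuousAt.clm_apply continuousAt_const).div hu.continuousAt hu0
    exact h1.norm.eventually (gt_mem_nhds (lt_add_one _))
  have cκ : ∀ᶠ p in 𝓝 ((0 : Fin n → ℂ), (0 : ℂ)), ‖u p * fderiv ℂ κ p (0, 1)‖ < V := by
    have h1 : ContinuousAt (fun p => u p * fderiv ℂ κ p (0, 1)) (0, 0) :=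
      hu.continuousAt.mul (hκ.fderiv.continuousAt.clm_apply continuousAt_const)
    exact h1.norm.eventually (gt_mem_nhds (lt_add_one _))
  have hU0 : 0 < U := by positivity
  have hV0 : 0 < V := by positivity
  have h := triv_of_linear' (k := 1) (F := G) (E := E) (C := U + V) (ρ := ρ) hr hρ aF
    (analyticAt_vecG fun _ => lift (p := ((0 : Fin n → ℂ), (0 : ℂ))) hg) ?_ ?_ hP ?_
  · obtain ⟨δ, hδ, hδr, e, e1, e2, e3, e4, e5, -⟩ := h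
    refine ⟨δ, hδ, hδr, e, ⟨?_, ?_, ?_⟩⟩
    · intro p hp
      rw [mem_ball, dist_zero_right]
      exact e1 p hp
    · intro t ht
      rw [mem_ball, dist_zero_right] at ht
      exact ⟨e2 t ht, e4 t⟩
    · intro p hp
      refine ⟨e3 p, ?_⟩
      have := e5 p hp
      simp only [hGdef] at this
      rw [e3 p] at this
      exact this
  · filter_upwards [hnr] with t ht
    refine ⟨(hF t ht).2, ?_⟩
    funext j
    exact g0
  · filter_upwards [hG.eventually_nhds, evg, cu, cκ, hu.continuousAt.eventually_ne hu0,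
      hu.eventually_analyticAt, hκ.eventually_analyticAt,
      hfst.eventually hf.eventually_analyticAt] with p p1 p2 p3 p4 p5 p6 p7 p8
    have h9 : G =ᶠ[𝓝 p] fun p => u p * (f p.1 + κ p * g p.1) := p1
    have h10 := h9.self_of_nhds
    refine ⟨?_, ?_⟩
    · rw [h9.fderiv_eq, fderiv_twist p8 p2 p6 p7]
      simp only [map_zero, zero_add, mul_zero, add_zero]
      have e1 : fderiv ℂ u p (0, 1) * (f p.1 + κ p * g p.1) + u p * (fderiv ℂ κ p (0, 1) * g p.1) =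
          (fderiv ℂ u p (0, 1) / u p) * G p + (u p * fderiv ℂ κ p (0, 1)) * g p.1 := by
        rw [h10]
        field_simp
      rw [e1]
      have a1 := hEn p
      have a2 := norm_nonneg (G p)
      have a3 := norm_nonneg (g p.1)
      calc ‖(fderiv ℂ u p (0, 1) / u p) * G p + (u p * fderiv ℂ κ p (0, 1)) * g p.1‖ ≤
          ‖fderiv ℂ u p (0, 1) / u p‖ * ‖G p‖ + ‖u p * fderiv ℂ κ p (0, 1)‖ * ‖g p.1‖ := by
            refine (norm_add_le _ _).trans ?_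
            rw [norm_mul, norm_mul]
        _ ≤ U * ‖G p‖ + V * ‖E p‖ := by
            refine add_le_add (mul_le_mul_of_nonneg_right p3.le a2) ?_
            exact mul_le_mul p4.le a1 a3 hV0.le
        _ ≤ (U + V) * (‖G p‖ + ‖E p‖) := by
            have a4 := norm_nonneg (E p)
            nlinarith
    · rw [hEd p2]
      have e2 : (fun _ : Fin 1 => fderiv ℂ g p.1 ((0 : Fin n → ℂ), (1 : ℂ)).1) = 0 := by
        funext j; simp
      rw [e2, norm_zero]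
      positivity
  · filter_upwards [hV, evg] with p h1 h2 hne hGp ε hε
    obtain ⟨v, hv⟩ := h1 hne hGp (ε 0) ((norm_le_pi_norm ε 0).trans_lt hε)
    refine ⟨v, ?_⟩
    rw [Fin.sum_univ_one, hEd h2]
    exact hv

end Vale.Agent.P298.H119
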