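import Vale.Agent.P298.H119.PencilMain
import Vale.Agent.P298.H119.LinSys3
import Vale.Agent.P298.H119.LinSys4
import Vale.Agent.P298.H119.DefsSys
import Vale.Agent.P298.H974.GradNe

namespace Vale.Agent.P298.H119

open Set Metric Filter Topology Vale.Agent.P298
open scoped NNReal ContDiff Manifold

variable {n : ℕ}

theorem gradCond (hn : 3 ≤ n) : GradCond n := by
  intro f g ψ hf hg f0 g0 hψ h0 μ hμ
  exact Vale.Agent.P298.H974.grad_ne_zero hn hf hg f0 g0 hψ h0 hμ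

/-- Shrinking the disk. -/
theorem isHolFamily_of_eventually {F : (Fin n → ℂ) → ℂ → ℂ}
    (h : AnalyticAt ℂ (fun p : (Fin n → ℂ) × ℂ => F p.1 p.2) (0, 0))
    (h0 : ∀ᶠ t in 𝓝 (0 : ℂ), F 0 t = 0) : ∃ ρ : ℝ, 0 < ρ ∧ IsHolFamily ρ F := by
  have ht : Tendsto (fun t : ℂ => ((0 : Fin n → ℂ), t)) (𝓝 0) (𝓝 (0, 0)) :=
    Continuous.tendsto (by fun_prop) (0 : ℂ)
  have h1 := (ht.eventually h.eventually_analyticAt).and h0
  obtain ⟨ρ, hρ, hball⟩ := Metric.eventually_nhds_iff_ball.1 h1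
  exact ⟨ρ, hρ, fun t ht => hball t ht⟩

theorem IsHolFamily.mono {F : (Fin n → ℂ) → ℂ → ℂ} {r ρ : ℝ} (h : IsHolFamily r F)
    (hρ : ρ ≤ r) : IsHolFamily ρ F := fun t ht => h t (ball_subset_ball hρ ht)

/-- A trivialization depends only on the germ of the family along the axis. -/
theorem isTriv_congr {δ : ℝ} (hδ : 0 < δ) {F F' : (Fin n → ℂ) → ℂ → ℂ}
    {Φ : OpenPartialHomeomorph ((Fin n → ℂ) × ℂ) ((Fin n → ℂ) × ℂ)} (h : IsTriv δ F Φ)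
    (hF : ∀ᶠ p in 𝓝 ((0 : Fin n → ℂ), (0 : ℂ)), F p.1 p.2 = F' p.1 p.2) :
    ∃ δ' : ℝ, 0 < δ' ∧ δ' ≤ δ ∧ ∃ Φ', IsTriv δ' F' Φ' := by
  obtain ⟨h1, h2, h3⟩ := h
  obtain ⟨ρ, hρ, hball⟩ := Metric.eventually_nhds_iff_ball.1 hF
  set δ' : ℝ := min δ ρ with hδ'
  have hδ'0 : 0 < δ' := lt_min hδ hρ
  set N : Set ((Fin n → ℂ) × ℂ) := ball ((0 : Fin n → ℂ), (0 : ℂ)) ρ with hN
  have hNax : ∀ t ∈ ball (0 : ℂ) δ', ((0 : Fin n → ℂ), t) ∈ N := by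
    intro t ht
    rw [hN, mem_ball, dist_eq_norm, Prod.norm_def, max_lt_iff]
    rw [mem_ball, dist_zero_right] at ht
    have h4 : δ' ≤ ρ := min_le_right _ _
    refine ⟨by simpa using hρ, ?_⟩
    simp only [Prod.snd_sub, sub_zero]
    linarith
  have hO1 : IsOpen (Φ.source ∩ Φ ⁻¹' N) := Φ.isOpen_inter_preimage isOpen_ball
  have hO2 : IsOpen {p : (Fin n → ℂ) × ℂ | (p.1, (0 : ℂ)) ∈ N} :=
    isOpen_ball.preimage (continuous_fst.prodMk continuous_const)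
  have hO3 : IsOpen {p : (Fin n → ℂ) × ℂ | p.2 ∈ ball (0 : ℂ) δ'} :=
    isOpen_ball.preimage continuous_snd
  set O : Set ((Fin n → ℂ) × ℂ) := (Φ.source ∩ Φ ⁻¹' N) ∩ ({p | (p.1, (0 : ℂ)) ∈ N} ∩
    {p | p.2 ∈ ball (0 : ℂ) δ'}) with hOdef
  have hO : IsOpen O := hO1.inter (hO2.inter hO3)
  refine ⟨δ', hδ'0, min_le_left _ _, Φ.restrOpen O hO, ?_, ?_, ?_⟩
  · intro p hp
    rw [Φ.restrOpen_source] at hp
    exact hp.2.2.2
  · intro t ht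
    have ht' : t ∈ ball (0 : ℂ) δ := ball_subset_ball (min_le_left _ _) ht
    obtain ⟨h4, h5⟩ := h2 t ht'
    refine ⟨?_, h5⟩
    rw [Φ.restrOpen_source]
    refine ⟨h4, ⟨h4, ?_⟩, ?_, ht⟩
    · change Φ (0, t) ∈ N
      rw [h5]
      exact hNax t ht
    · exact hNax 0 (mem_ball_self hδ'0)
  · intro p hp
    rw [Φ.restrOpen_source] at hp
    obtain ⟨h4, h5⟩ := h3 p hp.1
    refine ⟨h4, ?_⟩
    have h6 := hball (Φ p) hp.2.1.2
    have h7 := hball (p.1, 0) hp.2.2.1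
    simp only at h7
    rw [h4] at h6
    change F' (Φ p).1 p.2 = F' p.1 0
    rw [← h6, ← h7]
    exact h5

theorem inIdeal_congr {k : ℕ} {s s' : Fin k → (Fin n → ℂ) → ℂ} (h : ∀ j, s j =ᶠ[𝓝 0] s' j)
    {f : (Fin n → ℂ) → ℂ} (hf : InIdeal s f) : InIdeal s' f := by
  obtain ⟨a, ha, h1⟩ := hf
  refine ⟨a, ha, ?_⟩
  filter_upwards [h1, eventually_all.2 h] with x h2 h3
  rw [h2]
  exact Finset.sum_congr rfl fun j _ => by rw [h3 j]

theorem colength_congr {k d : ℕ} {s s' : Fin k → (Fin n → ℂ) → ℂ}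
    (h : ∀ j, s j =ᶠ[𝓝 0] s' j) (hc : Colength s d) : Colength s' d := by
  obtain ⟨b, hb, h1⟩ := hc
  refine ⟨b, hb, fun f hf => ?_⟩
  obtain ⟨c, h2, h3⟩ := h1 f hf
  exact ⟨c, inIdeal_congr h h2, fun c' hc' => h3 c' (inIdeal_congr (fun j => (h j).symm) hc')⟩

theorem milnor_congr {μ : ℕ} {f f' : (Fin n → ℂ) → ℂ} (h : f =ᶠ[𝓝 0] f') (hm : Milnor f μ) :
    Milnor f' μ := by
  refine colength_congr (fun i => ?_) hm
  filter_upwards [h.eventually_nhds] with x hx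
  have h1 : f =ᶠ[𝓝 x] f' := hx
  unfold pd
  rw [h1.fderiv_eq]

/-- The special families are topologically right-trivial. -/
theorem isTriv_of_special (hn : 3 ≤ n) {r : ℝ} (hr : 0 < r) {F : (Fin n → ℂ) → ℂ → ℂ}
    (hF : IsHolFamily r F) {μ : ℕ} (hμ : ∀ t ∈ ball (0 : ℂ) r, Milnor (F · t) μ)
    (h : Special F) : ∃ δ : ℝ, 0 < δ ∧ δ ≤ r ∧ ∃ Φ, IsTriv δ F Φ := by
  have h0r : (0 : ℂ) ∈ ball (0 : ℂ) r := mem_ball_self hr
  have hnr : ∀ᶠ t in 𝓝 (0 : ℂ), t ∈ ball (0 : ℂ) r := isOpen_ball.mem_nhds h0r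
  have ht : Tendsto (fun t : ℂ => ((0 : Fin n → ℂ), t)) (𝓝 0) (𝓝 (0, 0)) :=
    Continuous.tendsto (by fun_prop) (0 : ℂ)
  have hslice : ∀ {K : (Fin n → ℂ) × ℂ → Prop}, (∀ᶠ p in 𝓝 ((0 : Fin n → ℂ), (0 : ℂ)), K p) →
      ∀ᶠ t in 𝓝 (0 : ℂ), ∀ᶠ x in 𝓝 (0 : Fin n → ℂ), K (x, t) := by
    intro K hK
    filter_upwards [ht.eventually hK.eventually_nhds] with t h1
    have h2 : Tendsto (fun x : Fin n → ℂ => (x, t)) (𝓝 0) (𝓝 (0, t)) :=
      Continuous.tendsto (by fun_prop) (0 : Fin n → ℂ)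
    exact h2.eventually h1
  rcases h with h | h | h | h
  · obtain ⟨f, g, φ, hf, hg, f0, g0, hφ, hev⟩ := h
    have h1 : ∀ᶠ t in 𝓝 (0 : ℂ), φ (0, 0, t) = 0 ∧ Milnor (fun x => φ (f x, g x, t)) μ := by
      filter_upwards [hnr, ht.eventually hev, hslice hev] with t h2 h3 h4
      refine ⟨?_, milnor_congr h4 (hμ t h2)⟩
      simp only [f0, g0] at h3
      rw [← h3]
      exact (hF t h2).2
    obtain ⟨ρ, hρ, hball⟩ := Metric.eventually_nhds_iff_ball.1 (h1.and hnr)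
    have h0ρ : (0 : ℂ) ∈ ball (0 : ℂ) ρ := mem_ball_self hρ
    set ρ' : ℝ := min ρ r with hρ'
    have hρ'0 : 0 < ρ' := lt_min hρ hr
    obtain ⟨δ, hδ, hδρ, Φ, hΦ, -⟩ := isTriv_of_grad (φ := φ) hρ'0 hf hg f0 g0 hφ
      (fun t ht => (hball t (ball_subset_ball (min_le_left _ _) ht)).1.1)
      (fun t ht => (hball t (ball_subset_ball (min_le_left _ _) ht)).1.2)
      (grad_of_gradCond (gradCond hn) hf hg f0 g0 hφ (hball 0 h0ρ).1.1 (hball 0 h0ρ).1.2)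
    obtain ⟨δ', hδ', hδδ, Φ', hΦ'⟩ := isTriv_congr hδ hΦ (F' := F)
      (hev.mono fun p hp => hp.symm)
    exact ⟨δ', hδ', hδδ.trans (hδρ.trans (min_le_right _ _)), Φ', hΦ'⟩
  · obtain ⟨k, f, g, φ, ν, hf, hg, f0, g0, hφ, hu, hv, hm, hev⟩ := h
    have h1 : ∀ᶠ t in 𝓝 (0 : ℂ), φ (0, 0, t) = 0 := by
      filter_upwards [hnr, ht.eventually hev] with t h2 h3
      have h4 : (fun j => g j (0 : Fin n → ℂ)) = 0 := funext fun j => g0 j
      simp only [f0, h4] at h3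
      rw [← h3]
      exact (hF t h2).2
    obtain ⟨ρ, hρ, hball⟩ := Metric.eventually_nhds_iff_ball.1 h1
    set ρ' : ℝ := min ρ r with hρ'
    have hρ'0 : 0 < ρ' := lt_min hρ hr
    obtain ⟨δ, hδ, hδρ, Φ, hΦ, -⟩ := isTriv_of_several (φ := φ) hρ'0 hf hg f0 g0 hφ
      (fun t ht => hball t (ball_subset_ball (min_le_left _ _) ht)) hu hv hm
    obtain ⟨δ', hδ', hδδ, Φ', hΦ'⟩ := isTriv_congr hδ hΦ (F' := F)
      (hev.mono fun p hp => hp.symm)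
    exact ⟨δ', hδ', hδδ.trans (hδρ.trans (min_le_right _ _)), Φ', hΦ'⟩
  · obtain ⟨k, G, C, ν, hG, hI, hm⟩ := h
    choose ρG hρG hGfam using fun j => isHolFamily_of_eventually (hG j).1 (hG j).2
    obtain ⟨ρ, hρ, hρr, hρG'⟩ : ∃ ρ : ℝ, 0 < ρ ∧ ρ ≤ r ∧ ∀ j, ρ ≤ ρG j := by
      rcases isEmpty_or_nonempty (Fin k) with he | he
      · exact ⟨r, hr, le_rfl, fun j => (he.false j).elim⟩
      · set m := Finset.univ.inf' Finset.univ_nonempty ρG with hm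
        have hmpos : 0 < m := (Finset.lt_inf'_iff _).2 fun j _ => hρG j
        exact ⟨min r m, lt_min hr hmpos, min_le_left _ _, fun j =>
          (min_le_right _ _).trans (Finset.inf'_le _ (Finset.mem_univ j))⟩
    obtain ⟨δ, hδ, hδρ, Φ, hΦ⟩ := isTriv_of_system hρ (IsHolFamily.mono hF hρr)
      (fun j => IsHolFamily.mono (hGfam j) (hρG' j)) hI hm
    exact ⟨δ, hδ, hδρ.trans hρr, Φ, hΦ⟩
  · obtain ⟨f, g, u, κ, C, hf, hg, -, g0, hu, hκ, hu0, hκ0, hev, hLS⟩ := h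
    exact isTriv_of_twist hr hF hμ hf hg g0 hu hκ hu0 hκ0 hev hLS

/-- Local trivializations after a base change give topological right-equivalence over the whole
disk. -/
theorem rightEquiv_of_special (hn : 3 ≤ n) {r : ℝ} {F : (Fin n → ℂ) → ℂ → ℂ}
    (hF : IsHolFamily r F) {μ : ℕ} (h₁ : ∀ t ∈ ball (0 : ℂ) r, Milnor (F · t) μ)
    (h : ∀ t₀ ∈ ball (0 : ℂ) r, ∃ m : ℕ, 0 < m ∧ ∃ ρ : ℝ, 0 < ρ ∧
      (∀ s ∈ ball (0 : ℂ) ρ, t₀ + s ^ m ∈ ball (0 : ℂ) r) ∧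
      Special (fun x s => F x (t₀ + s ^ m))) :
    ∀ t ∈ ball (0 : ℂ) r, ∀ t' ∈ ball (0 : ℂ) r, RightEquiv (F · t) (F · t') := by
  have hloc : ∀ t₀ ∈ ball (0 : ℂ) r, ∀ᶠ t in 𝓝[ball (0 : ℂ) r] t₀,
      RightEquiv (F · t₀) (F · t) := by
    intro t₀ ht₀
    obtain ⟨m, hm, ρ, hρ, hmem, hflag⟩ := h t₀ ht₀
    set G : (Fin n → ℂ) → ℂ → ℂ := fun x s => F x (t₀ + s ^ m) with hG
    have hGF : IsHolFamily ρ G := by
      intro s hs
      obtain ⟨h2, h3⟩ := hF (t₀ + s ^ m) (hmem s hs)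
      refine ⟨?_, h3⟩
      have h4 : AnalyticAt ℂ (fun p : (Fin n → ℂ) × ℂ => (p.1, t₀ + p.2 ^ m)) (0, s) :=
        analyticAt_fst.prod (analyticAt_const.add (analyticAt_snd.pow m))
      exact AnalyticAt.comp (g := fun p : (Fin n → ℂ) × ℂ => F p.1 p.2)
        (f := fun p : (Fin n → ℂ) × ℂ => (p.1, t₀ + p.2 ^ m)) h2 h4
    obtain ⟨δ, hδ, -, Φ, hΦ⟩ := isTriv_of_special hn hρ hGF
      (fun s hs => h₁ (t₀ + s ^ m) (hmem s hs)) hflag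
    have hnear : ∀ᶠ t in 𝓝 t₀, ‖t - t₀‖ < δ ^ m := by
      have hc : ContinuousAt (fun t : ℂ => ‖t - t₀‖) t₀ := by fun_prop
      refine hc.eventually_lt continuousAt_const ?_
      simpa using pow_pos hδ m
    refine eventually_nhdsWithin_of_eventually_nhds ?_
    filter_upwards [hnear] with t ht
    obtain ⟨s, hs⟩ := IsAlgClosed.exists_pow_nat_eq (t - t₀) hm
    have hsδ : s ∈ ball (0 : ℂ) δ := by
      rw [mem_ball, dist_zero_right]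
      rw [← hs, norm_pow] at ht
      exact lt_of_pow_lt_pow_left₀ m hδ.le ht
    have h5 := rightEquiv_of_isTriv hΦ hsδ
    have e1 : (fun x => G x 0) = fun x => F x t₀ := by
      funext x
      simp [hG, hm.ne']
    have e2 : (fun x => G x s) = fun x => F x t := by
      funext x
      simp [hG, hs]
    rw [e1, e2] at h5
    exact h5
  intro t ht t' ht'
  refine (convex_ball (0 : ℂ) r).isPreconnected.induction₂' (fun t t' => RightEquiv (F · t) (F · t'))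
    (fun z hz => ?_) (fun a b c _ _ _ hab hbc => hab.trans hbc) ht ht'
  filter_upwards [hloc z hz] with y hy
  exact ⟨hy, hy.symm⟩

end Vale.Agent.P298.H119
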