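import Vale.Agent.P298.H119.Box

namespace Vale.Agent.P298.H119

open Set Metric Filter Topology Vale.Agent.P298
open scoped NNReal ContDiff Manifold

/-- The uncurried family. -/
def unc (F : (Fin 3 → ℂ) → ℂ → ℂ) : (Fin 3 → ℂ) × ℂ → ℂ := fun p => F p.1 p.2

/-- Constant colengths give a flag of submersions away from the axis. -/
theorem good_of_colength {r : ℝ} (hr : 0 < r) {F E : (Fin 3 → ℂ) → ℂ → ℂ}
    (hF : IsHolFamily r F) (hE : IsHolFamily r E) {μ a : ℕ}
    (h₁ : ∀ t ∈ ball (0 : ℂ) r, Milnor (F · t) μ)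
    (h₂ : ∀ t ∈ ball (0 : ℂ) r, Colength ![(F · t), minor2 0 1 (F · t) (E · t),
      minor2 0 2 (F · t) (E · t), minor2 1 2 (F · t) (E · t)] a) :
    ∀ᶠ p in 𝓝 ((0 : Fin 3 → ℂ), (0 : ℂ)),
      (p.1 ≠ 0 → Function.Surjective (dX (unc F) p)) ∧
      (p.1 ≠ 0 → unc F p = 0 → Function.Surjective ((dX (unc F) p).prod (dX (unc E) p))) := by
  have h0r : (0 : ℂ) ∈ ball (0 : ℂ) r := mem_ball_self hr
  have hnr : ∀ᶠ t in 𝓝 (0 : ℂ), t ∈ ball (0 : ℂ) r := isOpen_ball.mem_nhds h0r
  have aF : AnalyticAt ℂ (unc F) (0, 0) := (hF 0 h0r).1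
  have aE : AnalyticAt ℂ (unc E) (0, 0) := (hE 0 h0r).1
  have pF := fun i => analyticAt_pd (G := F) aF i
  have pE := fun i => analyticAt_pd (G := E) aE i
  have aM : ∀ i j, AnalyticAt ℂ (fun p : (Fin 3 → ℂ) × ℂ =>
      minor2 i j (fun x => F x p.2) (fun x => E x p.2) p.1) (0, 0) := fun i j =>
    ((pF i).mul (pE j)).sub ((pF j).mul (pE i))
  have s1 := eq_zero_of_colength (0 : ℂ)
    (fun (i : Fin 3) (p : (Fin 3 → ℂ) × ℂ) => pd i (fun x => F x p.2) p.1) pF μ
    (hnr.mono fun t ht => h₁ t ht)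
  have s2 := eq_zero_of_colength (0 : ℂ)
    (![unc F, fun p => minor2 0 1 (fun x => F x p.2) (fun x => E x p.2) p.1,
      fun p => minor2 0 2 (fun x => F x p.2) (fun x => E x p.2) p.1,
      fun p => minor2 1 2 (fun x => F x p.2) (fun x => E x p.2) p.1])
    (by
      intro j
      fin_cases j
      · exact aF
      · exact aM 0 1
      · exact aM 0 2
      · exact aM 1 2) a
    (hnr.mono fun t ht => by
      have e : (fun (j : Fin 4) => fun x : Fin 3 → ℂ =>
          (![unc F, fun p => minor2 0 1 (fun x => F x p.2) (fun x => E x p.2) p.1,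
      fun p => minor2 0 2 (fun x => F x p.2) (fun x => E x p.2) p.1,
      fun p => minor2 1 2 (fun x => F x p.2) (fun x => E x p.2) p.1]) j (x, t)) =
          ![(F · t), minor2 0 1 (F · t) (E · t),
      minor2 0 2 (F · t) (E · t), minor2 1 2 (F · t) (E · t)] := by
        funext j
        fin_cases j <;> rfl
      rw [e]
      exact h₂ t ht)
  filter_upwards [aF.eventually_analyticAt, aE.eventually_analyticAt, s1, s2] with p q1 q2 q4 q5
  refine ⟨fun h3 => ?_, fun h3 h5 => ?_⟩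
  · have h4 : ¬ ∀ j : Fin 3, pd j (fun x => F x p.2) p.1 = 0 := fun hc => h3 (q4 hc)
    push Not at h4
    obtain ⟨j, hj⟩ := h4
    rw [pd_eq_dX q1] at hj
    exact surjective_of_ne_zero hj
  · have h4 : ∃ i j, minor2 i j (fun x => F x p.2) (fun x => E x p.2) p.1 ≠ 0 := by
      by_contra hc
      push Not at hc
      refine h3 (q5 fun j => ?_)
      fin_cases j
      · exact h5
      · exact hc 0 1
      · exact hc 0 2
      · exact hc 1 2
    obtain ⟨i, j, hij⟩ := h4
    unfold minor2 at hij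
    rw [pd_eq_dX q1, pd_eq_dX q1, pd_eq_dX q2, pd_eq_dX q2] at hij
    exact surjective_of_minor hij

/-- The last two conditions in the case of a second companion. -/
theorem good_of_companion {r : ℝ} (hr : 0 < r) {F E H : (Fin 3 → ℂ) → ℂ → ℂ}
    (hF : IsHolFamily r F) (hE : IsHolFamily r E) (hH : IsHolFamily r H) {b c : ℕ}
    (h₃ : ∀ t ∈ ball (0 : ℂ) r, Colength ![(F · t), (E · t), jac3 (F · t) (E · t) (H · t)] b)
    (h₄ : ∀ t ∈ ball (0 : ℂ) r, Colength ![(F · t), (E · t), (H · t)] c) :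
    ∀ᶠ p in 𝓝 ((0 : Fin 3 → ℂ), (0 : ℂ)),
      (p.1 ≠ 0 → unc F p = 0 → unc E p = 0 →
        Function.Surjective ((dX (unc F) p).prod ((dX (unc E) p).prod (dX (unc H) p)))) ∧
      (unc F p = 0 → unc E p = 0 → unc H p = 0 → p.1 = 0) := by
  have h0r : (0 : ℂ) ∈ ball (0 : ℂ) r := mem_ball_self hr
  have hnr : ∀ᶠ t in 𝓝 (0 : ℂ), t ∈ ball (0 : ℂ) r := isOpen_ball.mem_nhds h0r
  have aF : AnalyticAt ℂ (unc F) (0, 0) := (hF 0 h0r).1
  have aE : AnalyticAt ℂ (unc E) (0, 0) := (hE 0 h0r).1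
  have aH : AnalyticAt ℂ (unc H) (0, 0) := (hH 0 h0r).1
  have pF := fun i => analyticAt_pd (G := F) aF i
  have pE := fun i => analyticAt_pd (G := E) aE i
  have pH := fun i => analyticAt_pd (G := H) aH i
  have aJ : AnalyticAt ℂ (fun p : (Fin 3 → ℂ) × ℂ =>
      jac3 (fun x => F x p.2) (fun x => E x p.2) (fun x => H x p.2) p.1) (0, 0) := by
    have : (fun p : (Fin 3 → ℂ) × ℂ =>
        jac3 (fun x => F x p.2) (fun x => E x p.2) (fun x => H x p.2) p.1) = fun p =>
        pd 0 (fun x => F x p.2) p.1 * pd 1 (fun x => E x p.2) p.1 * pd 2 (fun x => H x p.2) p.1 -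
        pd 0 (fun x => F x p.2) p.1 * pd 2 (fun x => E x p.2) p.1 * pd 1 (fun x => H x p.2) p.1 -
        pd 1 (fun x => F x p.2) p.1 * pd 0 (fun x => E x p.2) p.1 * pd 2 (fun x => H x p.2) p.1 +
        pd 1 (fun x => F x p.2) p.1 * pd 2 (fun x => E x p.2) p.1 * pd 0 (fun x => H x p.2) p.1 +
        pd 2 (fun x => F x p.2) p.1 * pd 0 (fun x => E x p.2) p.1 * pd 1 (fun x => H x p.2) p.1 -
        pd 2 (fun x => F x p.2) p.1 * pd 1 (fun x => E x p.2) p.1 * pd 0 (fun x => H x p.2) p.1 := by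
      funext p
      simp only [jac3, Matrix.det_fin_three, Matrix.of_apply]
      simp
    rw [this]
    exact (((((((pF 0).mul (pE 1)).mul (pH 2)).sub (((pF 0).mul (pE 2)).mul (pH 1))).sub
      (((pF 1).mul (pE 0)).mul (pH 2))).add (((pF 1).mul (pE 2)).mul (pH 0))).add
      (((pF 2).mul (pE 0)).mul (pH 1))).sub (((pF 2).mul (pE 1)).mul (pH 0))
  have s3 := eq_zero_of_colength (0 : ℂ)
    (![unc F, unc E,
      fun p => jac3 (fun x => F x p.2) (fun x => E x p.2) (fun x => H x p.2) p.1])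
    (by
      intro j
      fin_cases j
      · exact aF
      · exact aE
      · exact aJ) b
    (hnr.mono fun t ht => by
      have e : (fun (j : Fin 3) => fun x : Fin 3 → ℂ =>
          (![unc F, unc E, fun p =>
            jac3 (fun x => F x p.2) (fun x => E x p.2) (fun x => H x p.2) p.1]) j (x, t)) =
          ![(F · t), (E · t), jac3 (F · t) (E · t) (H · t)] := by
        funext j
        fin_cases j <;> rfl
      rw [e]
      exact h₃ t ht)
  have s4 := eq_zero_of_colength (0 : ℂ) (![unc F, unc E, unc H])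
    (by
      intro j
      fin_cases j
      · exact aF
      · exact aE
      · exact aH) c
    (hnr.mono fun t ht => by
      have e : (fun (j : Fin 3) => fun x : Fin 3 → ℂ =>
          (![unc F, unc E, unc H]) j (x, t)) = ![(F · t), (E · t), (H · t)] := by
        funext j
        fin_cases j <;> rfl
      rw [e]
      exact h₄ t ht)
  filter_upwards [aF.eventually_analyticAt, aE.eventually_analyticAt,
    aH.eventually_analyticAt, s3, s4] with p q1 q2 q3 q6 q7
  refine ⟨fun h3 h5 h6 => ?_, fun h5 h6 h7 => ?_⟩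
  · have h4 : jac3 (fun x => F x p.2) (fun x => E x p.2) (fun x => H x p.2) p.1 ≠ 0 := by
      intro hc
      refine h3 (q6 fun j => ?_)
      fin_cases j
      · exact h5
      · exact h6
      · exact hc
    refine surjective_of_det ?_
    unfold jac3 at h4
    have e : (Matrix.of fun i j : Fin 3 => pd j
        (![(fun x => F x p.2), (fun x => E x p.2), (fun x => H x p.2)] i) p.1) =
        Matrix.of fun i j : Fin 3 => (![dX (unc F) p, dX (unc E) p, dX (unc H) p] i)
          (Pi.single j 1) := by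
      ext i j
      rw [Matrix.of_apply, Matrix.of_apply]
      fin_cases i
      · exact pd_eq_dX q1 j
      · exact pd_eq_dX q2 j
      · exact pd_eq_dX q3 j
    rw [e] at h4
    exact h4
  · refine q7 fun j => ?_
    fin_cases j
    · exact h5
    · exact h6
    · exact h7

theorem eventually_axis {r : ℝ} (hr : 0 < r) {F : (Fin 3 → ℂ) → ℂ → ℂ} (hF : IsHolFamily r F) :
    ∀ᶠ t in 𝓝 (0 : ℂ), unc F (0, t) = 0 := by
  filter_upwards [isOpen_ball.mem_nhds (mem_ball_self hr)] with t ht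
  exact (hF t ht).2

/-- The flag-preserving form of the companion flag theorem. -/
theorem triv_of_companions {r : ℝ} (hr : 0 < r) {F E H : (Fin 3 → ℂ) → ℂ → ℂ}
    (hF : IsHolFamily r F) (hE : IsHolFamily r E) (hH : IsHolFamily r H) {μ a b c : ℕ}
    (h₁ : ∀ t ∈ ball (0 : ℂ) r, Milnor (F · t) μ)
    (h₂ : ∀ t ∈ ball (0 : ℂ) r, Colength ![(F · t), minor2 0 1 (F · t) (E · t),
      minor2 0 2 (F · t) (E · t), minor2 1 2 (F · t) (E · t)] a)
    (h₃ : ∀ t ∈ ball (0 : ℂ) r, Colength ![(F · t), (E · t), jac3 (F · t) (E · t) (H · t)] b)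
    (h₄ : ∀ t ∈ ball (0 : ℂ) r, Colength ![(F · t), (E · t), (H · t)] c) :
    Triv r (unc F) (unc E) (unc H) (fderiv ℂ (unc E)) (fderiv ℂ (unc H)) := by
  have h0r : (0 : ℂ) ∈ ball (0 : ℂ) r := mem_ball_self hr
  have aF : AnalyticAt ℂ (unc F) (0, 0) := (hF 0 h0r).1
  have aE : AnalyticAt ℂ (unc E) (0, 0) := (hE 0 h0r).1
  have aH : AnalyticAt ℂ (unc H) (0, 0) := (hH 0 h0r).1
  refine triv_of_eventually hr aF (DE := fderiv ℂ (unc E)) (DH := fderiv ℂ (unc H))
    (aE.eventually_analyticAt.mono fun p hp => ctlAt_of_analytic hp)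
    (aH.eventually_analyticAt.mono fun p hp => ctlAt_of_analytic hp) ?_ ?_
  · filter_upwards [eventually_axis hr hF, eventually_axis hr hE, eventually_axis hr hH]
      with t h1 h2 h3
    exact ⟨h1, h2, h3⟩
  · filter_upwards [good_of_colength hr hF hE h₁ h₂, good_of_companion hr hF hE hH h₃ h₄]
      with p hp hq
    exact ⟨hp.1, hp.2, hq.1, hq.2⟩

end Vale.Agent.P298.H119
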