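import Vale.Agent.P298.H119.Cond
import Vale.Agent.P298.H119.Defs

namespace Vale.Agent.P298.H119

open Set Metric Filter Topology Vale.Agent.P298
open scoped NNReal ContDiff Manifold

/-- Two independent forms from one nonzero form and a vector in its kernel. -/
theorem surjective_double {X : Type*} [NormedAddCommGroup X] [NormedSpace ℂ X] {a b : X →L[ℂ] ℂ}
    (h : Function.Surjective a) {w : X} (ha : a w = 0) (hb : b w ≠ 0) :
    Function.Surjective (a.prod b) := by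
  rintro ⟨x, y⟩
  obtain ⟨v, hv⟩ := h x
  refine ⟨v + ((y - b v) / b w) • w, ?_⟩
  rw [ContinuousLinearMap.prod_apply, map_add, map_add, map_smul, map_smul, ha, hv]
  simp only [smul_eq_mul, mul_zero, add_zero]
  rw [div_mul_cancel₀ _ hb]
  ring_nf

/-- Constant Milnor number. -/
theorem good_of_milnor {r : ℝ} (hr : 0 < r) {F : (Fin 3 → ℂ) → ℂ → ℂ}
    (hF : IsHolFamily r F) {μ : ℕ} (h₁ : ∀ t ∈ ball (0 : ℂ) r, Milnor (F · t) μ) :
    ∀ᶠ p in 𝓝 ((0 : Fin 3 → ℂ), (0 : ℂ)),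
      (p.1 ≠ 0 → Function.Surjective (dX (unc F) p)) := by
  have h0r : (0 : ℂ) ∈ ball (0 : ℂ) r := mem_ball_self hr
  have hnr : ∀ᶠ t in 𝓝 (0 : ℂ), t ∈ ball (0 : ℂ) r := isOpen_ball.mem_nhds h0r
  have aF : AnalyticAt ℂ (unc F) (0, 0) := (hF 0 h0r).1
  have pF := fun i => analyticAt_pd (G := F) aF i
  have s1 := eq_zero_of_colength (0 : ℂ)
    (fun (i : Fin 3) (p : (Fin 3 → ℂ) × ℂ) => pd i (fun x => F x p.2) p.1) pF μ
    (hnr.mono fun t ht => h₁ t ht)
  filter_upwards [aF.eventually_analyticAt, s1] with p q1 q4 h3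
  have h4 : ¬ ∀ j : Fin 3, pd j (fun x => F x p.2) p.1 = 0 := fun hc => h3 (q4 hc)
  push Not at h4
  obtain ⟨j, hj⟩ := h4
  rw [pd_eq_dX q1] at hj
  exact surjective_of_ne_zero hj

/-- The slice derivative. -/
theorem fderiv_slice {F : (Fin 3 → ℂ) → ℂ → ℂ} {p : (Fin 3 → ℂ) × ℂ}
    (h : AnalyticAt ℂ (unc F) p) (w : Fin 3 → ℂ) : fderiv ℂ (F · p.2) p.1 w = dX (unc F) p w := by
  have h1 : HasFDerivAt (fun x : Fin 3 → ℂ => (x, p.2)) (ContinuousLinearMap.inl ℂ _ ℂ) p.1 :=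
    hasFDerivAt_prodMk_left p.1 p.2
  have h0 : HasFDerivAt (unc F) (fderiv ℂ (unc F) p) (p.1, p.2) :=
    h.differentiableAt.hasFDerivAt
  have h2 := h0.comp p.1 h1
  have h3 : fderiv ℂ (F · p.2) p.1 = (fderiv ℂ (unc F) p).comp (ContinuousLinearMap.inl ℂ _ ℂ) :=
    h2.fderiv
  rw [h3]
  rfl

/-- The uncurried real function. -/
def uncR (R : (Fin 3 → ℂ) → ℂ → ℝ) : (Fin 3 → ℂ) × ℂ → ℝ := fun p => R p.1 p.2

theorem fderiv_sliceR {R : (Fin 3 → ℂ) → ℂ → ℝ} {p : (Fin 3 → ℂ) × ℂ}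
    (h : DifferentiableAt ℝ (uncR R) p) (w : Fin 3 → ℂ) :
    fderiv ℝ (R · p.2) p.1 w = fderiv ℝ (uncR R) p (w, 0) := by
  have h1 : HasFDerivAt (fun x : Fin 3 → ℂ => (x, p.2)) (ContinuousLinearMap.inl ℝ _ ℂ) p.1 :=
    hasFDerivAt_prodMk_left p.1 p.2
  have h0 : HasFDerivAt (uncR R) (fderiv ℝ (uncR R) p) (p.1, p.2) := h.hasFDerivAt
  have h2 := h0.comp p.1 h1
  have h3 : fderiv ℝ (R · p.2) p.1 =
      (fderiv ℝ (uncR R) p).comp (ContinuousLinearMap.inl ℝ _ ℂ) := h2.fderiv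
  rw [h3]
  rfl

theorem cplx_ne {D : (Fin 3 → ℂ) × ℂ →L[ℝ] ℝ} {w : Fin 3 → ℂ} (h : D (w, 0) ≠ 0) :
    rX (cplx D) w ≠ 0 := by
  intro hc
  apply h
  have h1 : cplx D (w, (0 : ℂ)) = 0 := hc
  rw [← re_cplx, h1, Complex.zero_re]

/-- Trivializations from a control function on the surfaces. -/
theorem isTriv_of_control1 {r : ℝ} (hr : 0 < r) {F : (Fin 3 → ℂ) → ℂ → ℂ}
    (hF : IsHolFamily r F) {μ : ℕ} (h₁ : ∀ t ∈ ball (0 : ℂ) r, Milnor (F · t) μ)
    {R : (Fin 3 → ℂ) → ℂ → ℝ} (hR : Control ![F] R) :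
    ∃ δ : ℝ, 0 < δ ∧ δ ≤ r ∧ ∃ Φ, IsTriv δ F Φ ∧
      ∀ p ∈ Φ.source, F p.1 0 = 0 → R (Φ p).1 p.2 = R p.1 0 := by
  have h0r : (0 : ℂ) ∈ ball (0 : ℂ) r := mem_ball_self hr
  have aF : AnalyticAt ℂ (unc F) (0, 0) := (hF 0 h0r).1
  have hax : Tendsto (fun t : ℂ => ((0 : Fin 3 → ℂ), t)) (𝓝 0) (𝓝 (0, 0)) :=
    Continuous.tendsto (by fun_prop) 0
  have main : Triv r (unc F) (fun p => (uncR R p : ℂ)) (fun _ => 0)
      (fun p => cplx (fderiv ℝ (uncR R) p)) (fun _ => 0) := by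
    refine triv_of_eventually hr aF ?_ ?_ ?_ ?_
    · filter_upwards [hR] with p hp
      exact ctlAt_of_real hp.1 fun hne => (hp.2.2 hne).1
    · refine Eventually.of_forall fun p => ⟨continuousAt_const, fun _ =>
        ⟨contDiffAt_const, differentiableAt_const _, fun v _ c => by simp⟩⟩
    · filter_upwards [eventually_axis hr hF, hax.eventually hR] with t h1 h2
      refine ⟨h1, ?_, rfl⟩
      have h3 : uncR R (0, t) = 0 := h2.2.1 rfl
      rw [h3, Complex.ofReal_zero]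
    · filter_upwards [good_of_milnor hr hF h₁, hR, aF.eventually_analyticAt] with p h1 h2 h3
      have key : p.1 ≠ 0 → unc F p = 0 → uncR R p ≠ 0 ∧
          Function.Surjective ((dX (unc F) p).prod (rX (cplx (fderiv ℝ (uncR R) p)))) := by
        intro hne h0
        obtain ⟨h4, h5⟩ := h2.2.2 hne
        obtain ⟨h6, w, h7, h8⟩ := h5 (fun j => by
          fin_cases j
          exact h0)
        refine ⟨h6, surjective_double (h1 hne) (w := w) ?_ ?_⟩
        · rw [← fderiv_slice h3]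
          exact h7 0
        · refine cplx_ne ?_
          rw [← fderiv_sliceR (h4.differentiableAt (by norm_num))]
          exact h8
      have key0 : unc F p = 0 → ((uncR R p : ℝ) : ℂ) = 0 → p.1 = 0 := by
        intro h4 h5
        by_contra hne
        exact (key hne h4).1 (by exact_mod_cast h5)
      exact ⟨h1, fun hne h0 => (key hne h0).2, fun hne h4 h5 => absurd (key0 h4 h5) hne,
        fun h4 h5 _ => key0 h4 h5⟩
  obtain ⟨δ, r', hδ, hδr, -, -, e, e1, e2, e3, e4, e5, e6, -, -, -, -⟩ := main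
  refine ⟨δ, hδ, hδr, e, ⟨?_, ?_, ?_⟩, ?_⟩
  · intro p hp
    rw [mem_ball, dist_zero_right]
    exact e1 p hp
  · intro t ht
    rw [mem_ball, dist_zero_right] at ht
    exact ⟨e2 t ht, e4 t⟩
  · intro p hp
    refine ⟨e3 p, ?_⟩
    have := e5 p hp
    simp only [unc] at this
    rw [e3 p] at this
    exact this
  · intro p hp h0
    have := e6 p hp h0
    simp only [uncR] at this
    rw [e3 p] at this
    exact_mod_cast this

/-- Trivializations from a companion and a control function on the curves. -/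
theorem isTriv_of_control2 {r : ℝ} (hr : 0 < r) {F E : (Fin 3 → ℂ) → ℂ → ℂ}
    (hF : IsHolFamily r F) {μ : ℕ} (h₁ : ∀ t ∈ ball (0 : ℂ) r, Milnor (F · t) μ)
    (hE : Companion r F E) {R : (Fin 3 → ℂ) → ℂ → ℝ} (hR : Control ![F, E] R) :
    ∃ δ : ℝ, 0 < δ ∧ δ ≤ r ∧ ∃ Φ, IsTriv δ F Φ ∧
      ∀ p ∈ Φ.source, F p.1 0 = 0 → E (Φ p).1 p.2 = E p.1 0 ∧
        (E p.1 0 = 0 → R (Φ p).1 p.2 = R p.1 0) := by
  obtain ⟨hE', a, h₂⟩ := hE
  have h0r : (0 : ℂ) ∈ ball (0 : ℂ) r := mem_ball_self hr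
  have aF : AnalyticAt ℂ (unc F) (0, 0) := (hF 0 h0r).1
  have aE : AnalyticAt ℂ (unc E) (0, 0) := (hE' 0 h0r).1
  have hax : Tendsto (fun t : ℂ => ((0 : Fin 3 → ℂ), t)) (𝓝 0) (𝓝 (0, 0)) :=
    Continuous.tendsto (by fun_prop) 0
  have main : Triv r (unc F) (unc E) (fun p => (uncR R p : ℂ)) (fderiv ℂ (unc E))
      (fun p => cplx (fderiv ℝ (uncR R) p)) := by
    refine triv_of_eventually hr aF
      (aE.eventually_analyticAt.mono fun p hp => ctlAt_of_analytic hp) ?_ ?_ ?_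
    · filter_upwards [hR] with p hp
      exact ctlAt_of_real hp.1 fun hne => (hp.2.2 hne).1
    · filter_upwards [eventually_axis hr hF, eventually_axis hr hE', hax.eventually hR]
        with t h1 h1' h2
      refine ⟨h1, h1', ?_⟩
      have h3 : uncR R (0, t) = 0 := h2.2.1 rfl
      rw [h3, Complex.ofReal_zero]
    · filter_upwards [good_of_colength hr hF hE' h₁ h₂, hR, aF.eventually_analyticAt,
        aE.eventually_analyticAt] with p h1 h2 h3 h3'
      have key : p.1 ≠ 0 → unc F p = 0 → unc E p = 0 → uncR R p ≠ 0 ∧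
          Function.Surjective ((dX (unc F) p).prod ((dX (unc E) p).prod
            (rX (cplx (fderiv ℝ (uncR R) p))))) := by
        intro hne h0 h0'
        obtain ⟨h4, h5⟩ := h2.2.2 hne
        obtain ⟨h6, w, h7, h8⟩ := h5 (fun j => by
          fin_cases j
          · exact h0
          · exact h0')
        refine ⟨h6, surjective_triple (h1.2 hne h0) (w := w) ?_ ?_ ?_⟩
        · rw [← fderiv_slice h3]
          exact h7 0
        · rw [← fderiv_slice h3']
          exact h7 1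
        · refine cplx_ne ?_
          rw [← fderiv_sliceR (h4.differentiableAt (by norm_num))]
          exact h8
      refine ⟨h1.1, h1.2, fun hne h4 h5 => (key hne h4 h5).2, fun h4 h5 h6 => ?_⟩
      by_contra hne
      have h6' : ((uncR R p : ℝ) : ℂ) = 0 := h6
      exact (key hne h4 h5).1 (by exact_mod_cast h6')
  obtain ⟨δ, r', hδ, hδr, -, -, e, e1, e2, e3, e4, e5, e6, e7, -, -, -⟩ := main
  refine ⟨δ, hδ, hδr, e, ⟨?_, ?_, ?_⟩, ?_⟩
  · intro p hp
    rw [mem_ball, dist_zero_right]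
    exact e1 p hp
  · intro t ht
    rw [mem_ball, dist_zero_right] at ht
    exact ⟨e2 t ht, e4 t⟩
  · intro p hp
    refine ⟨e3 p, ?_⟩
    have := e5 p hp
    simp only [unc] at this
    rw [e3 p] at this
    exact this
  · intro p hp h0
    refine ⟨?_, fun h0' => ?_⟩
    · have := e6 p hp h0
      simp only [unc] at this
      rw [e3 p] at this
      exact this
    · have := e7 p hp h0 h0'
      simp only [uncR] at this
      rw [e3 p] at this
      exact_mod_cast this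

end Vale.Agent.P298.H119
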