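import Vale.Agent.P298.H119.Flag
import Mathlib.Analysis.Normed.Module.RCLike.Extend

namespace Vale.Agent.P298.H119

open Set Metric Filter Topology Vale.Agent.P298
open scoped NNReal ContDiff Manifold

variable {X : Type*} [NormedAddCommGroup X] [NormedSpace ℂ X]

/-- A holomorphic function is a control function. -/
theorem ctl_of_analytic {E : X × ℂ → ℂ} {B : Set (X × ℂ)} {η : ℝ} (hE : AnalyticOnNhd ℂ E B)
    (h0 : ∀ t : ℂ, ‖t‖ ≤ η → E (0, t) = 0) : Ctl B η E (fderiv ℂ E) where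
  cont := hE.continuousOn
  smooth := fun p hp _ => (hE p hp).fderiv.contDiffAt.restrict_scalars ℝ
  axis := h0
  diff := fun p hp _ => (hE p hp).differentiableAt.restrictScalars ℝ
  deriv := by
    intro p hp _ v hv c
    have h1 : fderiv ℝ E p = (fderiv ℂ E p).restrictScalars ℝ :=
      (((hE p hp).differentiableAt.hasFDerivAt).restrictScalars ℝ).fderiv
    rw [h1]
    change fderiv ℂ E p (c • ((v, 1) : X × ℂ)) = 0
    rw [map_smul, hv, smul_zero]

/-- The complex linear form with a given real part. -/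
noncomputable def cplx (D : X × ℂ →L[ℝ] ℝ) : X × ℂ →L[ℂ] ℂ :=
  StrongDual.extendRCLikeₗ (𝕜 := ℂ) D

theorem cplx_apply (D : X × ℂ →L[ℝ] ℝ) (v : X × ℂ) :
    cplx D v = (D v : ℂ) - Complex.I * (D (Complex.I • v) : ℂ) := by
  unfold cplx
  rw [StrongDual.extendRCLikeₗ_apply]
  rfl

theorem re_cplx (D : X × ℂ →L[ℝ] ℝ) (v : X × ℂ) : (cplx D v).re = D v := by
  rw [cplx_apply]
  simp

theorem contDiffAt_cplx {D : X × ℂ → (X × ℂ →L[ℝ] ℝ)} {p : X × ℂ} (h : ContDiffAt ℝ 1 D p) :
    ContDiffAt ℝ 1 (fun q => cplx (D q)) p := by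
  have h1 : ContDiff ℝ 1 (StrongDual.extendRCLikeₗᵢ (𝕜 := ℂ) (F := X × ℂ)) :=
    (StrongDual.extendRCLikeₗᵢ (𝕜 := ℂ) (F := X × ℂ)).contDiff
  exact h1.contDiffAt.comp p h

/-- A real function is a control function. -/
theorem ctl_of_real {R : X × ℂ → ℝ} {B : Set (X × ℂ)} {η : ℝ} (hc : ContinuousOn R B)
    (hR : ∀ p ∈ B, p.1 ≠ 0 → ContDiffAt ℝ 2 R p) (h0 : ∀ t : ℂ, ‖t‖ ≤ η → R (0, t) = 0) :
    Ctl B η (fun p => (R p : ℂ)) (fun p => cplx (fderiv ℝ R p)) where
  cont := Complex.continuous_ofReal.comp_continuousOn hc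
  smooth := fun p hp hne => contDiffAt_cplx ((hR p hp hne).fderiv_right (m := 1) (by norm_num))
  axis := fun t ht => by rw [h0 t ht, Complex.ofReal_zero]
  diff := fun p hp hne => by
    have h1 : DifferentiableAt ℝ R p := (hR p hp hne).differentiableAt (by norm_num)
    exact Complex.ofRealCLM.differentiableAt.comp p h1
  deriv := by
    intro p hp hne v hv c
    have h1 : DifferentiableAt ℝ R p := (hR p hp hne).differentiableAt (by norm_num)
    have h2 : HasFDerivAt (fun p => (R p : ℂ)) (Complex.ofRealCLM.comp (fderiv ℝ R p)) p :=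
      Complex.ofRealCLM.hasFDerivAt.comp p h1.hasFDerivAt
    rw [h2.fderiv]
    change ((fderiv ℝ R p (c • ((v, 1) : X × ℂ)) : ℝ) : ℂ) = 0
    rw [← re_cplx, map_smul, hv, smul_zero, Complex.zero_re, Complex.ofReal_zero]

/-- Three independent forms from two independent ones and a vector in their kernel. -/
theorem surjective_triple {a b c : X →L[ℂ] ℂ} (h : Function.Surjective (a.prod b)) {w : X}
    (ha : a w = 0) (hb : b w = 0) (hc : c w ≠ 0) : Function.Surjective (a.prod (b.prod c)) := by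
  rintro ⟨x, y, z⟩
  obtain ⟨v, hv⟩ := h (x, y)
  rw [ContinuousLinearMap.prod_apply, Prod.ext_iff] at hv
  obtain ⟨h1, h2⟩ := hv
  simp only at h1 h2
  refine ⟨v + ((z - c v) / c w) • w, ?_⟩
  rw [ContinuousLinearMap.prod_apply, ContinuousLinearMap.prod_apply, map_add, map_add, map_add,
    map_smul, map_smul, map_smul, ha, hb, h1, h2]
  simp only [smul_eq_mul, mul_zero, add_zero]
  rw [div_mul_cancel₀ _ hc]
  ring_nf

end Vale.Agent.P298.H119
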