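import Vale.Agent.P298.Bdl.B1

namespace Vale.Agent.P298.H119

open Set Metric Filter Topology Vale.Agent.P298
open scoped NNReal ContDiff Manifold

variable {X : Type*} [NormedAddCommGroup X] [NormedSpace ℂ X]

/-- `DE` is a field of complex linear forms which controls the real differential of `E` away from
the axis: either `E` is holomorphic and `DE` its differential, or `E` is real and `DE` is twice
its `(1,0)`-differential. -/
structure Ctl (B : Set (X × ℂ)) (η : ℝ) (E : X × ℂ → ℂ) (DE : X × ℂ → (X × ℂ →L[ℂ] ℂ)) :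
    Prop where
  cont : ContinuousOn E B
  smooth : ∀ p ∈ B, p.1 ≠ 0 → ContDiffAt ℝ 1 DE p
  axis : ∀ t : ℂ, ‖t‖ ≤ η → E (0, t) = 0
  diff : ∀ p ∈ B, p.1 ≠ 0 → DifferentiableAt ℝ E p
  deriv : ∀ p ∈ B, p.1 ≠ 0 → ∀ v : X, DE p (v, 1) = 0 → ∀ c : ℂ,
    fderiv ℝ E p (c • ((v, 1) : X × ℂ)) = 0

/-- The restriction of a linear form to the space direction. -/
noncomputable def rX (D : X × ℂ →L[ℂ] ℂ) : X →L[ℂ] ℂ :=
  D.comp (ContinuousLinearMap.inl ℂ X ℂ)

theorem rX_split (D : X × ℂ →L[ℂ] ℂ) (v : X) : D (v, 1) = rX D v + D (0, 1) := by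
  change _ = D (v, 0) + _
  rw [← map_add]
  simp

theorem contDiffAt_rX {D : X × ℂ → (X × ℂ →L[ℂ] ℂ)} {p : X × ℂ} (h : ContDiffAt ℝ 1 D p) :
    ContDiffAt ℝ 1 (fun q => rX (D q)) p := by
  have h2 : ContDiff ℂ 1 (fun A : X × ℂ →L[ℂ] ℂ => A.comp (ContinuousLinearMap.inl ℂ X ℂ)) :=
    ((ContinuousLinearMap.compL ℂ X (X × ℂ) ℂ).flip (ContinuousLinearMap.inl ℂ X ℂ)).contDiff
  exact (h2.restrict_scalars ℝ).contDiffAt.comp p h

theorem contDiffAt_rT {D : X × ℂ → (X × ℂ →L[ℂ] ℂ)} {p : X × ℂ} (h : ContDiffAt ℝ 1 D p) :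
    ContDiffAt ℝ 1 (fun q => D q (0, 1)) p := by
  have h2 : ContDiff ℂ 1 (fun A : X × ℂ →L[ℂ] ℂ => A ((0 : X), (1 : ℂ))) :=
    (ContinuousLinearMap.apply ℂ ℂ ((0 : X), (1 : ℂ))).contDiff
  exact (h2.restrict_scalars ℝ).contDiffAt.comp p h

/-- The derivative of a control function along a trajectory. -/
theorem hasDerivWithinAt_ctl {E : X × ℂ → ℂ} {G : Set (X × ℂ)} {u : X × ℂ → X} {c₀ c₁ : ℝ}
    {t : ℂ} {b : ℝ} {x : ℝ → X} (hx : Traj G u c₀ c₁ t b x)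
    (hd : ∀ p ∈ G, DifferentiableAt ℝ E p) {s : ℝ} (hs : s ∈ Icc 0 b) :
    HasDerivWithinAt (fun s => E (x s, (c₀ + c₁ * s) • t))
      (fderiv ℝ E (x s, (c₀ + c₁ * s) • t)
        (((c₁ : ℂ) * t) • ((u (x s, (c₀ + c₁ * s) • t), 1) : X × ℂ))) (Icc 0 b) s := by
  obtain ⟨h1, h2⟩ := hx s hs
  have h3 : HasDerivWithinAt (fun s : ℝ => (c₀ + c₁ * s) • t) (c₁ • t) (Icc 0 b) s := by
    have : HasDerivAt (fun s : ℝ => c₀ + c₁ * s) c₁ s := by
      simpa using ((hasDerivAt_id s).const_mul c₁).const_add c₀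
    exact (this.smul_const t).hasDerivWithinAt
  have h4 := h2.prodMk h3
  have h5 : HasFDerivAt E (fderiv ℝ E (x s, (c₀ + c₁ * s) • t))
      (x s, (c₀ + c₁ * s) • t) := (hd _ h1).hasFDerivAt
  have h6 := h5.comp_hasDerivWithinAt s h4
  refine h6.congr_deriv ?_
  set p : X × ℂ := (x s, (c₀ + c₁ * s) • t)
  have e1 : ((c₁ • t • u p, c₁ • t) : X × ℂ) = ((c₁ : ℂ) * t) • ((u p, 1) : X × ℂ) := by
    ext
    · simp only [Prod.smul_mk]
      rw [mul_smul, Complex.coe_smul]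
    · simp
  rw [e1]

variable [FiniteDimensional ℂ X]

/-- `exists_homeo` with the uniqueness of the trajectories. -/
theorem exists_homeo_unique {η' : ℝ} {G : Set (X × ℂ)} (hG : IsOpen G)
    (hG0 : ∀ p ∈ G, p.1 ≠ 0)
    {u : X × ℂ → X} (hu : ContDiffOn ℝ 1 u G) {Q : ℕ → Set (X × ℂ)} {C : Set (X × ℂ)}
    (hQ : ∀ k, IsOpen (Q k)) (hQ0k : ∀ k, Q k ⊆ Q 0)
    (haxis : ∀ k, ∀ t : ℂ, ‖t‖ ≤ η' → ((0 : X), t) ∈ Q k)
    (hC : IsCompact C) (hCG : ∀ p ∈ C, ‖p.2‖ ≤ η' → p.1 ≠ 0 → p ∈ G)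
    (hQC : ∀ p ∈ Q 0, ‖p.2‖ ≤ η' → p ∈ C)
    (hshrink : ∀ δ > 0, ∃ k, ∀ p ∈ Q k, ‖p.2‖ ≤ η' → ‖p.1‖ < δ)
    (bar : ∀ k, ∀ c₀ c₁ : ℝ, (∀ s ∈ Icc (0 : ℝ) 1, c₀ + c₁ * s ∈ Icc (0 : ℝ) 1) →
      ∀ t : ℂ, ‖t‖ ≤ η' → ∀ b ∈ Icc (0 : ℝ) 1, ∀ x, Traj G u c₀ c₁ t b x →
      ∀ s ∈ Icc 0 b, ((x 0, c₀ • t) ∈ Q k ↔ (x s, (c₀ + c₁ * s) • t) ∈ Q k)) :
    ∃ e : OpenPartialHomeomorph (X × ℂ) (X × ℂ),
      e.source = {p | ‖p.2‖ < η' ∧ (p.1, 0) ∈ Q 0} ∧
      e.target = {p | ‖p.2‖ < η' ∧ p ∈ Q 0} ∧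
      (∀ p, (e p).2 = p.2) ∧ (∀ t, e (0, t) = (0, t)) ∧
      ∀ p ∈ e.source, p.1 ≠ 0 → (∃ x, Traj G u 0 1 p.2 1 x ∧ x 0 = p.1 ∧ x 1 = (e p).1) ∧
        (∀ x, Traj G u 0 1 p.2 1 x → x 0 = p.1 → x 1 = (e p).1) := by
  have hc1 : ∀ s ∈ Icc (0 : ℝ) 1, (0 : ℝ) + 1 * s ∈ Icc (0 : ℝ) 1 := fun s hs => by
    rw [zero_add, one_mul]; exact hs
  have hc2 : ∀ s ∈ Icc (0 : ℝ) 1, (1 : ℝ) + (-1) * s ∈ Icc (0 : ℝ) 1 := fun s hs =>
    ⟨by linarith [hs.2], by linarith [hs.1]⟩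
  obtain ⟨φ, φc, φ0, φt, φQ⟩ := exists_endpoint (c₀ := 0) (c₁ := 1) hG hG0 hu hQ hQ0k haxis hC hCG
    hQC hshrink hc1 (fun k => bar k 0 1 hc1)
  obtain ⟨ψ, ψc, ψ0, ψt, ψQ⟩ := exists_endpoint (c₀ := 1) (c₁ := -1) hG hG0 hu hQ hQ0k haxis hC hCG
    hQC hshrink hc2 (fun k => bar k 1 (-1) hc2)
  simp only [zero_smul, one_smul, zero_add, add_neg_cancel] at φc φt φQ ψc ψt ψQ
  have hleft : ∀ p : X × ℂ, ‖p.2‖ < η' → (p.1, (0 : ℂ)) ∈ Q 0 → ψ (φ p, p.2) = p.1 := by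
    intro p h1 h2
    by_cases hp : p.1 = 0
    · rw [φ0 p hp, ψ0 (0, p.2) rfl, hp]
    · obtain ⟨⟨x, hx, hx0, hx1⟩, -⟩ := φt p h1 h2 hp
      have hne : φ p ≠ 0 := by
        rw [← hx1]
        exact hG0 _ (hx 1 (by simp)).1
      have hrev := hx.reverse
      rw [zero_add] at hrev
      have := (ψt (φ p, p.2) h1 (φQ p h1 h2) hne).2 _ hrev (by simp [hx1])
      simp only [sub_self] at this
      rw [← this, hx0]
  have hright : ∀ p : X × ℂ, ‖p.2‖ < η' → (p.1, p.2) ∈ Q 0 → φ (ψ p, p.2) = p.1 := by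
    intro p h1 h2
    by_cases hp : p.1 = 0
    · rw [ψ0 p hp, φ0 (0, p.2) rfl, hp]
    · obtain ⟨⟨x, hx, hx0, hx1⟩, -⟩ := ψt p h1 h2 hp
      have hne : ψ p ≠ 0 := by
        rw [← hx1]
        exact hG0 _ (hx 1 (by simp)).1
      have hrev := hx.reverse
      rw [add_neg_cancel, neg_neg] at hrev
      have := (φt (ψ p, p.2) h1 (ψQ p h1 h2) hne).2 _ hrev (by simp [hx1])
      simp only [sub_self] at this
      rw [← this, hx0]
  have ho1 : IsOpen {p : X × ℂ | ‖p.2‖ < η' ∧ (p.1, (0 : ℂ)) ∈ Q 0} :=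
    (isOpen_lt continuous_snd.norm continuous_const).inter
      ((hQ 0).preimage (continuous_fst.prodMk continuous_const))
  have ho2 : IsOpen {p : X × ℂ | ‖p.2‖ < η' ∧ p ∈ Q 0} :=
    (isOpen_lt continuous_snd.norm continuous_const).inter (hQ 0)
  refine ⟨{ toFun := fun p => (φ p, p.2)
            invFun := fun p => (ψ p, p.2)
            source := {p | ‖p.2‖ < η' ∧ (p.1, 0) ∈ Q 0}
            target := {p | ‖p.2‖ < η' ∧ p ∈ Q 0}
            map_source' := fun p hp => ⟨hp.1, φQ p hp.1 hp.2⟩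
            map_target' := fun p hp => ⟨hp.1, ψQ p hp.1 hp.2⟩
            left_inv' := fun p hp => by
              simp only [hleft p hp.1 hp.2]
            right_inv' := fun p hp => by
              simp only [hright p hp.1 hp.2]
            open_source := ho1
            open_target := ho2
            continuousOn_toFun := φc.prodMk continuousOn_snd
            continuousOn_invFun := ψc.prodMk continuousOn_snd }, rfl, rfl, fun p => rfl, ?_, ?_⟩
  · intro t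
    change (φ (0, t), t) = (0, t)
    rw [φ0 _ rfl]
  · intro p hp hp0
    exact φt p hp.1 hp.2 hp0


/-- The curve `y` over the ray through `t` lies in `F = E = 0` and its velocity `w` satisfies the
three equations. -/
def Follows (F E : X × ℂ → ℂ) (DE DH : X × ℂ → (X × ℂ →L[ℂ] ℂ)) (r : ℝ) (t : ℂ)
    (y w : ℝ → X) : Prop :=
  ∀ τ ∈ Icc (0 : ℝ) 1, y τ ≠ 0 ∧ ‖y τ‖ < r ∧ F (y τ, τ • t) = 0 ∧ E (y τ, τ • t) = 0 ∧
    fderiv ℂ F (y τ, τ • t) (w τ, 1) = 0 ∧ DE (y τ, τ • t) (w τ, 1) = 0 ∧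
    DH (y τ, τ • t) (w τ, 1) = 0 ∧ HasDerivWithinAt y (t • w τ) (Icc 0 1) τ

/-- **Controlled flags.** The trivialization of `F`, controlled by `E` on `F = 0` and by `H` on
`F = E = 0`, which moreover preserves `E` on `F = 0` and `H` on `F = E = 0`. -/
theorem trivial_of_ctl {F E H : X × ℂ → ℂ} {DE DH : X × ℂ → (X × ℂ →L[ℂ] ℂ)} {r η : ℝ}
    (hr : 0 < r) (hη : 0 < η)
    (hF : AnalyticOnNhd ℂ F (closedBall 0 r ×ˢ closedBall 0 η))
    (hE : Ctl (closedBall 0 r ×ˢ closedBall 0 η) η E DE)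
    (hH : Ctl (closedBall 0 r ×ˢ closedBall 0 η) η H DH)
    (hF0 : ∀ t : ℂ, ‖t‖ ≤ η → F (0, t) = 0)
    (P1 : ∀ p : X × ℂ, ‖p.1‖ ≤ r → ‖p.2‖ ≤ η → p.1 ≠ 0 → Function.Surjective (dX F p))
    (P2 : ∀ p : X × ℂ, ‖p.1‖ ≤ r → ‖p.2‖ ≤ η → p.1 ≠ 0 → F p = 0 →
      Function.Surjective ((dX F p).prod (rX (DE p))))
    (P3 : ∀ p : X × ℂ, ‖p.1‖ ≤ r → ‖p.2‖ ≤ η → p.1 ≠ 0 → F p = 0 → E p = 0 →
      Function.Surjective ((dX F p).prod ((rX (DE p)).prod (rX (DH p)))))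
    (P4 : ∀ p : X × ℂ, ‖p.1‖ ≤ r → ‖p.2‖ ≤ η → F p = 0 → E p = 0 → H p = 0 → p.1 = 0) :
    ∃ e : OpenPartialHomeomorph (X × ℂ) (X × ℂ),
      (∀ p ∈ e.source, ‖p.2‖ < η / 2) ∧ (∀ t : ℂ, ‖t‖ < η / 2 → (0, t) ∈ e.source) ∧
      (∀ p, (e p).2 = p.2) ∧ (∀ t, e (0, t) = (0, t)) ∧
      (∀ p ∈ e.source, F (e p) = F (p.1, 0)) ∧
      (∀ p ∈ e.source, F (p.1, 0) = 0 → E (e p) = E (p.1, 0)) ∧
      (∀ p ∈ e.source, F (p.1, 0) = 0 → E (p.1, 0) = 0 → H (e p) = H (p.1, 0)) ∧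
      (∀ p ∈ e.source, p.1 ≠ 0 → (e p).1 ≠ 0) ∧
      (∀ p ∈ e.source, ‖p.1‖ < r ∧ ‖(e p).1‖ < r) ∧
      (Module.finrank ℂ X = 3 → ∀ p ∈ e.source, ∀ y w : ℝ → X, y 0 = p.1 →
        Follows F E DE DH r p.2 y w → e p = (y 1, p.2)) := by
  have : ProperSpace X := FiniteDimensional.proper ℂ X
  have : FiniteDimensional ℝ X := FiniteDimensional.complexToReal X
  set B : Set (X × ℂ) := closedBall 0 r ×ˢ closedBall 0 η with hB
  have hBc : IsCompact B := (isCompact_closedBall _ _).prod (isCompact_closedBall _ _)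
  have hBmem : ∀ p : X × ℂ, p ∈ B ↔ ‖p.1‖ ≤ r ∧ ‖p.2‖ ≤ η := by
    intro p
    simp [hB, mem_prod]
  have hFc : ContinuousOn F B := hF.continuousOn
  have hEc : ContinuousOn E B := hE.cont
  have hHc : ContinuousOn H B := hH.cont
  have hE0 := hE.axis
  have hH0 := hH.axis
  have hdc : ∀ {f : X × ℂ → ℂ}, AnalyticOnNhd ℂ f B → ∀ p ∈ B, ContinuousWithinAt (dX f) B p :=
    fun hf p hp => (contDiffAt_dX (hf p hp)).continuousAt.continuousWithinAt
  have hdc' : ∀ {D : X × ℂ → (X × ℂ →L[ℂ] ℂ)}, (∀ p ∈ B, p.1 ≠ 0 → ContDiffAt ℝ 1 D p) →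
      ∀ p ∈ B, p.1 ≠ 0 → ContinuousWithinAt (fun q => rX (D q)) B p :=
    fun hD p hp h0 => (contDiffAt_rX (hD p hp h0)).continuousAt.continuousWithinAt
  -- constants
  have hsmall : ∀ δ > 0, ∃ κ > 0, ∀ p ∈ B, ‖F p‖ ≤ κ → ‖E p‖ ≤ κ → ‖H p‖ ≤ κ → ‖p.1‖ < δ := by
    intro δ hδ
    set S : Set (X × ℂ) := B ∩ {p | δ ≤ ‖p.1‖}
    have hS : IsCompact S := hBc.inter_right (isClosed_le continuous_const continuous_fst.norm)
    obtain ⟨κ, hκ, hκ'⟩ := exists_pos_of_good (B := B) hS inter_subset_left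
      (a := fun p => max ‖F p‖ (max ‖E p‖ ‖H p‖))
      ((hFc.norm.sup (hEc.norm.sup hHc.norm)).mono inter_subset_left)
      (fun p _ => le_max_of_le_left (norm_nonneg _)) (good := fun _ => False) (by
        intro p hp h0
        exfalso
        have h1 : ‖F p‖ ≤ 0 := (le_max_left _ _).trans h0.le
        have h2 : ‖E p‖ ≤ 0 := ((le_max_left _ _).trans (le_max_right _ _)).trans h0.le
        have h3 : ‖H p‖ ≤ 0 := ((le_max_right _ _).trans (le_max_right _ _)).trans h0.le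
        have hb := (hBmem p).1 hp.1
        have := P4 p hb.1 hb.2 (norm_le_zero_iff.1 h1) (norm_le_zero_iff.1 h2)
          (norm_le_zero_iff.1 h3)
        have h4 : δ ≤ ‖p.1‖ := hp.2
        rw [this, norm_zero] at h4
        linarith)
    refine ⟨κ, hκ, fun p hp h1 h2 h3 => ?_⟩
    by_contra hc
    exact hκ' p ⟨hp, not_lt.1 hc⟩ (max_le h1 (max_le h2 h3))
  have hpick : ∀ ε > 0, ∀ κ > 0, ∃ α β : ℝ, 0 < α ∧ α ≤ β ∧ β ≤ ε ∧ β ≤ κ ∧
      (∀ p ∈ B, ‖F p‖ ≤ β → ‖E p‖ ≤ β → ε / 2 ≤ ‖H p‖ → ‖H p‖ ≤ ε →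
        Function.Surjective ((dX F p).prod ((rX (DE p)).prod (rX (DH p))))) ∧
      (∀ p ∈ B, ‖F p‖ ≤ α → β / 2 ≤ ‖E p‖ → ‖E p‖ ≤ β → ‖H p‖ ≤ ε →
        Function.Surjective ((dX F p).prod (rX (DE p)))) := by
    intro ε hε κ hκ
    -- `β`
    have hcl2 : IsCompact (B ∩ {p | ε / 2 ≤ ‖H p‖ ∧ ‖H p‖ ≤ ε}) := by
      refine hBc.of_isClosed_subset ?_ inter_subset_left
      exact hHc.norm.preimage_isClosed_of_isClosed hBc.isClosed isClosed_Icc
    obtain ⟨β', hβ', hβ''⟩ := exists_pos_of_good (B := B) hcl2 inter_subset_left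
      (a := fun p => max ‖F p‖ ‖E p‖)
      ((hFc.norm.sup hEc.norm).mono inter_subset_left)
      (fun p _ => le_max_of_le_left (norm_nonneg _))
      (good := fun p => Function.Surjective ((dX F p).prod ((rX (DE p)).prod (rX (DH p))))) (by
        intro p hp h0
        have h1 : ‖F p‖ ≤ 0 := (le_max_left _ _).trans h0.le
        have h2 : ‖E p‖ ≤ 0 := (le_max_right _ _).trans h0.le
        have hb := (hBmem p).1 hp.1
        have hne : p.1 ≠ 0 := by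
          intro hz
          have : p = (0, p.2) := by rw [← hz]
          have h4 : ε / 2 ≤ ‖H p‖ := hp.2.1
          rw [this, hH0 _ hb.2, norm_zero] at h4
          linarith
        refine eventually_surjective (L := fun p => (dX F p).prod ((rX (DE p)).prod (rX (DH p)))) ?_
          (P3 p hb.1 hb.2 hne (norm_le_zero_iff.1 h1) (norm_le_zero_iff.1 h2))
        exact ((hdc hF p hp.1).prodMk ((hdc' hE.smooth p hp.1 hne).prodMk
          (hdc' hH.smooth p hp.1 hne))) |>.tendsto |>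
          fun h => by
            have hc : Continuous (fun q : (X →L[ℂ] ℂ) × ((X →L[ℂ] ℂ) × (X →L[ℂ] ℂ)) =>
              q.1.prod (q.2.1.prod q.2.2)) :=
              (contDiff_clm_prod (W := ℂ) (W' := ℂ × ℂ)).continuous.comp
                (continuous_fst.prodMk ((contDiff_clm_prod (W := ℂ) (W' := ℂ)).continuous.comp
                  continuous_snd))
            exact (hc.tendsto _).comp h)
    set β : ℝ := min β' (min ε κ) with hβdef
    have hβ : 0 < β := lt_min hβ' (lt_min hε hκ)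
    have hcl1 : IsCompact (B ∩ {p | (β / 2 ≤ ‖E p‖ ∧ ‖E p‖ ≤ β) ∧ ‖H p‖ ≤ ε}) := by
      refine hBc.of_isClosed_subset ?_ inter_subset_left
      have h1 : IsClosed (B ∩ {p | β / 2 ≤ ‖E p‖ ∧ ‖E p‖ ≤ β}) :=
        hEc.norm.preimage_isClosed_of_isClosed hBc.isClosed isClosed_Icc
      have h2 : IsClosed (B ∩ {p | ‖H p‖ ≤ ε}) :=
        hHc.norm.preimage_isClosed_of_isClosed hBc.isClosed isClosed_Iic
      have h3 := h1.inter h2
      convert h3 using 1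
      ext p
      simp only [mem_inter_iff, mem_ofPred_eq]
      tauto
    obtain ⟨α', hα', hα''⟩ := exists_pos_of_good (B := B) hcl1 inter_subset_left
      (a := fun p => ‖F p‖) (hFc.norm.mono inter_subset_left)
      (fun p _ => norm_nonneg _)
      (good := fun p => Function.Surjective ((dX F p).prod (rX (DE p)))) (by
        intro p hp h0
        have hb := (hBmem p).1 hp.1
        have hne : p.1 ≠ 0 := by
          intro hz
          have : p = (0, p.2) := by rw [← hz]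
          have h4 : β / 2 ≤ ‖E p‖ := hp.2.1.1
          rw [this, hE0 _ hb.2, norm_zero] at h4
          linarith
        refine eventually_surjective (L := fun p => (dX F p).prod (rX (DE p))) ?_
          (P2 p hb.1 hb.2 hne (norm_eq_zero.1 h0))
        exact ((hdc hF p hp.1).prodMk (hdc' hE.smooth p hp.1 hne)) |>.tendsto |>
          fun h => by
            have hc : Continuous (fun q : (X →L[ℂ] ℂ) × (X →L[ℂ] ℂ) => q.1.prod q.2) :=
              contDiff_clm_prod.continuous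
            exact (hc.tendsto _).comp h)
    refine ⟨min α' β, β, lt_min hα' hβ, min_le_right _ _,
      (min_le_right _ _).trans (min_le_left _ _), (min_le_right _ _).trans (min_le_right _ _),
      ?_, ?_⟩
    · intro p hp h1 h2 h3 h4
      exact hβ'' p ⟨hp, h3, h4⟩ (max_le (h1.trans (min_le_left _ _)) (h2.trans (min_le_left _ _)))
    · intro p hp h1 h2 h3 h4
      exact hα'' p ⟨hp, ⟨h2, h3⟩, h4⟩ (h1.trans (min_le_left _ _))
  -- initial constants
  obtain ⟨κ₀, hκ₀, hκ₀'⟩ := hsmall (r / 2) (by positivity)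
  obtain ⟨α₀, β₀, hα₀, hαβ₀, hβε₀, -, hS2₀, hS1₀⟩ := hpick κ₀ hκ₀ κ₀ hκ₀
  have hεk : ∀ k : ℕ, 0 < κ₀ / (k + 1) := fun k => by positivity
  choose α β hα hαβ hβε hβα hS2 hS1 using fun k : ℕ => hpick (κ₀ / (k + 1)) (hεk k) α₀ hα₀
  set par : ℕ → ℝ × ℝ × ℝ := fun k =>
    Nat.casesOn k (α₀, β₀, κ₀) (fun j => (α j, β j, κ₀ / (j + 1))) with hpar
  have par0 : par 0 = (α₀, β₀, κ₀) := rfl
  have parS : ∀ j, par (j + 1) = (α j, β j, κ₀ / (j + 1)) := fun j => rfl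
  have hp1 : ∀ k, 0 < (par k).1 := by
    intro k; cases k with
    | zero => exact hα₀
    | succ j => exact hα j
  have hp2 : ∀ k, (par k).1 ≤ (par k).2.1 := by
    intro k; cases k with
    | zero => exact hαβ₀
    | succ j => exact hαβ j
  have hp3 : ∀ k, (par k).2.1 ≤ (par k).2.2 := by
    intro k; cases k with
    | zero => exact hβε₀
    | succ j => exact hβε j
  have hp4 : ∀ k, 0 < (par k).2.1 := fun k => (hp1 k).trans_le (hp2 k)
  have hp5 : ∀ k, 0 < (par k).2.2 := fun k => (hp4 k).trans_le (hp3 k)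
  have hp6 : ∀ k, (par k).1 ≤ α₀ ∧ (par k).2.1 ≤ β₀ ∧ (par k).2.2 ≤ κ₀ := by
    intro k; cases k with
    | zero => exact ⟨le_rfl, le_rfl, le_rfl⟩
    | succ j =>
      refine ⟨(hαβ j).trans (hβα j), (hβα j).trans hαβ₀, ?_⟩
      change κ₀ / (j + 1) ≤ κ₀
      exact div_le_self hκ₀.le (by simp)
  have hS2' : ∀ k, ∀ p ∈ B, ‖F p‖ ≤ (par k).2.1 → ‖E p‖ ≤ (par k).2.1 →
      (par k).2.2 / 2 ≤ ‖H p‖ → ‖H p‖ ≤ (par k).2.2 →
      Function.Surjective ((dX F p).prod ((rX (DE p)).prod (rX (DH p)))) := by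
    intro k; cases k with
    | zero => exact hS2₀
    | succ j => exact hS2 j
  have hS1' : ∀ k, ∀ p ∈ B, ‖F p‖ ≤ (par k).1 → (par k).2.1 / 2 ≤ ‖E p‖ →
      ‖E p‖ ≤ (par k).2.1 → ‖H p‖ ≤ (par k).2.2 →
      Function.Surjective ((dX F p).prod (rX (DE p))) := by
    intro k; cases k with
    | zero => exact hS1₀
    | succ j => exact hS1 j
  have hpsh : ∀ δ > 0, ∃ k₀, ∀ k ≥ k₀, (par k).2.2 ≤ δ := by
    intro δ hδ
    obtain ⟨n, hn⟩ := exists_nat_gt (κ₀ / δ)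
    refine ⟨n + 1, fun k hk => ?_⟩
    cases k with
    | zero => omega
    | succ j =>
      change κ₀ / (j + 1) ≤ δ
      rw [div_le_iff₀ (by positivity)]
      have h1 : (n : ℝ) ≤ j := by
        have : n ≤ j := by omega
        exact_mod_cast this
      have h2 : κ₀ < n * δ := (div_lt_iff₀ hδ).1 hn
      nlinarith
  -- the barrier shells
  set T2 : ℕ → Set (X × ℂ) := fun k => {p ∈ B | ‖F p‖ ≤ (par k).2.1 ∧ ‖E p‖ ≤ (par k).2.1 ∧
    (par k).2.2 / 2 ≤ ‖H p‖ ∧ ‖H p‖ ≤ (par k).2.2} with hT2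
  set T1 : ℕ → Set (X × ℂ) := fun k => {p ∈ B | ‖F p‖ ≤ (par k).1 ∧ (par k).2.1 / 2 ≤ ‖E p‖ ∧
    ‖E p‖ ≤ (par k).2.1 ∧ ‖H p‖ ≤ (par k).2.2} with hT1
  have cl : ∀ {f : X × ℂ → ℂ}, ContinuousOn f B → ∀ s : Set ℝ, IsClosed s →
      IsClosed (B ∩ {p | ‖f p‖ ∈ s}) := fun hf s hs =>
    hf.norm.preimage_isClosed_of_isClosed hBc.isClosed hs
  have hT2c : ∀ k, IsClosed (T2 k) := by
    intro k
    have h1 := cl hFc _ (isClosed_Iic (a := (par k).2.1))
    have h2 := cl hEc _ (isClosed_Iic (a := (par k).2.1))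
    have h3 := cl hHc _ (isClosed_Icc (a := (par k).2.2 / 2) (b := (par k).2.2))
    convert h1.inter (h2.inter h3) using 1
    ext p
    simp only [hT2, mem_inter_iff, mem_ofPred_eq, mem_Iic, mem_Icc]
    tauto
  have hT1c : ∀ k, IsClosed (T1 k) := by
    intro k
    have h1 := cl hFc _ (isClosed_Iic (a := (par k).1))
    have h2 := cl hEc _ (isClosed_Icc (a := (par k).2.1 / 2) (b := (par k).2.1))
    have h3 := cl hHc _ (isClosed_Iic (a := (par k).2.2))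
    convert h1.inter (h2.inter h3) using 1
    ext p
    simp only [hT1, mem_inter_iff, mem_ofPred_eq, mem_Iic, mem_Icc]
    tauto
  have hT2sh : ∀ δ > 0, ∃ k₀, ∀ k ≥ k₀, ∀ p ∈ T2 k, ‖p.1‖ < δ := by
    intro δ hδ
    obtain ⟨κ, hκ, hκ'⟩ := hsmall δ hδ
    obtain ⟨k₀, hk₀⟩ := hpsh κ hκ
    refine ⟨k₀, fun k hk p hp => ?_⟩
    obtain ⟨h1, h2, h3, -, h4⟩ := hp
    have h5 := hk₀ k hk
    have h6 := hp3 k
    exact hκ' p h1 (by linarith) (by linarith) (by linarith)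
  have hT1sh : ∀ δ > 0, ∃ k₀, ∀ k ≥ k₀, ∀ p ∈ T1 k, ‖p.1‖ < δ := by
    intro δ hδ
    obtain ⟨κ, hκ, hκ'⟩ := hsmall δ hδ
    obtain ⟨k₀, hk₀⟩ := hpsh κ hκ
    refine ⟨k₀, fun k hk p hp => ?_⟩
    obtain ⟨h1, h2, -, h3, h4⟩ := hp
    have h5 := hk₀ k hk
    have h6 := hp3 k
    have h7 := hp2 k
    exact hκ' p h1 (by linarith) (by linarith) (by linarith)
  -- the open region
  set G : Set (X × ℂ) := {p | p.1 ≠ 0 ∧ ‖p.1‖ < r ∧ ‖p.2‖ < η} with hG
  have hGo : IsOpen G := by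
    have h1 : IsOpen {p : X × ℂ | p.1 ≠ 0} := isOpen_ne_fun continuous_fst continuous_const
    have h2 : IsOpen {p : X × ℂ | ‖p.1‖ < r} := isOpen_lt continuous_fst.norm continuous_const
    have h3 : IsOpen {p : X × ℂ | ‖p.2‖ < η} := isOpen_lt continuous_snd.norm continuous_const
    exact h1.inter (h2.inter h3)
  have hGB : ∀ p ∈ G, p ∈ B := fun p hp => (hBmem p).2 ⟨hp.2.1.le, hp.2.2.le⟩
  -- the vector field
  set K : X × ℂ → Set X := fun p => {v | fderiv ℂ F p (v, 1) = 0 ∧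
    (((∃ k, p ∈ T1 k ∪ T2 k) ∨ F p = 0) → DE p (v, 1) = 0) ∧
    (((∃ k, p ∈ T2 k) ∨ (F p = 0 ∧ E p = 0)) → DH p (v, 1) = 0)} with hK
  have hconv : ∀ (D : X × ℂ →L[ℂ] ℂ) (v w : X) (a b : ℝ), a + b = 1 →
      D (v, 1) = 0 → D (w, 1) = 0 → D (a • v + b • w, 1) = 0 := by
    intro D v w a b hab hv hw
    have e1 : ((a • v + b • w, 1) : X × ℂ) = (a : ℂ) • ((v, 1) : X × ℂ) + (b : ℂ) • ((w, 1) : X × ℂ) := by
      ext
      · simp [Complex.coe_smul]
      · simp only [Prod.snd_add, Prod.smul_snd, smul_eq_mul, mul_one]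
        rw [← Complex.ofReal_add, hab, Complex.ofReal_one]
    rw [e1, map_add, map_smul, map_smul, hv, hw]
    simp
  obtain ⟨u, huc, huK⟩ := exists_selection hGo K (by
    intro p _ v hv w hw a b _ _ hab
    exact ⟨hconv (fderiv ℂ F p) v w a b hab hv.1 hw.1,
      fun hk => hconv (DE p) v w a b hab (hv.2.1 hk) (hw.2.1 hk),
      fun hk => hconv (DH p) v w a b hab (hv.2.2 hk) (hw.2.2 hk)⟩) (by
    intro p₀ hp₀
    have hp₀B := hGB p₀ hp₀
    have hb := (hBmem p₀).1 hp₀B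
    have hne := hp₀.1
    have hBn' : B ∈ 𝓝 p₀ := Filter.mem_of_superset (hGo.mem_nhds hp₀) fun p hp => hGB p hp
    have hFat : ContinuousAt F p₀ := hFc.continuousAt hBn'
    have hEat : ContinuousAt E p₀ := hEc.continuousAt hBn'
    by_cases h2 : (∃ k, p₀ ∈ T2 k) ∨ (F p₀ = 0 ∧ E p₀ = 0)
    · -- three constraints
      have hsurj : Function.Surjective ((dX F p₀).prod ((rX (DE p₀)).prod (rX (DH p₀)))) := by
        rcases h2 with ⟨k, hk⟩ | ⟨h3, h4⟩
        · exact hS2' k p₀ hk.1 hk.2.1 hk.2.2.1 hk.2.2.2.1 hk.2.2.2.2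
        · exact P3 p₀ hb.1 hb.2 hne h3 h4
      obtain ⟨g, hg1, hg2⟩ := exists_local_solution
        (L := fun p => (dX F p).prod ((rX (DE p)).prod (rX (DH p))))
        (b := fun p => (-fderiv ℂ F p (0, 1), (-DE p (0, 1), -DH p (0, 1))))
        (p₀ := p₀)
        (by
          have h1 : ContDiffAt ℝ 1 (fun p => (rX (DE p)).prod (rX (DH p))) p₀ :=
            (contDiff_clm_prod (W := ℂ) (W' := ℂ)).contDiffAt.comp p₀
              ((contDiffAt_rX (hE.smooth p₀ hp₀B hne)).prodMk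
                (contDiffAt_rX (hH.smooth p₀ hp₀B hne)))
          exact (contDiff_clm_prod (W := ℂ) (W' := ℂ × ℂ)).contDiffAt.comp p₀
            ((contDiffAt_dX (hF p₀ hp₀B)).prodMk h1))
        ((contDiffAt_dT (hF p₀ hp₀B)).neg.prodMk
          ((contDiffAt_rT (hE.smooth p₀ hp₀B hne)).neg.prodMk
          (contDiffAt_rT (hH.smooth p₀ hp₀B hne)).neg)) hsurj
      refine ⟨g, hg1, ?_⟩
      filter_upwards [hg2] with p hp
      rw [Prod.ext_iff, Prod.ext_iff] at hp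
      obtain ⟨h1, h2, h3⟩ := hp
      refine ⟨?_, fun _ => ?_, fun _ => ?_⟩
      · rw [fderiv_split]
        have : dX F p (g p) = -fderiv ℂ F p (0, 1) := h1
        rw [this]; ring
      · rw [rX_split]
        have : rX (DE p) (g p) = -DE p (0, 1) := h2
        rw [this]; ring
      · rw [rX_split]
        have : rX (DH p) (g p) = -DH p (0, 1) := h3
        rw [this]; ring
    · have h2a : ∀ k, p₀ ∉ T2 k := fun k hk => h2 (Or.inl ⟨k, hk⟩)
      have h2b : ¬ (F p₀ = 0 ∧ E p₀ = 0) := fun hc => h2 (Or.inr hc)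
      have h2' : ∀ᶠ p in 𝓝 p₀, ∀ k, p ∉ T2 k :=
        eventually_notMem_iUnion hT2c hT2sh hne h2a
      have h2'' : ∀ᶠ p in 𝓝 p₀, ¬ (F p = 0 ∧ E p = 0) := by
        by_cases hf : F p₀ = 0
        · have he : E p₀ ≠ 0 := fun he => h2b ⟨hf, he⟩
          filter_upwards [hEat.eventually_ne he] with p hp hc
          exact hp hc.2
        · filter_upwards [hFat.eventually_ne hf] with p hp hc
          exact hp hc.1
      by_cases h1 : (∃ k, p₀ ∈ T1 k) ∨ F p₀ = 0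
      · have hsurj : Function.Surjective ((dX F p₀).prod (rX (DE p₀))) := by
          rcases h1 with ⟨k, hk⟩ | h3
          · exact hS1' k p₀ hk.1 hk.2.1 hk.2.2.1 hk.2.2.2.1 hk.2.2.2.2
          · exact P2 p₀ hb.1 hb.2 hne h3
        obtain ⟨g, hg1, hg2⟩ := exists_local_solution
          (L := fun p => (dX F p).prod (rX (DE p)))
          (b := fun p => (-fderiv ℂ F p (0, 1), -DE p (0, 1)))
          (p₀ := p₀)
          ((contDiff_clm_prod (W := ℂ) (W' := ℂ)).contDiffAt.comp p₀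
            ((contDiffAt_dX (hF p₀ hp₀B)).prodMk (contDiffAt_rX (hE.smooth p₀ hp₀B hne))))
          ((contDiffAt_dT (hF p₀ hp₀B)).neg.prodMk
            (contDiffAt_rT (hE.smooth p₀ hp₀B hne)).neg) hsurj
        refine ⟨g, hg1, ?_⟩
        filter_upwards [hg2, h2', h2''] with p hp hp2 hp3
        rw [Prod.ext_iff] at hp
        obtain ⟨h1, h2⟩ := hp
        refine ⟨?_, fun _ => ?_, fun hc => ?_⟩
        · rw [fderiv_split]
          have : dX F p (g p) = -fderiv ℂ F p (0, 1) := h1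
          rw [this]; ring
        · rw [rX_split]
          have : rX (DE p) (g p) = -DE p (0, 1) := h2
          rw [this]; ring
        · rcases hc with ⟨j, hj⟩ | hc
          · exact absurd hj (hp2 j)
          · exact absurd hc hp3
      · have h1a : ∀ k, p₀ ∉ T1 k := fun k hk => h1 (Or.inl ⟨k, hk⟩)
        have h1b : F p₀ ≠ 0 := fun hc => h1 (Or.inr hc)
        have h1' : ∀ᶠ p in 𝓝 p₀, ∀ k, p ∉ T1 k :=
          eventually_notMem_iUnion hT1c hT1sh hne h1a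
        obtain ⟨g, hg1, hg2⟩ := exists_local_solution
          (L := fun p => dX F p) (b := fun p => -fderiv ℂ F p (0, 1)) (p₀ := p₀)
          (contDiffAt_dX (hF p₀ hp₀B)) (contDiffAt_dT (hF p₀ hp₀B)).neg (P1 p₀ hb.1 hb.2 hne)
        refine ⟨g, hg1, ?_⟩
        filter_upwards [hg2, h2', h1', hFat.eventually_ne h1b] with p hp hp2 hp1 hp0
        refine ⟨?_, fun hc => ?_, fun hc => ?_⟩
        · rw [fderiv_split, hp]; ring
        · rcases hc with ⟨j, hj | hj⟩ | hc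
          · exact absurd hj (hp1 j)
          · exact absurd hj (hp2 j)
          · exact absurd hc hp0
        · rcases hc with ⟨j, hj⟩ | hc
          · exact absurd hj (hp2 j)
          · exact absurd hc.1 hp0)
  -- the invariant neighbourhoods
  set Q : ℕ → Set (X × ℂ) := fun k => {p | (‖p.1‖ < r ∧ ‖p.2‖ < η) ∧
    ‖F p‖ < (par k).1 ∧ ‖E p‖ < (par k).2.1 ∧ ‖H p‖ < (par k).2.2} with hQ
  set U : Set (X × ℂ) := {p | ‖p.1‖ < r ∧ ‖p.2‖ < η} with hU
  have hUo : IsOpen U :=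
    (isOpen_lt continuous_fst.norm continuous_const).inter
      (isOpen_lt continuous_snd.norm continuous_const)
  have hUB : U ⊆ B := fun p hp => (hBmem p).2 ⟨hp.1.le, hp.2.le⟩
  have op : ∀ {f : X × ℂ → ℂ}, ContinuousOn f B → ∀ c : ℝ, IsOpen (U ∩ {p | ‖f p‖ < c}) :=
    fun hf c => (hf.norm.mono hUB).isOpen_inter_preimage hUo isOpen_Iio
  have hQo : ∀ k, IsOpen (Q k) := by
    intro k
    have h1 := op hFc (par k).1
    have h2 := op hEc (par k).2.1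
    have h3 := op hHc (par k).2.2
    convert h1.inter (h2.inter h3) using 1
    ext p
    simp only [hQ, hU, mem_inter_iff, mem_ofPred_eq]
    tauto
  have hη2 : η / 2 < η := by linarith
  have hGan : ∀ {f : X × ℂ → ℂ}, AnalyticOnNhd ℂ f B → ∀ p ∈ G, AnalyticAt ℂ f p :=
    fun hf p hp => hf p (hGB p hp)
  have hGE : ∀ p ∈ G, DifferentiableAt ℝ E p := fun p hp => hE.diff p (hGB p hp) hp.1
  have hGH : ∀ p ∈ G, DifferentiableAt ℝ H p := fun p hp => hH.diff p (hGB p hp) hp.1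
  -- derivative facts along trajectories
  have hconstF : ∀ (c₀ c₁ : ℝ) (t : ℂ) (b : ℝ) (x : ℝ → X), 0 ≤ b → Traj G u c₀ c₁ t b x →
      ∀ s ∈ Icc 0 b, F (x s, (c₀ + c₁ * s) • t) = F (x 0, (c₀ + c₁ * 0) • t) := by
    intro c₀ c₁ t b x hb hx
    refine eq_of_hasDerivWithinAt_zero (f := fun s => F (x s, (c₀ + c₁ * s) • t)) le_rfl le_rfl ?_
    intro s hs
    have h1 := hasDerivWithinAt_traj hx (hGan hF) hs
    rw [(huK _ (hx s hs).1).1, mul_zero] at h1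
    exact h1
  have bar : ∀ k, ∀ c₀ c₁ : ℝ, (∀ s ∈ Icc (0 : ℝ) 1, c₀ + c₁ * s ∈ Icc (0 : ℝ) 1) →
      ∀ t : ℂ, ‖t‖ ≤ η / 2 → ∀ b ∈ Icc (0 : ℝ) 1, ∀ x, Traj G u c₀ c₁ t b x →
      ∀ s ∈ Icc 0 b, ((x 0, c₀ • t) ∈ Q k ↔ (x s, (c₀ + c₁ * s) • t) ∈ Q k) := by
    intro k c₀ c₁ hc t ht b hb x hx s hs
    have hE' : ∀ s ∈ Icc 0 b, HasDerivWithinAt (fun s => E (x s, (c₀ + c₁ * s) • t))
        (fderiv ℝ E (x s, (c₀ + c₁ * s) • t)
        (((c₁ : ℂ) * t) • ((u (x s, (c₀ + c₁ * s) • t), 1) : X × ℂ))) (Icc 0 b) s :=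
      fun s hs => hasDerivWithinAt_ctl hx hGE hs
    have hH' : ∀ s ∈ Icc 0 b, HasDerivWithinAt (fun s => H (x s, (c₀ + c₁ * s) • t))
        (fderiv ℝ H (x s, (c₀ + c₁ * s) • t)
        (((c₁ : ℂ) * t) • ((u (x s, (c₀ + c₁ * s) • t), 1) : X × ℂ))) (Icc 0 b) s :=
      fun s hs => hasDerivWithinAt_ctl hx hGH hs
    have key := barrier_iff (b := b) (α := (par k).1) (β := (par k).2.1) (ε := (par k).2.2)
      (a := fun s => F (x s, (c₀ + c₁ * s) • t)) (e := fun s => E (x s, (c₀ + c₁ * s) • t))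
      (h := fun s => H (x s, (c₀ + c₁ * s) • t)) (hp2 k) (hp4 k) (hp5 k)
      (hconstF c₀ c₁ t b x hb.1 hx)
      (HasDerivWithinAt.continuousOn hE') (HasDerivWithinAt.continuousOn hH')
      (by
        intro s hs h1 h2 h3 h4
        have h5 := hE' s hs
        have hmem := (hx s hs).1
        have hT : (x s, (c₀ + c₁ * s) • t) ∈ T1 k := ⟨hGB _ hmem, h1, h2, h3, h4⟩
        rw [hE.deriv _ (hGB _ hmem) hmem.1 _ ((huK _ hmem).2.1 (Or.inl ⟨k, Or.inl hT⟩))] at h5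
        exact h5)
      (by
        intro s hs h1 h2 h3 h4
        have h5 := hH' s hs
        have hmem := (hx s hs).1
        have hT : (x s, (c₀ + c₁ * s) • t) ∈ T2 k := ⟨hGB _ hmem, h1, h2, h3, h4⟩
        rw [hH.deriv _ (hGB _ hmem) hmem.1 _ ((huK _ hmem).2.2 (Or.inl ⟨k, hT⟩))] at h5
        exact h5) s hs
    have hm0 := (hx 0 ⟨le_rfl, hb.1⟩).1
    have hms := (hx s hs).1
    have e0 : (c₀ + c₁ * 0) • t = c₀ • t := by rw [mul_zero, add_zero]
    rw [e0] at hm0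
    simp only [e0] at key
    constructor
    · intro h
      exact ⟨hms.2, key.1 h.2⟩
    · intro h
      exact ⟨hm0.2, key.2 h.2⟩
  have hcl : ∀ t : ℂ, ‖t‖ ≤ η / 2 → ‖t‖ ≤ η := fun t ht => ht.trans hη2.le
  obtain ⟨e, he1, he2, he3, he4, he5⟩ := exists_homeo_unique (η' := η / 2) (G := G) hGo
    (fun p hp => hp.1) huc (Q := Q) (C := closedBall 0 (r / 2) ×ˢ closedBall 0 (η / 2)) hQo
    (fun k p hp => ⟨hp.1, hp.2.1.trans_le (hp6 k).1, hp.2.2.1.trans_le (hp6 k).2.1,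
      hp.2.2.2.trans_le (hp6 k).2.2⟩)
    (fun k t ht => ⟨⟨by simpa using hr, ht.trans_lt hη2⟩, by
      rw [hF0 t (hcl t ht), norm_zero]; exact hp1 k, by
      rw [hE0 t (hcl t ht), norm_zero]; exact hp4 k, by
      rw [hH0 t (hcl t ht), norm_zero]; exact hp5 k⟩)
    ((isCompact_closedBall _ _).prod (isCompact_closedBall _ _))
    (by
      intro p hp hp2 hne
      have h1 : ‖p.1‖ ≤ r / 2 := by simpa using hp.1
      exact ⟨hne, by linarith, by linarith⟩)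
    (by
      intro p hp hp2
      obtain ⟨h1, h2, h3, h4⟩ := hp
      refine ⟨?_, by simpa using hp2⟩
      rw [mem_closedBall_zero_iff]
      have hk := hp6 0
      have hk3 := hp3 0
      have hk2 := hp2
      have h5 := hαβ₀
      exact (hκ₀' p (hUB h1) (by linarith [hk.1]) (by linarith [hk.2.1]) (by linarith [hk.2.2])).le)
    (by
      intro δ hδ
      obtain ⟨κ, hκ, hκ'⟩ := hsmall δ hδ
      obtain ⟨k₀, hk₀⟩ := hpsh κ hκ
      refine ⟨k₀, fun p hp _ => ?_⟩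
      obtain ⟨h1, h2, h3, h4⟩ := hp
      have h5 := hk₀ k₀ le_rfl
      have h6 := hp3 k₀
      have h7 := hp2 k₀
      exact hκ' p (hUB h1) (by linarith) (by linarith) (by linarith))
    bar
  have hz : ‖(0 : ℂ)‖ ≤ η := by simpa using hη.le
  have hsrc : ∀ p ∈ e.source, ‖p.2‖ ≤ η := fun p hp => by
    rw [he1] at hp
    linarith [hp.1]
  -- the trajectory of a point off the axis
  have htr : ∀ p ∈ e.source, p.1 ≠ 0 → ∃ x : ℝ → X, Traj G u 0 1 p.2 1 x ∧ x 0 = p.1 ∧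
      e p = (x 1, p.2) ∧ ∀ s ∈ Icc (0 : ℝ) 1, F (x s, (0 + 1 * s) • p.2) = F (p.1, 0) := by
    intro p hp hne
    obtain ⟨x, hx, hx0, hx1⟩ := (he5 p hp hne).1
    refine ⟨x, hx, hx0, ?_, fun s hs => ?_⟩
    · rw [hx1, ← he3 p]
    · have h1 := hconstF 0 1 p.2 1 x zero_le_one hx s hs
      simpa [hx0] using h1
  have hI1 : (1 : ℝ) ∈ Icc (0 : ℝ) 1 := by simp
  have hFe : ∀ p ∈ e.source, F (e p) = F (p.1, 0) := by
    intro p hp
    by_cases hne : p.1 = 0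
    · have : p = (0, p.2) := by rw [← hne]
      have ht := hsrc p hp
      rw [this, he4, hF0 _ ht, hF0 0 hz]
    · obtain ⟨x, -, -, h3, h4⟩ := htr p hp hne
      rw [h3]
      simpa using h4 1 hI1
  have hEs : ∀ p ∈ e.source, F (p.1, 0) = 0 → ∀ x : ℝ → X, Traj G u 0 1 p.2 1 x → x 0 = p.1 →
      (∀ s ∈ Icc (0 : ℝ) 1, F (x s, (0 + 1 * s) • p.2) = F (p.1, 0)) →
      ∀ s ∈ Icc (0 : ℝ) 1, E (x s, (0 + 1 * s) • p.2) = E (p.1, 0) := by
    intro p hp h0 x hx hx0 hFx s hs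
    have h1 := eq_of_hasDerivWithinAt_zero (b := 1) (c := 0) (d := 1)
      (f := fun s => E (x s, ((0 : ℝ) + 1 * s) • p.2)) le_rfl le_rfl (fun s hs => by
        have h5 := hasDerivWithinAt_ctl hx hGE hs
        have hmem := (hx s hs).1
        have hF' := hFx s hs
        rw [h0] at hF'
        rw [hE.deriv _ (hGB _ hmem) hmem.1 _ ((huK _ hmem).2.1 (Or.inr hF'))] at h5
        exact h5) s hs
    simpa [hx0] using h1
  have hout : ∀ p ∈ e.source, p.1 ≠ 0 → (e p).1 ≠ 0 := by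
    intro p hp hne
    obtain ⟨x, hx, -, h3, -⟩ := htr p hp hne
    rw [h3]
    exact (hx 1 hI1).1.1
  refine ⟨e, ?_, ?_, he3, he4, hFe, ?_, ?_, hout, ?_, ?_⟩
  · intro p hp
    rw [he1] at hp
    exact hp.1
  · intro t ht
    rw [he1]
    refine ⟨ht, ⟨by simpa using hr, by simpa using hη⟩, ?_, ?_, ?_⟩
    · rw [hF0 0 hz, norm_zero]; exact hp1 0
    · rw [hE0 0 hz, norm_zero]; exact hp4 0
    · rw [hH0 0 hz, norm_zero]; exact hp5 0
  · intro p hp h0
    by_cases hne : p.1 = 0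
    · have : p = (0, p.2) := by rw [← hne]
      have ht := hsrc p hp
      rw [this, he4, hE0 _ ht, hE0 0 hz]
    · obtain ⟨x, hx, hx0, h3, h4⟩ := htr p hp hne
      rw [h3]
      simpa using hEs p hp h0 x hx hx0 h4 1 hI1
  · intro p hp h0 h0'
    by_cases hne : p.1 = 0
    · have : p = (0, p.2) := by rw [← hne]
      have ht := hsrc p hp
      rw [this, he4, hH0 _ ht, hH0 0 hz]
    · obtain ⟨x, hx, hx0, h3, h4⟩ := htr p hp hne
      rw [h3]
      have h6 := hEs p hp h0 x hx hx0 h4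
      have h1 := eq_of_hasDerivWithinAt_zero (b := 1) (c := 0) (d := 1)
        (f := fun s => H (x s, ((0 : ℝ) + 1 * s) • p.2)) le_rfl le_rfl (fun s hs => by
          have h5 := hasDerivWithinAt_ctl hx hGH hs
          have hmem := (hx s hs).1
          have hF' := h4 s hs
          rw [h0] at hF'
          have hE' := h6 s hs
          rw [h0'] at hE'
          rw [hH.deriv _ (hGB _ hmem) hmem.1 _ ((huK _ hmem).2.2 (Or.inr ⟨hF', hE'⟩))] at h5
          exact h5) 1 hI1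
      simpa [hx0] using h1
  · intro p hp
    have hp' := hp
    rw [he1] at hp'
    refine ⟨hp'.2.1.1, ?_⟩
    have h7 := e.map_source hp
    rw [he2] at h7
    exact h7.2.1.1
  · intro hdim p hp y w hy0 hy
    have hne : p.1 ≠ 0 := by
      rw [← hy0]
      exact (hy 0 (by simp)).1
    have hp' := hp
    rw [he1] at hp'
    have ht2 : ‖p.2‖ < η / 2 := hp'.1
    have hTr : Traj G u 0 1 p.2 1 y := by
      intro τ hτ
      rw [zero_add, one_mul]
      obtain ⟨h1, h2, h3, h4, h5, h6, h7, h8⟩ := hy τ hτ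
      have hτ2 : ‖τ • p.2‖ < η := by
        rw [norm_smul, Real.norm_eq_abs, abs_of_nonneg hτ.1]
        have := mul_le_of_le_one_left (norm_nonneg p.2) hτ.2
        linarith
      have hmem : (y τ, τ • p.2) ∈ G := ⟨h1, h2, hτ2⟩
      refine ⟨hmem, ?_⟩
      have hK := huK _ hmem
      have hsurj := P3 (y τ, τ • p.2) h2.le hτ2.le h1 h3 h4
      have hinj : Function.Injective ((dX F (y τ, τ • p.2)).prod
          ((rX (DE (y τ, τ • p.2))).prod (rX (DH (y τ, τ • p.2))))) := by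
        have h9 : Module.finrank ℂ X = Module.finrank ℂ (ℂ × ℂ × ℂ) := by
          rw [hdim]
          simp
        exact (LinearMap.injective_iff_surjective_of_finrank_eq_finrank
          (f := ((dX F (y τ, τ • p.2)).prod
          ((rX (DE (y τ, τ • p.2))).prod (rX (DH (y τ, τ • p.2)))) : X →ₗ[ℂ] ℂ × ℂ × ℂ)) h9).2 hsurj
      have hu : u (y τ, τ • p.2) = w τ := by
        apply hinj
        have k1 := hK.1
        have k2 := hK.2.1 (Or.inr h3)
        have k3 := hK.2.2 (Or.inr ⟨h3, h4⟩)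
        rw [fderiv_split] at k1 h5
        rw [rX_split] at k2 k3 h6 h7
        rw [ContinuousLinearMap.prod_apply, ContinuousLinearMap.prod_apply,
          ContinuousLinearMap.prod_apply, ContinuousLinearMap.prod_apply,
          add_right_cancel (k1.trans h5.symm), add_right_cancel (k2.trans h6.symm),
          add_right_cancel (k3.trans h7.symm)]
      rw [hu, one_smul]
      exact h8
    have h10 := (he5 p hp hne).2 y hTr hy0
    rw [h10, ← he3 p]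

end Vale.Agent.P298.H119
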