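import Vale.Agent.P298.H119.ArcTriv
import Vale.Agent.P298.H119.Contr

namespace Vale.Agent.P298.H119

open Set Metric Filter Topology Vale.Agent.P298
open scoped NNReal ContDiff Manifold

variable {n : ℕ}

theorem RightEquiv.refl (f : (Fin n → ℂ) → ℂ) : RightEquiv f f :=
  ⟨OpenPartialHomeomorph.refl _, mem_univ _, rfl, fun _ _ => rfl⟩

theorem RightEquiv.symm {f g : (Fin n → ℂ) → ℂ} (h : RightEquiv f g) : RightEquiv g f := by
  obtain ⟨φ, h1, h2, h3⟩ := h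
  refine ⟨φ.symm, ?_, ?_, fun y hy => ?_⟩
  · have := φ.map_source h1
    rwa [h2] at this
  · have := φ.left_inv h1
    rwa [h2] at this
  · have h4 := φ.map_target hy
    have h5 := h3 _ h4
    rw [φ.right_inv hy] at h5
    exact h5.symm

theorem RightEquiv.trans {f g k : (Fin n → ℂ) → ℂ} (h : RightEquiv f g) (h' : RightEquiv g k) :
    RightEquiv f k := by
  obtain ⟨φ, h1, h2, h3⟩ := h
  obtain ⟨ψ, h4, h5, h6⟩ := h'
  refine ⟨φ.trans ψ, ?_, ?_, fun x hx => ?_⟩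
  · rw [OpenPartialHomeomorph.trans_source]
    refine ⟨h1, ?_⟩
    rw [mem_preimage, h2]
    exact h4
  · rw [OpenPartialHomeomorph.coe_trans, Function.comp_apply, h2, h5]
  · rw [OpenPartialHomeomorph.trans_source] at hx
    rw [OpenPartialHomeomorph.coe_trans, Function.comp_apply, h6 _ hx.2, h3 _ hx.1]

/-- The slice of a trivialization at a parameter. -/
theorem rightEquiv_of_isTriv {δ : ℝ} {F : (Fin n → ℂ) → ℂ → ℂ}
    {Φ : OpenPartialHomeomorph ((Fin n → ℂ) × ℂ) ((Fin n → ℂ) × ℂ)} (h : IsTriv δ F Φ) {t : ℂ}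
    (ht : t ∈ ball (0 : ℂ) δ) : RightEquiv (F · 0) (F · t) := by
  obtain ⟨h1, h2, h3⟩ := h
  have hinv : ∀ q ∈ Φ.target, (Φ.symm q).2 = q.2 := by
    intro q hq
    have h4 := (h3 _ (Φ.map_target hq)).1
    rw [Φ.right_inv hq] at h4
    exact h4.symm
  have hm : Continuous (fun x : Fin n → ℂ => (x, t)) := by fun_prop
  refine ⟨{ toFun := fun x => (Φ (x, t)).1
            invFun := fun y => (Φ.symm (y, t)).1
            source := {x | (x, t) ∈ Φ.source}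
            target := {y | (y, t) ∈ Φ.target}
            map_source' := fun x hx => ?_
            map_target' := fun y hy => ?_
            left_inv' := fun x hx => ?_
            right_inv' := fun y hy => ?_
            open_source := Φ.open_source.preimage hm
            open_target := Φ.open_target.preimage hm
            continuousOn_toFun := ?_
            continuousOn_invFun := ?_ }, ?_, ?_, ?_⟩
  · have h4 : (Φ (x, t)) = ((Φ (x, t)).1, t) := Prod.ext rfl (h3 _ hx).1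
    have h5 := Φ.map_source hx
    rw [h4] at h5
    exact h5
  · have h4 : (Φ.symm (y, t)) = ((Φ.symm (y, t)).1, t) := Prod.ext rfl (hinv _ hy)
    have h5 := Φ.map_target hy
    rw [h4] at h5
    exact h5
  · have h4 : (Φ (x, t)) = ((Φ (x, t)).1, t) := Prod.ext rfl (h3 _ hx).1
    have h5 := Φ.left_inv hx
    rw [h4] at h5
    rw [h5]
  · have h4 : (Φ.symm (y, t)) = ((Φ.symm (y, t)).1, t) := Prod.ext rfl (hinv _ hy)
    have h5 := Φ.right_inv hy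
    rw [h4] at h5
    rw [h5]
  · exact continuous_fst.comp_continuousOn
      (Φ.continuousOn.comp hm.continuousOn fun x hx => hx)
  · exact continuous_fst.comp_continuousOn
      (Φ.symm.continuousOn.comp hm.continuousOn fun x hx => hx)
  · exact (h2 t ht).1
  · change (Φ (0, t)).1 = 0
    rw [(h2 t ht).2]
  · intro x hx
    exact (h3 (x, t) hx).2

/-- Trivializations from companions, preserving the flag. -/
theorem isTriv_of_companions {r : ℝ} (hr : 0 < r) {F E H : (Fin 3 → ℂ) → ℂ → ℂ}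
    (hF : IsHolFamily r F) {μ : ℕ} (h₁ : ∀ t ∈ ball (0 : ℂ) r, Milnor (F · t) μ)
    (hE : Companion r F E) (hH : Companion2 r F E H) :
    ∃ δ : ℝ, 0 < δ ∧ δ ≤ r ∧ ∃ Φ, IsTriv δ F Φ ∧
      ∀ p ∈ Φ.source, F p.1 0 = 0 → E (Φ p).1 p.2 = E p.1 0 ∧
        (E p.1 0 = 0 → H (Φ p).1 p.2 = H p.1 0) := by
  obtain ⟨hE', a, h₂⟩ := hE
  obtain ⟨hH', ⟨b, h₃⟩, c, h₄⟩ := hH
  obtain ⟨δ, r', hδ, hδr, -, -, e, e1, e2, e3, e4, e5, e6, e7, -, -, -⟩ :=
    triv_of_companions hr hF hE' hH' h₁ h₂ h₃ h₄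
  refine ⟨δ, hδ, hδr, e, ⟨?_, ?_, ?_⟩, ?_⟩
  · intro p hp
    rw [mem_ball, dist_zero_right]
    exact e1 p hp
  · intro t ht
    rw [mem_ball, dist_zero_right] at ht
    exact ⟨e2 t ht, e4 t⟩
  · intro p hp
    refine ⟨e3 p, ?_⟩
    have := e5 p hp
    simp only [unc] at this
    rw [e3 p] at this
    exact this
  · intro p hp h0
    refine ⟨?_, fun h0' => ?_⟩
    · have := e6 p hp h0
      simp only [unc] at this
      rw [e3 p] at this
      exact this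
    · have := e7 p hp h0 h0'
      simp only [unc] at this
      rw [e3 p] at this
      exact this

/-- Trivializations from one companion and a parametrization of the curves. -/
theorem isTriv_of_param {r : ℝ} (hr : 0 < r) {F E : (Fin 3 → ℂ) → ℂ → ℂ}
    (hF : IsHolFamily r F) {μ : ℕ} (h₁ : ∀ t ∈ ball (0 : ℂ) r, Milnor (F · t) μ)
    (hE : Companion r F E) {k : ℕ} {γ : Fin k → ℂ → ℂ → (Fin 3 → ℂ)} {ρ : ℝ}
    (h : ParamCurves F E γ ρ) :
    ∃ δ : ℝ, 0 < δ ∧ δ ≤ r ∧ ∃ Φ, IsTriv δ F Φ ∧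
      (∀ p ∈ Φ.source, F p.1 0 = 0 → E (Φ p).1 p.2 = E p.1 0) ∧
      ∀ i, ∃ ε > 0, ∀ s ∈ ball (0 : ℂ) ε, ∀ t ∈ ball (0 : ℂ) δ, (γ i s 0, t) ∈ Φ.source →
        Φ (γ i s 0, t) = (γ i s t, t) := by
  obtain ⟨hE', a, h₂⟩ := hE
  obtain ⟨δ, hδ, hδr, -, e, e1, e2, e3, e4, e5, e6, e7⟩ := triv_of_arcs hr hF hE' h₁ h₂ h
  refine ⟨δ, hδ, hδr, e, ⟨?_, ?_, ?_⟩, e6, fun i => ?_⟩
  · intro p hp
    rw [mem_ball, dist_zero_right]
    exact e1 p hp
  · intro t ht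
    rw [mem_ball, dist_zero_right] at ht
    exact ⟨e2 t ht, e4 t⟩
  · intro p hp
    exact ⟨e3 p, e5 p hp⟩
  · obtain ⟨ε, hε, h8⟩ := e7 i
    exact ⟨ε, hε, fun s hs t _ hp => h8 s hs t hp⟩

theorem isTriv_of_hasFlag {r : ℝ} (hr : 0 < r) {F : (Fin 3 → ℂ) → ℂ → ℂ}
    (hF : IsHolFamily r F) {μ : ℕ} (h₁ : ∀ t ∈ ball (0 : ℂ) r, Milnor (F · t) μ)
    (h : HasFlag r F) : ∃ δ : ℝ, 0 < δ ∧ δ ≤ r ∧ ∃ Φ, IsTriv δ F Φ := by
  obtain ⟨R, hR⟩ | ⟨E, hE, ⟨H, hH⟩ | ⟨R, hR⟩ | ⟨k, γ, ρ, hγ⟩⟩ := h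
  · obtain ⟨δ, h1, h2, Φ, h3, -⟩ := isTriv_of_control1 hr hF h₁ hR
    exact ⟨δ, h1, h2, Φ, h3⟩
  · obtain ⟨δ, h1, h2, Φ, h3, -⟩ := isTriv_of_companions hr hF h₁ hE hH
    exact ⟨δ, h1, h2, Φ, h3⟩
  · obtain ⟨δ, h1, h2, Φ, h3, -⟩ := isTriv_of_control2 hr hF h₁ hE hR
    exact ⟨δ, h1, h2, Φ, h3⟩
  · obtain ⟨δ, h1, h2, Φ, h3, -⟩ := isTriv_of_param hr hF h₁ hE hγ
    exact ⟨δ, h1, h2, Φ, h3⟩

/-- Local flags after a base change give topological right-equivalence over the whole disk. -/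
theorem rightEquiv_of_hasFlag {r : ℝ} {F : (Fin 3 → ℂ) → ℂ → ℂ}
    (hF : IsHolFamily r F) {μ : ℕ} (h₁ : ∀ t ∈ ball (0 : ℂ) r, Milnor (F · t) μ)
    (h : ∀ t₀ ∈ ball (0 : ℂ) r, ∃ m : ℕ, 0 < m ∧ ∃ ρ : ℝ, 0 < ρ ∧
      (∀ s ∈ ball (0 : ℂ) ρ, t₀ + s ^ m ∈ ball (0 : ℂ) r) ∧
      HasFlag ρ fun x s => F x (t₀ + s ^ m)) :
    ∀ t ∈ ball (0 : ℂ) r, ∀ t' ∈ ball (0 : ℂ) r, RightEquiv (F · t) (F · t') := by
  have hloc : ∀ t₀ ∈ ball (0 : ℂ) r, ∀ᶠ t in 𝓝[ball (0 : ℂ) r] t₀,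
      RightEquiv (F · t₀) (F · t) := by
    intro t₀ ht₀
    obtain ⟨m, hm, ρ, hρ, hmem, hflag⟩ := h t₀ ht₀
    set G : (Fin 3 → ℂ) → ℂ → ℂ := fun x s => F x (t₀ + s ^ m) with hG
    have hGF : IsHolFamily ρ G := by
      intro s hs
      obtain ⟨h2, h3⟩ := hF (t₀ + s ^ m) (hmem s hs)
      refine ⟨?_, h3⟩
      have h4 : AnalyticAt ℂ (fun p : (Fin 3 → ℂ) × ℂ => (p.1, t₀ + p.2 ^ m)) (0, s) :=
        analyticAt_fst.prod (analyticAt_const.add (analyticAt_snd.pow m))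
      exact AnalyticAt.comp (g := fun p : (Fin 3 → ℂ) × ℂ => F p.1 p.2)
        (f := fun p : (Fin 3 → ℂ) × ℂ => (p.1, t₀ + p.2 ^ m)) h2 h4
    obtain ⟨δ, hδ, -, Φ, hΦ⟩ := isTriv_of_hasFlag hρ hGF
      (fun s hs => h₁ (t₀ + s ^ m) (hmem s hs)) hflag
    have hnear : ∀ᶠ t in 𝓝 t₀, ‖t - t₀‖ < δ ^ m := by
      have hc : ContinuousAt (fun t : ℂ => ‖t - t₀‖) t₀ := by fun_prop
      refine hc.eventually_lt continuousAt_const ?_
      simpa using pow_pos hδ m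
    refine eventually_nhdsWithin_of_eventually_nhds ?_
    filter_upwards [hnear] with t ht
    obtain ⟨s, hs⟩ := IsAlgClosed.exists_pow_nat_eq (t - t₀) hm
    have hsδ : s ∈ ball (0 : ℂ) δ := by
      rw [mem_ball, dist_zero_right]
      rw [← hs, norm_pow] at ht
      exact lt_of_pow_lt_pow_left₀ m hδ.le ht
    have h5 := rightEquiv_of_isTriv hΦ hsδ
    have e1 : (fun x => G x 0) = fun x => F x t₀ := by
      funext x
      simp [hG, hm.ne']
    have e2 : (fun x => G x s) = fun x => F x t := by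
      funext x
      simp [hG, hs]
    rw [e1, e2] at h5
    exact h5
  intro t ht t' ht'
  refine (convex_ball (0 : ℂ) r).isPreconnected.induction₂' (fun t t' => RightEquiv (F · t) (F · t'))
    (fun z hz => ?_) (fun a b c _ _ _ hab hbc => hab.trans hbc) ht ht'
  filter_upwards [hloc z hz] with y hy
  exact ⟨hy, hy.symm⟩

end Vale.Agent.P298.H119
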