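import Vale.Agent.P298.H119.Quasi4
import Mathlib.Analysis.Normed.Module.HahnBanach

namespace Vale.Agent.P298.H119

open Set Metric Filter Topology Vale.Agent.P298
open scoped NNReal ContDiff Manifold

section Dual

variable {X : Type*} [NormedAddCommGroup X] [NormedSpace ℂ X]

/-- Duality: if `a` is not a small combination of the components of `b` then there is a vector on
which `a` is `1` and `b` is bounded. -/
theorem exists_dual {k : ℕ} {ρ : ℝ} (hρ : 0 < ρ) (a : X →L[ℂ] ℂ) (b : X →L[ℂ] (Fin k → ℂ))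
    (h : ∀ ε : Fin k → ℂ, ‖ε‖ < ρ → ∃ v, a v + ∑ j, ε j * b v j ≠ 0) :
    ∃ ν : X, a ν = 1 ∧ ‖b ν‖ ≤ 2 / ρ := by
  have key : ∃ ν : X, ρ / 2 * ‖b ν‖ < ‖a ν‖ := by
    by_contra hc
    push Not at hc
    obtain ⟨s, hs⟩ := (b : X →ₗ[ℂ] (Fin k → ℂ)).rangeRestrict.exists_rightInverse_of_surjective
      (LinearMap.range_rangeRestrict _)
    have hs' : ∀ w : LinearMap.range (b : X →ₗ[ℂ] (Fin k → ℂ)), b (s w) = w := by
      intro w
      have h1 := LinearMap.congr_fun hs w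
      have h2 := congrArg Subtype.val h1
      simpa using h2
    set f₀ : LinearMap.range (b : X →ₗ[ℂ] (Fin k → ℂ)) →ₗ[ℂ] ℂ := (a : X →ₗ[ℂ] ℂ).comp s with hf₀
    have hb0 : ∀ w, ‖f₀ w‖ ≤ ρ / 2 * ‖w‖ := by
      intro w
      have h1 := hc (s w)
      rw [hs' w] at h1
      exact h1
    set f₁ := f₀.mkContinuous (ρ / 2) hb0 with hf₁
    obtain ⟨g, hg1, hg2⟩ := exists_extension_norm_eq _ f₁
    have hgn : ‖g‖ ≤ ρ / 2 := by
      rw [hg2]
      exact LinearMap.mkContinuous_norm_le _ (by positivity) _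
    have hgb : ∀ v, g (b v) = a v := by
      intro v
      have h1 : b v ∈ LinearMap.range (b : X →ₗ[ℂ] (Fin k → ℂ)) := ⟨v, rfl⟩
      have h2 := hg1 ⟨b v, h1⟩
      have h3 : f₁ ⟨b v, h1⟩ = a (s ⟨b v, h1⟩) := rfl
      rw [h3] at h2
      have h4 : g (b v) = a (s ⟨b v, h1⟩) := h2
      rw [h4]
      have h5 := hc (s ⟨b v, h1⟩ - v)
      rw [map_sub b, hs' ⟨b v, h1⟩, sub_self, norm_zero, mul_zero] at h5
      have h6 : a (s ⟨b v, h1⟩ - v) = 0 := norm_le_zero_iff.1 h5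
      rw [map_sub, sub_eq_zero] at h6
      exact h6
    have hsum : ∀ w : Fin k → ℂ, g w = ∑ j, w j * g (Pi.single j 1) := by
      intro w
      have := LinearMap.pi_apply_eq_sum_univ (g : (Fin k → ℂ) →ₗ[ℂ] ℂ) w
      simp only [ContinuousLinearMap.coe_coe, smul_eq_mul] at this
      rw [this]
      refine Finset.sum_congr rfl fun j _ => ?_
      congr 2
      funext i
      simp [Pi.single_apply, eq_comm]
    obtain ⟨v, hv⟩ := h (fun j => -g (Pi.single j 1)) (by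
      refine lt_of_le_of_lt ?_ (half_lt_self hρ)
      rw [pi_norm_le_iff_of_nonneg (by positivity)]
      intro j
      rw [norm_neg]
      refine (g.le_opNorm _).trans ?_
      have h2 : ‖(Pi.single j 1 : Fin k → ℂ)‖ ≤ 1 := by
        rw [pi_norm_le_iff_of_nonneg zero_le_one]
        intro i
        by_cases h : i = j
        · subst h; simp
        · simp [h]
      calc ‖g‖ * ‖(Pi.single j 1 : Fin k → ℂ)‖ ≤ ρ / 2 * 1 :=
            mul_le_mul hgn h2 (norm_nonneg _) (by positivity)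
        _ = ρ / 2 := mul_one _)
    apply hv
    rw [← hgb v, hsum (b v), ← Finset.sum_add_distrib]
    refine Finset.sum_eq_zero fun j _ => ?_
    ring
  obtain ⟨ν, hν⟩ := key
  have h1 : 0 < ‖a ν‖ := lt_of_le_of_lt (by positivity) hν
  have h2 : a ν ≠ 0 := norm_pos_iff.1 h1
  refine ⟨(a ν)⁻¹ • ν, ?_, ?_⟩
  · rw [map_smul, smul_eq_mul, inv_mul_cancel₀ h2]
  · rw [map_smul, norm_smul, norm_inv, inv_mul_eq_div, div_le_div_iff₀ h1 hρ]
    nlinarith

end Dual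

section Fields

variable {X : Type*} [NormedAddCommGroup X] [NormedSpace ℂ X]
variable {W : Type*} [NormedAddCommGroup W] [NormedSpace ℂ W] [CompleteSpace W]

omit [CompleteSpace W] in
theorem fderiv_split_W (E : X × ℂ → W) (p : X × ℂ) (v : X) :
    fderiv ℂ E p (v, 1) = fderiv ℂ E p (v, 0) + fderiv ℂ E p (0, 1) := by
  rw [← map_add]
  simp

omit [CompleteSpace W] in
theorem fderiv_smul_W (E : X × ℂ → W) (p : X × ℂ) (c : ℂ) (v : X) :
    fderiv ℂ E p (c • v, 0) = c • fderiv ℂ E p (v, 0) := by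
  rw [← map_smul]
  congr 1
  ext <;> simp

/-- Local fields from a bounded dual vector. -/
theorem logV_of {F : X × ℂ → ℂ} {E : X × ℂ → W} {p₀ : X × ℂ} {C K₀ : ℝ} (hC : 0 ≤ C)
    (hK₀ : 0 ≤ K₀)
    (aF : AnalyticAt ℂ F p₀) (aE : AnalyticAt ℂ E p₀) (hne : p₀.1 ≠ 0) (hF0 : F p₀ = 0)
    (hI : ∀ᶠ q in 𝓝 p₀, ‖fderiv ℂ F q (0, 1)‖ ≤ C * (‖F q‖ + ‖E q‖) ∧
      ‖fderiv ℂ E q (0, 1)‖ ≤ C * (‖F q‖ + ‖E q‖))
    {ν : X} (hν : dX F p₀ ν = 1) (hνE : ‖fderiv ℂ E p₀ (ν, 0)‖ ≤ K₀) :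
    (E p₀ ≠ 0 → LogV1 (2 * C * (K₀ + 2) + 1) F E p₀) ∧
    (E p₀ = 0 → LogV (2 * C * (K₀ + 2) + 1) F E p₀) := by
  set K : ℝ := 2 * C * (K₀ + 2) + 1 with hK
  have hKpos : 0 < K := by positivity
  have hdX : ContinuousAt (fun q => dX F q ν) p₀ :=
    (contDiffAt_dX aF).continuousAt.clm_apply continuousAt_const
  have hν1 : dX F p₀ ν ≠ 0 := by rw [hν]; exact one_ne_zero
  have hdX0 : ∀ᶠ q in 𝓝 p₀, dX F q ν ≠ 0 := hdX.eventually_ne hν1
  have hdXs : ContDiffAt ℝ 1 (fun q => dX F q ν) p₀ := by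
    have h1 := contDiffAt_dX aF
    have h2 : ContDiff ℂ 1 (fun A : X →L[ℂ] ℂ => A ν) :=
      (ContinuousLinearMap.apply ℂ ℂ ν).contDiff
    exact (h2.restrict_scalars ℝ).contDiffAt.comp p₀ h1
  have cdT : ContinuousAt (fun q => fderiv ℂ F q (0, 1)) p₀ := (contDiffAt_dT aF).continuousAt
  have cE1 : ContinuousAt (fun q => fderiv ℂ E q (ν, 0)) p₀ :=
    aE.fderiv.continuousAt.clm_apply continuousAt_const
  have cE2 : ContinuousAt (fun q => fderiv ℂ E q (0, 1)) p₀ :=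
    aE.fderiv.continuousAt.clm_apply continuousAt_const
  have cinv : ContinuousAt (fun q => (dX F q ν)⁻¹) p₀ := hdX.inv₀ hν1
  set g : X × ℂ → X := fun q => (-fderiv ℂ F q (0, 1) * (dX F q ν)⁻¹) • ν with hg
  have hgs : ContDiffAt ℝ 1 g p₀ := by
    refine ContDiffAt.smul ?_ contDiffAt_const
    exact (contDiffAt_dT aF).neg.mul (hdXs.inv hν1)
  have hgF : ∀ᶠ q in 𝓝 p₀, fderiv ℂ F q (g q, 1) = 0 := by
    filter_upwards [hdX0] with q q1
    rw [fderiv_split, map_smul, smul_eq_mul, mul_assoc, inv_mul_cancel₀ q1]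
    ring
  have hgE : ∀ q, fderiv ℂ E q (g q, 1) =
      (-fderiv ℂ F q (0, 1) * (dX F q ν)⁻¹) • fderiv ℂ E q (ν, 0) + fderiv ℂ E q (0, 1) := by
    intro q
    rw [fderiv_split_W, fderiv_smul_W]
  constructor
  · intro hE
    refine ⟨g, hgs, ?_⟩
    have hlt : ‖fderiv ℂ E p₀ (g p₀, 1)‖ < K * ‖E p₀‖ := by
      rw [hgE, hν, inv_one, mul_one]
      have h1 := hI.self_of_nhds
      rw [hF0, norm_zero, zero_add] at h1
      have hpos : 0 < ‖E p₀‖ := norm_pos_iff.2 hE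
      calc ‖(-fderiv ℂ F p₀ (0, 1)) • fderiv ℂ E p₀ (ν, 0) + fderiv ℂ E p₀ (0, 1)‖ ≤
          ‖fderiv ℂ F p₀ (0, 1)‖ * ‖fderiv ℂ E p₀ (ν, 0)‖ + ‖fderiv ℂ E p₀ (0, 1)‖ := by
            refine (norm_add_le _ _).trans ?_
            rw [norm_smul, norm_neg]
        _ ≤ (C * ‖E p₀‖) * K₀ + C * ‖E p₀‖ := by
            refine add_le_add (mul_le_mul h1.1 hνE (norm_nonneg _) (by positivity)) h1.2
        _ < K * ‖E p₀‖ := by
            rw [hK]
            have h2 : 0 ≤ C * ‖E p₀‖ * K₀ := by positivity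
            have h3 : 0 ≤ C * ‖E p₀‖ := by positivity
            nlinarith
    have hcont : ContinuousAt (fun q => ‖fderiv ℂ E q (g q, 1)‖) p₀ := by
      have h2 : ContinuousAt (fun q => (-fderiv ℂ F q (0, 1) * (dX F q ν)⁻¹) •
          fderiv ℂ E q (ν, 0) + fderiv ℂ E q (0, 1)) p₀ :=
        ((cdT.neg.mul cinv).smul cE1).add cE2
      have h3 : (fun q => fderiv ℂ E q (g q, 1)) = fun q =>
          (-fderiv ℂ F q (0, 1) * (dX F q ν)⁻¹) • fderiv ℂ E q (ν, 0) + fderiv ℂ E q (0, 1) :=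
        funext hgE
      have h4 : ContinuousAt (fun q => fderiv ℂ E q (g q, 1)) p₀ := by rw [h3]; exact h2
      exact h4.norm
    filter_upwards [hgF, hcont.eventually_lt (continuousAt_const.mul aE.continuousAt.norm) hlt]
      with q q1 q2
    exact ⟨q1, q2.le⟩
  · intro hE
    refine ⟨g, hgs, ?_⟩
    have hT0 : fderiv ℂ F p₀ (0, 1) = 0 := by
      have h1 := hI.self_of_nhds.1
      rw [hF0, hE, norm_zero, norm_zero, add_zero, mul_zero] at h1
      exact norm_le_zero_iff.1 h1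
    have hsm : ContinuousAt (fun q : X × ℂ => ‖g q‖) p₀ :=
      ((cdT.neg.mul cinv).smul continuousAt_const).norm
    have hsm2 : ∀ᶠ q in 𝓝 p₀, ‖g q‖ < K * ‖q.1‖ := by
      refine hsm.eventually_lt (continuousAt_const.mul continuous_fst.norm.continuousAt) ?_
      simp only [hg]
      rw [hT0, neg_zero, zero_mul, zero_smul, norm_zero]
      have := norm_pos_iff.2 hne
      positivity
    have hbd : ∀ᶠ q in 𝓝 p₀, ‖(dX F q ν)⁻¹‖ * ‖fderiv ℂ E q (ν, 0)‖ < K₀ + 1 := by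
      refine (cinv.norm.mul cE1.norm).eventually (gt_mem_nhds ?_)
      change ‖(dX F p₀ ν)⁻¹‖ * ‖fderiv ℂ E p₀ (ν, 0)‖ < K₀ + 1
      rw [hν, inv_one, norm_one, one_mul]
      linarith
    filter_upwards [hgF, hsm2, hbd, hI] with q q1 q2 q3 q4
    refine ⟨q1, q2.le, fun hle => ?_, fun h1 h2 => ?_⟩
    · rw [hgE]
      have e1 : ‖fderiv ℂ F q (0, 1)‖ ≤ 2 * C * ‖E q‖ := by
        refine q4.1.trans ?_
        nlinarith
      have e2 : ‖fderiv ℂ E q (0, 1)‖ ≤ 2 * C * ‖E q‖ := by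
        refine q4.2.trans ?_
        nlinarith
      calc ‖(-fderiv ℂ F q (0, 1) * (dX F q ν)⁻¹) • fderiv ℂ E q (ν, 0) +
            fderiv ℂ E q (0, 1)‖ ≤
          ‖fderiv ℂ F q (0, 1)‖ * (‖(dX F q ν)⁻¹‖ * ‖fderiv ℂ E q (ν, 0)‖) +
            ‖fderiv ℂ E q (0, 1)‖ := by
            refine (norm_add_le _ _).trans ?_
            rw [norm_smul, norm_mul, norm_neg, mul_assoc]
        _ ≤ (2 * C * ‖E q‖) * (K₀ + 1) + 2 * C * ‖E q‖ :=
            add_le_add (mul_le_mul e1 q3.le (by positivity) (by positivity)) e2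
        _ ≤ K * ‖E q‖ := by
            rw [hK]
            have h3 := norm_nonneg (E q)
            nlinarith
    · simp only [hg]
      have h3 : fderiv ℂ F q (0, 1) = 0 := by
        have h4 := q4.1
        rw [h1, h2, norm_zero, norm_zero, add_zero, mul_zero] at h4
        exact norm_le_zero_iff.1 h4
      rw [h3, neg_zero, zero_mul, zero_smul]

end Fields

section Germ

variable {X : Type*} [NormedAddCommGroup X] [NormedSpace ℂ X] [FiniteDimensional ℂ X]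
variable {W : Type*} [NormedAddCommGroup W] [NormedSpace ℂ W] [CompleteSpace W]

/-- The conclusion of the theorems on controlled families, vector version. -/
def LogTrivV (r : ℝ) (F : X × ℂ → ℂ) (E : X × ℂ → W) : Prop :=
  ∃ δ : ℝ, 0 < δ ∧ δ ≤ r ∧ ∃ e : OpenPartialHomeomorph (X × ℂ) (X × ℂ),
      (∀ p ∈ e.source, ‖p.2‖ < δ) ∧ (∀ t : ℂ, ‖t‖ < δ → (0, t) ∈ e.source) ∧
      (∀ p, (e p).2 = p.2) ∧ (∀ t, e (0, t) = (0, t)) ∧
      (∀ p ∈ e.source, F (e p) = F (p.1, 0)) ∧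
      (∀ p ∈ e.source, (∀ τ ∈ Icc (0 : ℝ) 1, F (p.1, τ • p.2) = 0 ∧ E (p.1, τ • p.2) = 0) →
        e p = p)

/-- The germ form of the theorem on controlled families, vector version. -/
theorem triv_logV_of_eventually {F : X × ℂ → ℂ} {E : X × ℂ → W} {r K : ℝ} (hr : 0 < r)
    (hK : 0 ≤ K)
    (aF : AnalyticAt ℂ F (0, 0)) (aE : AnalyticAt ℂ E (0, 0))
    (hz : ∀ᶠ t in 𝓝 (0 : ℂ), F (0, t) = 0 ∧ E (0, t) = 0)
    (hg : ∀ᶠ p in 𝓝 ((0 : X), (0 : ℂ)), p.1 ≠ 0 → Function.Surjective (dX F p) ∧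
      (F p = 0 → E p ≠ 0 → LogV1 K F E p) ∧
      (F p = 0 → E p = 0 → LogV K F E p)) : LogTrivV r F E := by
  have hall := (aF.eventually_analyticAt.and aE.eventually_analyticAt).and hg
  obtain ⟨ε, hε, hball⟩ := Metric.eventually_nhds_iff_ball.1 hall
  obtain ⟨ε', hε', hball'⟩ := Metric.eventually_nhds_iff_ball.1 hz
  have hexp : ∀ᶠ s in 𝓝 (0 : ℝ), Real.exp (K * s) < 2 := by
    have hc : ContinuousAt (fun s : ℝ => Real.exp (K * s)) 0 := by fun_prop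
    refine hc.eventually (gt_mem_nhds ?_)
    simp
  obtain ⟨ε'', hε'', hball''⟩ := Metric.eventually_nhds_iff_ball.1 hexp
  set ρ : ℝ := min (min (ε / 2) (ε' / 2)) (min (r / 2) (ε'' / 2)) with hρ
  have hρ0 : 0 < ρ := lt_min (lt_min (by linarith) (by linarith))
    (lt_min (by linarith) (by linarith))
  have hρε : ρ < ε := (min_le_left _ _).trans_lt ((min_le_left _ _).trans_lt (by linarith))
  have hρε' : ρ < ε' := (min_le_left _ _).trans_lt ((min_le_right _ _).trans_lt (by linarith))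
  have hρr : ρ < r := (min_le_right _ _).trans_lt ((min_le_left _ _).trans_lt (by linarith))
  have hρε'' : ρ < ε'' := (min_le_right _ _).trans_lt ((min_le_right _ _).trans_lt (by linarith))
  have hbox : ∀ p : X × ℂ, ‖p.1‖ ≤ ρ → ‖p.2‖ ≤ ρ → p ∈ ball ((0 : X), (0 : ℂ)) ε := by
    intro p h1 h2
    rw [mem_ball, dist_eq_norm]
    refine lt_of_le_of_lt ?_ hρε
    rw [Prod.norm_def]
    simpa using ⟨h1, h2⟩
  have hmem : ∀ p ∈ (closedBall (0 : X) ρ ×ˢ closedBall (0 : ℂ) ρ),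
      p ∈ ball ((0 : X), (0 : ℂ)) ε := by
    rintro p ⟨h1, h2⟩
    exact hbox p (by simpa using h1) (by simpa using h2)
  have ht : ∀ t : ℂ, ‖t‖ ≤ ρ → t ∈ ball (0 : ℂ) ε' := by
    intro t h
    rw [mem_ball, dist_zero_right]
    linarith
  have hKρ : Real.exp (K * ρ) < 2 := hball'' ρ (by
    rw [mem_ball, dist_zero_right, Real.norm_eq_abs, abs_of_pos hρ0]
    exact hρε'')
  obtain ⟨e, e1, e2, e3, e4, e5, e6⟩ := trivial_of_logV (F := F) (E := E) hρ0 hρ0 hK hKρ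
    (fun p hp => (hball p (hmem p hp)).1.1) (fun p hp => (hball p (hmem p hp)).1.2)
    (fun t h => (hball' t (ht t h)).1) (fun t h => (hball' t (ht t h)).2)
    (fun p h1 h2 h3 => ((hball p (hbox p h1 h2)).2 h3).1)
    (fun p h1 h2 h3 h4 h5 => ((hball p (hbox p h1 h2)).2 h3).2.1 h4 h5)
    (fun p h1 h2 h3 h4 h5 => ((hball p (hbox p h1 h2)).2 h3).2.2 h4 h5)
  exact ⟨ρ / 2, by linarith, by linarith, e, e1, e2, e3, e4, e5, e6⟩

/-- **Linearly stable families.** -/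
theorem triv_of_linear {k : ℕ} {F : X × ℂ → ℂ} {E : X × ℂ → (Fin k → ℂ)} {r C ρ : ℝ}
    (hr : 0 < r) (hρ : 0 < ρ)
    (aF : AnalyticAt ℂ F (0, 0)) (aE : AnalyticAt ℂ E (0, 0))
    (hz : ∀ᶠ t in 𝓝 (0 : ℂ), F (0, t) = 0 ∧ E (0, t) = 0)
    (hI : ∀ᶠ q in 𝓝 ((0 : X), (0 : ℂ)), ‖fderiv ℂ F q (0, 1)‖ ≤ C * (‖F q‖ + ‖E q‖) ∧
      ‖fderiv ℂ E q (0, 1)‖ ≤ C * (‖F q‖ + ‖E q‖))
    (hV : ∀ᶠ p in 𝓝 ((0 : X), (0 : ℂ)), p.1 ≠ 0 → ∀ ε : Fin k → ℂ, ‖ε‖ < ρ →
      ∃ v, dX F p v + ∑ j, ε j * fderiv ℂ E p (v, 0) j ≠ 0) : LogTrivV r F E := by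
  have hI' : ∀ᶠ q in 𝓝 ((0 : X), (0 : ℂ)),
      ‖fderiv ℂ F q (0, 1)‖ ≤ max C 0 * (‖F q‖ + ‖E q‖) ∧
      ‖fderiv ℂ E q (0, 1)‖ ≤ max C 0 * (‖F q‖ + ‖E q‖) := by
    filter_upwards [hI] with q hq
    have h1 : C * (‖F q‖ + ‖E q‖) ≤ max C 0 * (‖F q‖ + ‖E q‖) :=
      mul_le_mul_of_nonneg_right (le_max_left _ _) (by positivity)
    exact ⟨hq.1.trans h1, hq.2.trans h1⟩
  refine triv_logV_of_eventually (K := 2 * max C 0 * (2 / ρ + 2) + 1) hr ?_ aF aE hz ?_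
  · have : 0 ≤ max C 0 := le_max_right _ _
    positivity
  · filter_upwards [hV, hI'.eventually_nhds, aF.eventually_analyticAt, aE.eventually_analyticAt]
      with p p1 p2 p3 p4 hne
    obtain ⟨ν, hν, hνE⟩ := exists_dual hρ (dX F p)
      ((fderiv ℂ E p).comp (ContinuousLinearMap.inl ℂ X ℂ)) (p1 hne)
    have h0 : 0 ≤ max C 0 := le_max_right _ _
    have h1 : dX F p ν ≠ 0 := by rw [hν]; exact one_ne_zero
    refine ⟨surjective_of_ne_zero h1, fun hF hE => ?_, fun hF hE => ?_⟩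
    · exact (logV_of h0 (by positivity) p3 p4 hne hF p2 hν hνE).1 hE
    · exact (logV_of h0 (by positivity) p3 p4 hne hF p2 hν hνE).2 hE

end Germ

end Vale.Agent.P298.H119
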