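import Vale.Agent.P298.H119.LinSys
import Vale.Agent.P298.H119.Defs

namespace Vale.Agent.P298.H119

open Set Metric Filter Topology Vale.Agent.P298
open scoped NNReal ContDiff Manifold

variable {n k : ℕ}

/-- The vector of the functions `G j`. -/
def vec (G : Fin k → (Fin n → ℂ) → ℂ → ℂ) : (Fin n → ℂ) × ℂ → (Fin k → ℂ) :=
  fun p j => G j p.1 p.2

theorem analyticAt_vecG {G : Fin k → (Fin n → ℂ) → ℂ → ℂ} {p : (Fin n → ℂ) × ℂ}
    (h : ∀ j, AnalyticAt ℂ (fun p : (Fin n → ℂ) × ℂ => G j p.1 p.2) p) :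
    AnalyticAt ℂ (vec G) p := analyticAt_pi_iff.2 h

theorem fderiv_vec {G : Fin k → (Fin n → ℂ) → ℂ → ℂ} {p : (Fin n → ℂ) × ℂ}
    (h : ∀ j, AnalyticAt ℂ (fun p : (Fin n → ℂ) × ℂ => G j p.1 p.2) p)
    (w : (Fin n → ℂ) × ℂ) (j : Fin k) :
    fderiv ℂ (vec G) p w j = fderiv ℂ (fun p : (Fin n → ℂ) × ℂ => G j p.1 p.2) p w := by
  have h1 : HasFDerivAt (vec G) (ContinuousLinearMap.pi fun j =>
      fderiv ℂ (fun p : (Fin n → ℂ) × ℂ => G j p.1 p.2) p) p :=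
    hasFDerivAt_pi.2 fun j => (h j).differentiableAt.hasFDerivAt
  rw [h1.fderiv]
  rfl

/-- The time derivative of a slice. -/
theorem deriv_slice {F : (Fin n → ℂ) → ℂ → ℂ} {p : (Fin n → ℂ) × ℂ}
    (h : AnalyticAt ℂ (fun p : (Fin n → ℂ) × ℂ => F p.1 p.2) p) :
    deriv (fun t => F p.1 t) p.2 =
      fderiv ℂ (fun p : (Fin n → ℂ) × ℂ => F p.1 p.2) p (0, 1) := by
  have h3 : HasFDerivAt (fun t : ℂ => (p.1, t)) (ContinuousLinearMap.inr ℂ (Fin n → ℂ) ℂ)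
      p.2 := hasFDerivAt_prodMk_right p.1 p.2
  have h4 : HasFDerivAt (fun p : (Fin n → ℂ) × ℂ => F p.1 p.2)
      (fderiv ℂ (fun p : (Fin n → ℂ) × ℂ => F p.1 p.2) p) ((fun t : ℂ => (p.1, t)) p.2) :=
    h.differentiableAt.hasFDerivAt
  have h5 := (HasFDerivAt.comp p.2 h4 h3).hasDerivAt
  have h6 : deriv (fun t => F p.1 t) p.2 = _ := h5.deriv
  rw [h6]
  simp

/-- The partial derivatives of the linear system. -/
theorem pd_system {F : (Fin n → ℂ) → ℂ → ℂ} {G : Fin k → (Fin n → ℂ) → ℂ → ℂ}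
    {p : (Fin n → ℂ) × ℂ} (hF : AnalyticAt ℂ (fun p : (Fin n → ℂ) × ℂ => F p.1 p.2) p)
    (hG : ∀ j, AnalyticAt ℂ (fun p : (Fin n → ℂ) × ℂ => G j p.1 p.2) p) (ε : Fin k → ℂ)
    (i : Fin n) :
    pd i (fun x => F x p.2 + ∑ j, ε j * G j x p.2) p.1 =
      dX (fun p : (Fin n → ℂ) × ℂ => F p.1 p.2) p (Pi.single i 1) +
        ∑ j, ε j * dX (fun p : (Fin n → ℂ) × ℂ => G j p.1 p.2) p (Pi.single i 1) := by
  have hsl : ∀ {K : (Fin n → ℂ) → ℂ → ℂ},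
      AnalyticAt ℂ (fun p : (Fin n → ℂ) × ℂ => K p.1 p.2) p →
      HasFDerivAt (fun x => K x p.2) (dX (fun p : (Fin n → ℂ) × ℂ => K p.1 p.2) p) p.1 := by
    intro K hK
    have h1 : HasFDerivAt (fun x : Fin n → ℂ => (x, p.2)) (ContinuousLinearMap.inl ℂ _ ℂ) p.1 :=
      hasFDerivAt_prodMk_left p.1 p.2
    have h0 : HasFDerivAt (fun p : (Fin n → ℂ) × ℂ => K p.1 p.2)
        (fderiv ℂ (fun p : (Fin n → ℂ) × ℂ => K p.1 p.2) p) (p.1, p.2) :=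
      hK.differentiableAt.hasFDerivAt
    exact h0.comp p.1 h1
  have h1 : HasFDerivAt (fun x => F x p.2 + ∑ j, ε j * G j x p.2)
      (dX (fun p : (Fin n → ℂ) × ℂ => F p.1 p.2) p +
        ∑ j, ε j • dX (fun p : (Fin n → ℂ) × ℂ => G j p.1 p.2) p) p.1 :=
    (hsl hF).add (HasFDerivAt.fun_sum fun j _ => (hsl (hG j)).const_mul (ε j))
  unfold pd
  rw [h1.fderiv]
  simp

/-- A `μ`-constant linear system has no critical points off the axis, uniformly. -/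
theorem nonvanish_of_milnor {F : (Fin n → ℂ) → ℂ → ℂ} {G : Fin k → (Fin n → ℂ) → ℂ → ℂ}
    (aF : AnalyticAt ℂ (fun p : (Fin n → ℂ) × ℂ => F p.1 p.2) (0, 0))
    (aG : ∀ j, AnalyticAt ℂ (fun p : (Fin n → ℂ) × ℂ => G j p.1 p.2) (0, 0)) {μ : ℕ}
    (hμ : ∀ᶠ q in 𝓝 ((0 : ℂ), (0 : Fin k → ℂ)),
      Milnor (fun x => F x q.1 + ∑ j, q.2 j * G j x q.1) μ) :
    ∃ ρ : ℝ, 0 < ρ ∧ ∀ᶠ p in 𝓝 ((0 : Fin n → ℂ), (0 : ℂ)), p.1 ≠ 0 → ∀ ε : Fin k → ℂ,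
      ‖ε‖ < ρ → ∃ v, dX (fun p : (Fin n → ℂ) × ℂ => F p.1 p.2) p v +
        ∑ j, ε j * fderiv ℂ (vec G) p (v, 0) j ≠ 0 := by
  -- the partial derivatives as functions of `x, t, ε`
  let A : Fin n → (Fin n → ℂ) × (ℂ × (Fin k → ℂ)) → ℂ := fun i q =>
    pd i (fun x => F x q.2.1 + ∑ j, q.2.2 j * G j x q.2.1) q.1
  have hproj : Tendsto (fun q : (Fin n → ℂ) × (ℂ × (Fin k → ℂ)) => (q.1, q.2.1))
      (𝓝 (0, (0, 0))) (𝓝 (0, 0)) := Continuous.tendsto (by fun_prop) _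
  have haG : ∀ᶠ p in 𝓝 ((0 : Fin n → ℂ), (0 : ℂ)), ∀ j,
      AnalyticAt ℂ (fun p : (Fin n → ℂ) × ℂ => G j p.1 p.2) p :=
    eventually_all.2 fun j => (aG j).eventually_analyticAt
  have hcomp : ∀ {K : (Fin n → ℂ) × ℂ → ℂ}, AnalyticAt ℂ K (0, 0) → ∀ i : Fin n,
      AnalyticAt ℂ (fun q : (Fin n → ℂ) × (ℂ × (Fin k → ℂ)) =>
        dX K (q.1, q.2.1) (Pi.single i 1)) (0, (0, 0)) := by
    intro K hK i
    have h1 := analyticAt_dX_apply hK (Pi.single i 1)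
    have h2 : AnalyticAt ℂ (fun q : (Fin n → ℂ) × (ℂ × (Fin k → ℂ)) => (q.1, q.2.1))
        (0, (0, 0)) := analyticAt_fst.prod (analyticAt_fst.comp analyticAt_snd)
    exact AnalyticAt.comp (g := fun p => dX K p (Pi.single i 1))
      (f := fun q : (Fin n → ℂ) × (ℂ × (Fin k → ℂ)) => (q.1, q.2.1)) h1 h2
  have hA : ∀ i, AnalyticAt ℂ (A i) (0, (0, 0)) := by
    intro i
    have h1 : AnalyticAt ℂ (fun q : (Fin n → ℂ) × (ℂ × (Fin k → ℂ)) =>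
        dX (fun p : (Fin n → ℂ) × ℂ => F p.1 p.2) (q.1, q.2.1) (Pi.single i 1) +
        ∑ j, q.2.2 j * dX (fun p : (Fin n → ℂ) × ℂ => G j p.1 p.2) (q.1, q.2.1)
          (Pi.single i 1)) (0, (0, 0)) := by
      refine (hcomp aF i).add ?_
      refine Finset.analyticAt_fun_sum _ fun j _ => ?_
      refine AnalyticAt.mul ?_ (hcomp (aG j) i)
      exact (((ContinuousLinearMap.proj (R := ℂ) (φ := fun _ : Fin k => ℂ) j).comp
        (ContinuousLinearMap.snd ℂ ℂ (Fin k → ℂ))).comp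
        (ContinuousLinearMap.snd ℂ (Fin n → ℂ) (ℂ × (Fin k → ℂ)))).analyticAt _
    refine h1.congr ?_
    filter_upwards [hproj.eventually aF.eventually_analyticAt, hproj.eventually haG] with q q1 q2
    exact (pd_system q1 q2 q.2.2 i).symm
  have hz := eq_zero_of_colength ((0 : ℂ), (0 : Fin k → ℂ)) A hA μ hμ
  obtain ⟨ρ, hρ, hball⟩ := Metric.eventually_nhds_iff_ball.1 hz
  refine ⟨ρ, hρ, ?_⟩
  filter_upwards [aF.eventually_analyticAt, haG, ball_mem_nhds ((0 : Fin n → ℂ), (0 : ℂ)) hρ]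
    with p p1 p2 p3 hne ε hε
  by_contra hc
  push Not at hc
  rw [mem_ball, dist_eq_norm, Prod.norm_def, max_lt_iff] at p3
  simp only [Prod.fst_sub, Prod.snd_sub, sub_zero] at p3
  refine hne (hball (p.1, (p.2, ε)) ?_ fun i => ?_)
  · rw [mem_ball, dist_eq_norm, Prod.norm_def, max_lt_iff, Prod.norm_def, max_lt_iff]
    simpa using ⟨p3.1, p3.2, hε⟩
  · have h1 := hc (Pi.single i 1)
    change pd i (fun x => F x p.2 + ∑ j, ε j * G j x p.2) p.1 = 0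
    rw [pd_system p1 p2 ε i, ← h1]
    congr 1
    refine Finset.sum_congr rfl fun j _ => ?_
    rw [fderiv_vec p2]
    rfl

/-- **The criterion of linear stability.** -/
theorem isTriv_of_system {r : ℝ} (hr : 0 < r) {F : (Fin n → ℂ) → ℂ → ℂ}
    {G : Fin k → (Fin n → ℂ) → ℂ → ℂ} (hF : IsHolFamily r F) (hG : ∀ j, IsHolFamily r (G j))
    {C : ℝ} (hI : ∀ᶠ p in 𝓝 ((0 : Fin n → ℂ), (0 : ℂ)),
      ‖deriv (fun t => F p.1 t) p.2‖ ≤ C * (‖F p.1 p.2‖ + ∑ j, ‖G j p.1 p.2‖) ∧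
      ∀ i, ‖deriv (fun t => G i p.1 t) p.2‖ ≤ C * (‖F p.1 p.2‖ + ∑ j, ‖G j p.1 p.2‖)) {μ : ℕ}
    (hμ : ∀ᶠ q in 𝓝 ((0 : ℂ), (0 : Fin k → ℂ)),
      Milnor (fun x => F x q.1 + ∑ j, q.2 j * G j x q.1) μ) :
    ∃ δ : ℝ, 0 < δ ∧ δ ≤ r ∧ ∃ Φ, IsTriv δ F Φ := by
  have h0r : (0 : ℂ) ∈ ball (0 : ℂ) r := mem_ball_self hr
  have hnr : ∀ᶠ t in 𝓝 (0 : ℂ), t ∈ ball (0 : ℂ) r := isOpen_ball.mem_nhds h0r
  have aF := (hF 0 h0r).1
  have aG := fun j => (hG j 0 h0r).1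
  have haG : ∀ᶠ p in 𝓝 ((0 : Fin n → ℂ), (0 : ℂ)), ∀ j,
      AnalyticAt ℂ (fun p : (Fin n → ℂ) × ℂ => G j p.1 p.2) p :=
    eventually_all.2 fun j => (aG j).eventually_analyticAt
  obtain ⟨ρ, hρ, hV⟩ := nonvanish_of_milnor aF aG hμ
  have hsum : ∀ p : (Fin n → ℂ) × ℂ, ∑ j, ‖G j p.1 p.2‖ ≤ k * ‖vec G p‖ := by
    intro p
    calc ∑ j, ‖G j p.1 p.2‖ ≤ ∑ _j : Fin k, ‖vec G p‖ :=
          Finset.sum_le_sum fun j _ => norm_le_pi_norm (vec G p) j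
      _ = _ := by rw [Finset.sum_const, Finset.card_univ, Fintype.card_fin, nsmul_eq_mul]
  have hbd : ∀ p : (Fin n → ℂ) × ℂ, C * (‖F p.1 p.2‖ + ∑ j, ‖G j p.1 p.2‖) ≤
      max C 0 * (k + 1) * (‖F p.1 p.2‖ + ‖vec G p‖) := by
    intro p
    have h1 := hsum p
    have h2 : 0 ≤ ∑ j, ‖G j p.1 p.2‖ := Finset.sum_nonneg fun _ _ => norm_nonneg _
    have h3 := norm_nonneg (F p.1 p.2)
    have h4 := norm_nonneg (vec G p)
    have h5 : 0 ≤ max C 0 := le_max_right _ _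
    have hk : (0 : ℝ) ≤ k := Nat.cast_nonneg k
    calc C * (‖F p.1 p.2‖ + ∑ j, ‖G j p.1 p.2‖) ≤ max C 0 * (‖F p.1 p.2‖ + ∑ j, ‖G j p.1 p.2‖) :=
          mul_le_mul_of_nonneg_right (le_max_left _ _) (by positivity)
      _ ≤ max C 0 * ((k + 1) * (‖F p.1 p.2‖ + ‖vec G p‖)) := by
          refine mul_le_mul_of_nonneg_left ?_ h5
          nlinarith
      _ = _ := by ring
  have h := triv_of_linear (k := k) (F := fun p : (Fin n → ℂ) × ℂ => F p.1 p.2) (E := vec G)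
    (C := max C 0 * (k + 1)) (ρ := ρ) hr hρ aF (analyticAt_vecG aG) ?_ ?_ hV
  · obtain ⟨δ, hδ, hδr, e, e1, e2, e3, e4, e5, -⟩ := h
    refine ⟨δ, hδ, hδr, e, ⟨?_, ?_, ?_⟩⟩
    · intro p hp
      rw [mem_ball, dist_zero_right]
      exact e1 p hp
    · intro t ht
      rw [mem_ball, dist_zero_right] at ht
      exact ⟨e2 t ht, e4 t⟩
    · intro p hp
      refine ⟨e3 p, ?_⟩
      have := e5 p hp
      simp only at this
      rw [e3 p] at this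
      exact this
  · filter_upwards [hnr] with t ht
    refine ⟨(hF t ht).2, ?_⟩
    funext j
    exact (hG j t ht).2
  · filter_upwards [hI, aF.eventually_analyticAt, haG] with p p1 p2 p3
    refine ⟨?_, ?_⟩
    · rw [← deriv_slice p2]
      exact p1.1.trans (hbd p)
    · have h5 : 0 ≤ max C 0 * (k + 1) * (‖F p.1 p.2‖ + ‖vec G p‖) := by
        have : 0 ≤ max C 0 := le_max_right _ _
        positivity
      rw [pi_norm_le_iff_of_nonneg h5]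
      intro j
      rw [fderiv_vec p3, ← deriv_slice (p3 j)]
      exact (p1.2 j).trans (hbd p)

end Vale.Agent.P298.H119
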