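import Vale.Agent.P298.H119.Quasi3
import Mathlib.Analysis.Complex.OpenMapping

namespace Vale.Agent.P298.H119

open Set Metric Filter Topology Vale.Agent.P298
open scoped NNReal ContDiff Manifold

variable {X : Type*} [NormedAddCommGroup X] [NormedSpace ℂ X]

/-- A form whose kernel contains the kernel of `b` is a multiple of `b`. -/
theorem exists_eq_smul {a b : X →L[ℂ] ℂ} (h : ∀ v, b v = 0 → a v = 0) {w : X} (hw : b w ≠ 0) :
    ∀ v, a v = (a w / b w) * b v := by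
  intro v
  have h1 := h (v - (b v / b w) • w) (by
    rw [map_sub, map_smul, smul_eq_mul, div_mul_cancel₀ _ hw, sub_self])
  rw [map_sub, map_smul, smul_eq_mul, sub_eq_zero] at h1
  rw [h1]
  field_simp

/-- The uniform bound: if `a + κ(t) b` has no zero for `|t| < δ`, then the multiple of `κ'(t) b`
which has to be compensated is bounded. -/
theorem exists_uniform {κ : ℂ → ℂ} (hκ : AnalyticAt ℂ κ 0) {δ : ℝ} (hδ : 0 < δ) :
    ∃ M δ' : ℝ, 0 ≤ M ∧ 0 < δ' ∧ ∀ a b : X →L[ℂ] ℂ,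
      (∀ t ∈ ball (0 : ℂ) δ, ∃ v, a v + κ t * b v ≠ 0) → ∀ t ∈ ball (0 : ℂ) δ',
      ∃ ν : X, a ν + κ t * b ν = 1 ∧ ‖deriv κ t * b ν‖ ≤ M := by
  -- a bound for the derivative
  have hd : ContinuousAt (deriv κ) 0 := hκ.deriv.continuousAt
  have hM1 : ∀ᶠ t in 𝓝 (0 : ℂ), ‖deriv κ t‖ < ‖deriv κ 0‖ + 1 :=
    hd.norm.eventually (gt_mem_nhds (by linarith))
  have key : ∃ M : ℝ, 0 ≤ M ∧ ∀ᶠ t in 𝓝 (0 : ℂ), ∀ c : ℂ,
      (∀ t ∈ ball (0 : ℂ) δ, c + κ t ≠ 0) → ‖deriv κ t / (c + κ t)‖ ≤ M := by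
    rcases hκ.eventually_constant_or_nhds_le_map_nhds with h | h
    · refine ⟨0, le_rfl, ?_⟩
      filter_upwards [h.eventually_nhds] with t ht c _
      have h1 : deriv κ t = 0 := by
        have h2 : κ =ᶠ[𝓝 t] fun _ => κ 0 := ht
        rw [h2.deriv_eq, deriv_const]
      rw [h1, zero_div, norm_zero]
    · have h1 : κ '' ball (0 : ℂ) δ ∈ 𝓝 (κ 0) := by
        refine h ?_
        exact image_mem_map (ball_mem_nhds _ hδ)
      obtain ⟨ρ, hρ, hball⟩ := Metric.mem_nhds_iff.1 h1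
      refine ⟨(‖deriv κ 0‖ + 1) * (2 / ρ), by positivity, ?_⟩
      have h2 : ∀ᶠ t in 𝓝 (0 : ℂ), ‖κ t - κ 0‖ < ρ / 2 := by
        have hc : ContinuousAt (fun t => ‖κ t - κ 0‖) 0 :=
          (hκ.continuousAt.sub continuousAt_const).norm
        refine hc.eventually (gt_mem_nhds ?_)
        change ‖κ 0 - κ 0‖ < ρ / 2
        rw [sub_self, norm_zero]
        positivity
      filter_upwards [hM1, h2] with t h3 h4 c hc
      have h5 : ρ ≤ ‖-c - κ 0‖ := by
        by_contra hlt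
        have h6 : -c ∈ ball (κ 0) ρ := by
          rw [mem_ball, dist_eq_norm]
          exact not_le.1 hlt
        obtain ⟨t', ht', ht''⟩ := hball h6
        exact hc t' ht' (by rw [ht'']; ring)
      have h7 : ρ / 2 ≤ ‖c + κ t‖ := by
        have h8 : ‖-c - κ 0‖ ≤ ‖c + κ t‖ + ‖κ t - κ 0‖ := by
          have e : -c - κ 0 = -(c + κ t) + (κ t - κ 0) := by ring
          rw [e]
          refine (norm_add_le _ _).trans ?_
          rw [norm_neg]
        linarith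
      have h9 : 0 < ‖c + κ t‖ := lt_of_lt_of_le (by positivity) h7
      rw [norm_div, div_eq_mul_inv]
      refine mul_le_mul h3.le ?_ (by positivity) (by positivity)
      rw [inv_le_comm₀ h9 (by positivity), inv_div]
      exact h7
  obtain ⟨M, hM, hev⟩ := key
  obtain ⟨δ₁, hδ₁, hball⟩ := Metric.eventually_nhds_iff_ball.1 hev
  refine ⟨M, min δ δ₁, hM, lt_min hδ hδ₁, fun a b hab t ht => ?_⟩
  have htδ : t ∈ ball (0 : ℂ) δ := ball_subset_ball (min_le_left _ _) ht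
  have htδ₁ : t ∈ ball (0 : ℂ) δ₁ := ball_subset_ball (min_le_right _ _) ht
  by_cases h1 : ∀ v, b v = 0 → a v = 0
  · -- dependent forms
    have hb : ∃ w, b w ≠ 0 := by
      by_contra hc
      push Not at hc
      obtain ⟨v, hv⟩ := hab t htδ
      apply hv
      rw [h1 v (hc v), hc v, mul_zero, add_zero]
    obtain ⟨w, hw⟩ := hb
    have h2 := exists_eq_smul h1 hw
    set c : ℂ := a w / b w with hc
    have h3 : ∀ t ∈ ball (0 : ℂ) δ, c + κ t ≠ 0 := by
      intro t ht h0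
      obtain ⟨v, hv⟩ := hab t ht
      apply hv
      rw [h2 v, ← add_mul, h0, zero_mul]
    have h4 := h3 t htδ
    refine ⟨(1 / ((c + κ t) * b w)) • w, ?_, ?_⟩
    · rw [map_smul, map_smul, smul_eq_mul, smul_eq_mul, h2 w]
      field_simp
    · rw [map_smul, smul_eq_mul]
      have e : deriv κ t * (1 / ((c + κ t) * b w) * b w) = deriv κ t / (c + κ t) := by
        field_simp
      rw [e]
      exact hball t htδ₁ c h3
  · push Not at h1
    obtain ⟨v, hv0, hv⟩ := h1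
    refine ⟨(1 / a v) • v, ?_, ?_⟩
    · rw [map_smul, map_smul, hv0, smul_zero, mul_zero, add_zero, smul_eq_mul]
      field_simp
    · rw [map_smul, hv0, smul_zero, mul_zero, norm_zero]
      exact hM

/-- The local field near a point of the fixed curve. -/
theorem logField_of {F a κ : X × ℂ → ℂ} {g : X → ℂ} {p₀ : X × ℂ} {M K : ℝ} (hK : 0 < K)
    (hMK : 2 * M < K)
    (aF : AnalyticAt ℂ F p₀) (ha : AnalyticAt ℂ a p₀) (hκ : AnalyticAt ℂ κ p₀)
    (hg : AnalyticAt ℂ g p₀.1) (ha0 : a p₀ ≠ 0) (hne : p₀.1 ≠ 0) (hF0 : F p₀ = 0)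
    (hg0 : g p₀.1 = 0)
    (ht : ∀ᶠ q in 𝓝 p₀, fderiv ℂ F q (0, 1) = fderiv ℂ a q (0, 1) / a q * F q +
      a q * fderiv ℂ κ q (0, 1) * g q.1)
    {ν : X} (hν : dX F p₀ ν = 1)
    (hM : ‖a p₀ * fderiv ℂ κ p₀ (0, 1) * fderiv ℂ g p₀.1 ν‖ ≤ M) :
    LogField K F (fun p => g p.1 ^ 2) p₀ := by
  have hgq : AnalyticAt ℂ (fun q : X × ℂ => g q.1) p₀ := hg.comp analyticAt_fst
  have hdX : ContinuousAt (fun q => dX F q ν) p₀ := by
    have h1 := (contDiffAt_dX aF).continuousAt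
    exact h1.clm_apply continuousAt_const
  have hdX0 : ∀ᶠ q in 𝓝 p₀, dX F q ν ≠ 0 := hdX.eventually_ne (by rw [hν]; exact one_ne_zero)
  have hdXs : ContDiffAt ℝ 1 (fun q => dX F q ν) p₀ := by
    have h1 := contDiffAt_dX aF
    have h2 : ContDiff ℂ 1 (fun A : X →L[ℂ] ℂ => A ν) :=
      (ContinuousLinearMap.apply ℂ ℂ ν).contDiff
    exact (h2.restrict_scalars ℝ).contDiffAt.comp p₀ h1
  refine ⟨fun q => (-fderiv ℂ F q (0, 1) * (dX F q ν)⁻¹) • ν, ?_, ?_⟩
  · refine ContDiffAt.smul ?_ contDiffAt_const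
    refine (contDiffAt_dT aF).neg.mul (hdXs.inv ?_)
    rw [hν]; exact one_ne_zero
  · -- the function which bounds the logarithmic derivative
    have hga : ∀ᶠ q in 𝓝 p₀, AnalyticAt ℂ g q.1 :=
      (continuous_fst.tendsto p₀).eventually hg.eventually_analyticAt
    have haq : ∀ᶠ q in 𝓝 p₀, a q ≠ 0 := ha.continuousAt.eventually_ne ha0
    have cdT : ContinuousAt (fun q => fderiv ℂ F q (0, 1)) p₀ := (contDiffAt_dT aF).continuousAt
    have cda : ContinuousAt (fun q => fderiv ℂ a q (0, 1)) p₀ := (contDiffAt_dT ha).continuousAt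
    have cdk : ContinuousAt (fun q => fderiv ℂ κ q (0, 1)) p₀ := (contDiffAt_dT hκ).continuousAt
    have cdg : ContinuousAt (fun q : X × ℂ => fderiv ℂ g q.1 ν) p₀ := by
      have h1 : ContinuousAt (fun x => fderiv ℂ g x ν) p₀.1 :=
        hg.fderiv.continuousAt.clm_apply continuousAt_const
      exact ContinuousAt.comp (g := fun x => fderiv ℂ g x ν) (f := fun q : X × ℂ => q.1) h1
        continuous_fst.continuousAt
    set Θ : X × ℂ → ℝ := fun q => 2 * ((‖fderiv ℂ a q (0, 1) / a q‖ * ‖g q.1‖ +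
      ‖a q * fderiv ℂ κ q (0, 1)‖) * (‖(dX F q ν)⁻¹‖ * ‖fderiv ℂ g q.1 ν‖)) with hΘ
    have hΘc : ContinuousAt Θ p₀ := by
      refine continuousAt_const.mul ?_
      refine ContinuousAt.mul (((cda.div ha.continuousAt ha0).norm.mul
        hgq.continuousAt.norm).add (ha.continuousAt.mul cdk).norm) ?_
      exact (hdX.inv₀ (by rw [hν]; exact one_ne_zero)).norm.mul cdg.norm
    have hΘ0 : Θ p₀ < K := by
      simp only [hΘ]
      rw [hg0, hν, norm_zero, mul_zero, zero_add, inv_one, norm_one, one_mul]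
      rw [norm_mul] at hM
      linarith
    have hT0 : fderiv ℂ F p₀ (0, 1) = 0 := by
      rw [ht.self_of_nhds, hF0, hg0, mul_zero, mul_zero, add_zero]
    have hsm : ContinuousAt (fun q : X × ℂ => ‖(-fderiv ℂ F q (0, 1) * (dX F q ν)⁻¹) • ν‖) p₀ :=
      ((cdT.neg.mul (hdX.inv₀ (by rw [hν]; exact one_ne_zero))).smul continuousAt_const).norm
    have hsm2 : ∀ᶠ q in 𝓝 p₀, ‖(-fderiv ℂ F q (0, 1) * (dX F q ν)⁻¹) • ν‖ < K * ‖q.1‖ := by
      refine hsm.eventually_lt (continuousAt_const.mul continuous_fst.norm.continuousAt) ?_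
      rw [hT0, neg_zero, zero_mul, zero_smul, norm_zero]
      have := norm_pos_iff.2 hne
      positivity
    filter_upwards [hdX0, hsm2, hΘc.eventually (gt_mem_nhds hΘ0), ht, hga] with q q1 q2 q3 q4 q5
    refine ⟨?_, q2.le, fun hle => ?_, fun h1 h2 => ?_⟩
    · rw [fderiv_split, map_smul, smul_eq_mul, mul_assoc, inv_mul_cancel₀ q1]
      ring
    · -- the derivative of `g ^ 2`
      have hder : fderiv ℂ (fun p : X × ℂ => g p.1 ^ 2) q
          ((-fderiv ℂ F q (0, 1) * (dX F q ν)⁻¹) • ν, 1) =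
          2 * g q.1 * (-fderiv ℂ F q (0, 1) * (dX F q ν)⁻¹ * fderiv ℂ g q.1 ν) := by
        have h1 : HasFDerivAt g (fderiv ℂ g q.1) q.1 := q5.differentiableAt.hasFDerivAt
        have h2 : HasFDerivAt (fun p : X × ℂ => g p.1)
            ((fderiv ℂ g q.1).comp (ContinuousLinearMap.fst ℂ X ℂ)) q :=
          h1.comp q hasFDerivAt_fst
        have h3 := h2.pow 2
        rw [h3.fderiv]
        simp
      rw [hder]
      have hF1 : ‖F q‖ ≤ ‖g q.1‖ ^ 2 := by simpa using hle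
      have hb : ‖fderiv ℂ F q (0, 1)‖ ≤ (‖fderiv ℂ a q (0, 1) / a q‖ * ‖g q.1‖ +
          ‖a q * fderiv ℂ κ q (0, 1)‖) * ‖g q.1‖ := by
        rw [q4]
        refine (norm_add_le _ _).trans ?_
        rw [norm_mul, norm_mul _ (g q.1), add_mul]
        have h5 := mul_le_mul_of_nonneg_left hF1 (norm_nonneg (fderiv ℂ a q (0, 1) / a q))
        have h6 : ‖fderiv ℂ a q (0, 1) / a q‖ * ‖g q.1‖ * ‖g q.1‖ =
          ‖fderiv ℂ a q (0, 1) / a q‖ * ‖g q.1‖ ^ 2 := by ring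
        linarith
      have e1 : ‖2 * g q.1 * (-fderiv ℂ F q (0, 1) * (dX F q ν)⁻¹ * fderiv ℂ g q.1 ν)‖ =
          2 * ‖g q.1‖ * (‖fderiv ℂ F q (0, 1)‖ * (‖(dX F q ν)⁻¹‖ * ‖fderiv ℂ g q.1 ν‖)) := by
        rw [norm_mul, norm_mul, norm_mul, norm_mul, norm_neg, Complex.norm_ofNat]
        ring
      rw [e1]
      have e2 : K * ‖(fun p : X × ℂ => g p.1 ^ 2) q‖ = K * ‖g q.1‖ ^ 2 := by
        simp only [norm_pow]
      rw [e2]
      have h7 : 0 ≤ ‖(dX F q ν)⁻¹‖ * ‖fderiv ℂ g q.1 ν‖ := by positivity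
      have h8 := mul_le_mul_of_nonneg_right hb h7
      have h9 : 0 ≤ 2 * ‖g q.1‖ := by positivity
      have h10 := mul_le_mul_of_nonneg_left h8 h9
      refine h10.trans ?_
      have e3 : 2 * ‖g q.1‖ * ((‖fderiv ℂ a q (0, 1) / a q‖ * ‖g q.1‖ +
          ‖a q * fderiv ℂ κ q (0, 1)‖) * ‖g q.1‖ * (‖(dX F q ν)⁻¹‖ * ‖fderiv ℂ g q.1 ν‖)) =
          Θ q * ‖g q.1‖ ^ 2 := by
        simp only [hΘ]
        ring
      rw [e3]
      exact mul_le_mul_of_nonneg_right (le_of_lt q3) (by positivity)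
    · have hgz : g q.1 = 0 := by
        have h3 : g q.1 ^ 2 = 0 := h2
        exact pow_eq_zero_iff (two_ne_zero) |>.1 h3
      change (-fderiv ℂ F q (0, 1) * (dX F q ν)⁻¹) • ν = 0
      rw [q4, h1, hgz, mul_zero, mul_zero, add_zero, neg_zero, zero_mul, zero_smul]

end Vale.Agent.P298.H119
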