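import Vale.Agent.P298.H119.PencilTriv
import Vale.Agent.P298.H974.NoBad2
import Vale.Agent.P298.H974.NoBadCor

namespace Vale.Agent.P298.H119

open Set Metric Filter Topology Vale.Agent.P298
open scoped NNReal ContDiff Manifold

variable {n : ℕ} {f g : (Fin n → ℂ) → ℂ} {φ : ℂ × ℂ × ℂ → ℂ}

/-- The map `(f(x), g(x), t)`. -/
def pr3 (f g : (Fin n → ℂ) → ℂ) : (Fin n → ℂ) × ℂ → ℂ × ℂ × ℂ := fun p => (f p.1, g p.1, p.2)

theorem tendsto_pr3 (hf : AnalyticAt ℂ f 0) (hg : AnalyticAt ℂ g 0) (f0 : f 0 = 0)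
    (g0 : g 0 = 0) : Tendsto (pr3 f g) (𝓝 ((0 : Fin n → ℂ), (0 : ℂ))) (𝓝 0) := by
  have h1 : ContinuousAt (fun p : (Fin n → ℂ) × ℂ => f p.1) (0, 0) :=
    ContinuousAt.comp (g := f) (f := fun p : (Fin n → ℂ) × ℂ => p.1) hf.continuousAt
      continuous_fst.continuousAt
  have h2 : ContinuousAt (fun p : (Fin n → ℂ) × ℂ => g p.1) (0, 0) :=
    ContinuousAt.comp (g := g) (f := fun p : (Fin n → ℂ) × ℂ => p.1) hg.continuousAt
      continuous_fst.continuousAt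
  have h3 : ContinuousAt (pr3 f g) (0, 0) := h1.prodMk (h2.prodMk continuous_snd.continuousAt)
  have h4 := h3.tendsto
  have h5 : pr3 f g (0, 0) = 0 := by simp [pr3, f0, g0]
  rwa [h5] at h4

/-- The inequality for the differential. -/
theorem exists_ineq (hf : AnalyticAt ℂ f 0) (hg : AnalyticAt ℂ g 0) (f0 : f 0 = 0) (g0 : g 0 = 0)
    (hφ : AnalyticAt ℂ φ 0) {μ : ℕ}
    (hμ : ∀ᶠ t in 𝓝 (0 : ℂ), Milnor (fun x => φ (f x, g x, t)) μ) :
    ∃ (N : ℕ) (C : ℝ), N ≠ 0 ∧ ∀ᶠ p in 𝓝 ((0 : Fin n → ℂ), (0 : ℂ)),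
      ‖p.1‖ ^ N ≤ C * ‖dX (fun q : (Fin n → ℂ) × ℂ => φ (f q.1, g q.1, q.2)) p‖ := by
  obtain ⟨r, hr, hball⟩ := Metric.eventually_nhds_iff_ball.1 hμ
  have aF : AnalyticAt ℂ (fun p : (Fin n → ℂ) × ℂ => (fun x t => φ (f x, g x, t)) p.1 p.2)
      (0, 0) :=
    analyticAt_pull (f := f) (g := g) (φ := φ) (p := ((0 : Fin n → ℂ), (0 : ℂ))) hf hg
      (by rw [f0, g0]; exact hφ)
  obtain ⟨m, C, hm, h⟩ := Vale.Agent.P298.H974.loja_milnor hr
    (F := fun x t => φ (f x, g x, t)) aF hball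
  refine ⟨m, max C 0 * n, hm, ?_⟩
  filter_upwards [h] with p hp
  refine hp.trans ?_
  have h1 : ∑ i, ‖dX (fun p : (Fin n → ℂ) × ℂ => φ (f p.1, g p.1, p.2)) p (Pi.single i 1)‖ ≤
      n * ‖dX (fun p : (Fin n → ℂ) × ℂ => φ (f p.1, g p.1, p.2)) p‖ := by
    calc ∑ i, ‖dX (fun p : (Fin n → ℂ) × ℂ => φ (f p.1, g p.1, p.2)) p (Pi.single i 1)‖ ≤
        ∑ _i : Fin n, ‖dX (fun p : (Fin n → ℂ) × ℂ => φ (f p.1, g p.1, p.2)) p‖ := by
          refine Finset.sum_le_sum fun i _ => ?_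
          refine (ContinuousLinearMap.le_opNorm _ _).trans ?_
          have h2 : ‖(Pi.single i 1 : Fin n → ℂ)‖ ≤ 1 := by
            rw [pi_norm_le_iff_of_nonneg zero_le_one]
            intro j
            by_cases h : j = i
            · subst h; simp
            · simp [h]
          exact mul_le_of_le_one_right (norm_nonneg _) h2
      _ = _ := by rw [Finset.sum_const, Finset.card_univ, Fintype.card_fin, nsmul_eq_mul]
  have h0 : 0 ≤ ∑ i, ‖dX (fun p : (Fin n → ℂ) × ℂ => φ (f p.1, g p.1, p.2)) p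
      (Pi.single i 1)‖ := Finset.sum_nonneg fun _ _ => norm_nonneg _
  calc C * ∑ i, ‖dX (fun p : (Fin n → ℂ) × ℂ => φ (f p.1, g p.1, p.2)) p (Pi.single i 1)‖ ≤
      max C 0 * ∑ i, ‖dX (fun p : (Fin n → ℂ) × ℂ => φ (f p.1, g p.1, p.2)) p
        (Pi.single i 1)‖ := mul_le_mul_of_nonneg_right (le_max_left _ _) h0
    _ ≤ max C 0 * (n * ‖dX (fun p : (Fin n → ℂ) × ℂ => φ (f p.1, g p.1, p.2)) p‖) :=
      mul_le_mul_of_nonneg_left h1 (le_max_right _ _)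
    _ = _ := by ring

/-- The structure of the family near the origin. -/
theorem logTriv_of_u {r : ℝ} (hr : 0 < r) (hf : AnalyticAt ℂ f 0) (hg : AnalyticAt ℂ g 0)
    (f0 : f 0 = 0) (g0 : g 0 = 0) (hφ : AnalyticAt ℂ φ 0)
    (h0 : ∀ᶠ t in 𝓝 (0 : ℂ), φ (0, 0, t) = 0) {μ : ℕ}
    (hμ : ∀ᶠ t in 𝓝 (0 : ℂ), Milnor (fun x => φ (f x, g x, t)) μ)
    (hu : fderiv ℂ φ 0 (1, 0, 0) ≠ 0) :
    LogTriv r (pull f g φ) (fun p => g p.1 ^ 2) := by
  have hpr := tendsto_pr3 hf hg f0 g0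
  have hfst : Tendsto (fun p : (Fin n → ℂ) × ℂ => p.1) (𝓝 (0, 0)) (𝓝 0) :=
    (continuous_fst (X := Fin n → ℂ) (Y := ℂ)).tendsto (0, 0)
  have evf : ∀ᶠ p in 𝓝 ((0 : Fin n → ℂ), (0 : ℂ)), AnalyticAt ℂ f p.1 :=
    hfst.eventually hf.eventually_analyticAt
  have evg : ∀ᶠ p in 𝓝 ((0 : Fin n → ℂ), (0 : ℂ)), AnalyticAt ℂ g p.1 :=
    hfst.eventually hg.eventually_analyticAt
  have evφ : ∀ᶠ p in 𝓝 ((0 : Fin n → ℂ), (0 : ℂ)), AnalyticAt ℂ φ (f p.1, g p.1, p.2) :=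
    hpr.eventually hφ.eventually_analyticAt
  obtain ⟨N, C, hN, hineq⟩ := exists_ineq hf hg f0 g0 hφ hμ
  have hnb := Vale.Agent.P298.H974.noBad hf hg f0 g0 hφ h0 hineq
  obtain ⟨A, B, hA, hB, hAB, hA0⟩ := exists_uv hφ h0
  have hA0' : A 0 ≠ 0 := by rw [hA0]; exact hu
  -- the functions on the total space
  set a : (Fin n → ℂ) × ℂ → ℂ := pull f g A with ha
  set κ : (Fin n → ℂ) × ℂ → ℂ := pull f g (fun q => B q / A q) with hκ
  have hBA : AnalyticAt ℂ (fun q => B q / A q) 0 := hB.div hA hA0'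
  set κ₀ : ℂ → ℂ := fun t => B (0, 0, t) / A (0, 0, t) with hκ₀
  have hκ₀a : AnalyticAt ℂ κ₀ 0 := by
    have h1 : AnalyticAt ℂ (fun t : ℂ => ((0, 0, t) : ℂ × ℂ × ℂ)) 0 :=
      analyticAt_const.prod (analyticAt_const.prod analyticAt_id)
    exact AnalyticAt.comp (g := fun q => B q / A q)
      (f := fun t : ℂ => ((0, 0, t) : ℂ × ℂ × ℂ)) hBA h1
  have evA : ∀ᶠ p in 𝓝 ((0 : Fin n → ℂ), (0 : ℂ)), AnalyticAt ℂ A (f p.1, g p.1, p.2) :=
    hpr.eventually hA.eventually_analyticAt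
  have evBA : ∀ᶠ p in 𝓝 ((0 : Fin n → ℂ), (0 : ℂ)),
      AnalyticAt ℂ (fun q => B q / A q) (f p.1, g p.1, p.2) :=
    hpr.eventually hBA.eventually_analyticAt
  have evA0 : ∀ᶠ p in 𝓝 ((0 : Fin n → ℂ), (0 : ℂ)), A (f p.1, g p.1, p.2) ≠ 0 :=
    hpr.eventually (hA.continuousAt.eventually_ne hA0')
  have evu : ∀ᶠ p in 𝓝 ((0 : Fin n → ℂ), (0 : ℂ)),
      fderiv ℂ φ (f p.1, g p.1, p.2) (1, 0, 0) ≠ 0 := by
    have h1 : ContinuousAt (fun q => fderiv ℂ φ q (1, 0, 0)) 0 :=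
      hφ.fderiv.continuousAt.clm_apply continuousAt_const
    exact hpr.eventually (h1.eventually_ne hu)
  -- the factorization near every point
  have hfac : ∀ᶠ p in 𝓝 ((0 : Fin n → ℂ), (0 : ℂ)), ∀ᶠ q in 𝓝 p,
      pull f g φ q = a q * (f q.1 + κ q * g q.1) := by
    have h1 : ∀ᶠ q in 𝓝 ((0 : Fin n → ℂ), (0 : ℂ)),
        pull f g φ q = a q * (f q.1 + κ q * g q.1) := by
      filter_upwards [hpr.eventually hAB, evA0] with q h2 h3
      have h4 : pull f g φ q = f q.1 * A (f q.1, g q.1, q.2) + g q.1 * B (f q.1, g q.1, q.2) := h2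
      rw [h4]
      simp only [ha, hκ, pull]
      field_simp
    exact h1.eventually_nhds
  -- derivatives of the factorization
  have hder : ∀ᶠ p in 𝓝 ((0 : Fin n → ℂ), (0 : ℂ)), AnalyticAt ℂ a p ∧ AnalyticAt ℂ κ p ∧
      (a p ≠ 0 ∧ pull f g φ p = a p * (f p.1 + κ p * g p.1)) ∧
        ∀ v : (Fin n → ℂ) × ℂ, fderiv ℂ (pull f g φ) p v =
        fderiv ℂ a p v * (f p.1 + κ p * g p.1) +
          a p * (fderiv ℂ f p.1 v.1 + (fderiv ℂ κ p v * g p.1 + κ p * fderiv ℂ g p.1 v.1)) := by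
    filter_upwards [evf, evg, evA, evBA, evA0, hfac] with p h1 h2 h3 h4 h5 h6
    have h7 : AnalyticAt ℂ a p := analyticAt_pull h1 h2 h3
    have h8 : AnalyticAt ℂ κ p := analyticAt_pull h1 h2 h4
    refine ⟨h7, h8, ⟨h5, h6.self_of_nhds⟩, fun v => ?_⟩
    have k1 : HasFDerivAt (fun q : (Fin n → ℂ) × ℂ => f q.1)
        ((fderiv ℂ f p.1).comp (ContinuousLinearMap.fst ℂ _ ℂ)) p :=
      h1.differentiableAt.hasFDerivAt.comp p hasFDerivAt_fst
    have k2 : HasFDerivAt (fun q : (Fin n → ℂ) × ℂ => g q.1)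
        ((fderiv ℂ g p.1).comp (ContinuousLinearMap.fst ℂ _ ℂ)) p :=
      h2.differentiableAt.hasFDerivAt.comp p hasFDerivAt_fst
    have k3 := h7.differentiableAt.hasFDerivAt.mul
      (k1.add (h8.differentiableAt.hasFDerivAt.mul k2))
    have k4 : fderiv ℂ (pull f g φ) p = _ := (k3.congr_of_eventuallyEq h6).fderiv
    rw [k4]
    simp
    ring
  -- surjectivity off the axis
  have hsurj : ∀ᶠ p in 𝓝 ((0 : Fin n → ℂ), (0 : ℂ)), p.1 ≠ 0 →
      ∃ v, dX (pull f g φ) p v ≠ 0 := by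
    filter_upwards [hineq] with p hp hne
    by_contra hc
    push Not at hc
    have h1 : dX (fun q : (Fin n → ℂ) × ℂ => φ (f q.1, g q.1, q.2)) p = 0 := by
      ext v
      exact hc v
    rw [h1, norm_zero, mul_zero] at hp
    have h2 : 0 < ‖p.1‖ ^ N := pow_pos (norm_pos_iff.2 hne) N
    linarith
  -- a box
  obtain ⟨δ, hδ, hbox⟩ := Metric.eventually_nhds_iff_ball.1 (hsurj.and (hder.and (evf.and evg)))
  obtain ⟨M, δ', hM, hδ', huni⟩ := exists_uniform (X := Fin n → ℂ) hκ₀a hδ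
  have hκc : ∀ x : Fin n → ℂ, f x = 0 → g x = 0 → ∀ t, κ (x, t) = κ₀ t := by
    intro x hx hx' t
    simp only [hκ, pull, hκ₀, hx, hx']
  have hdist : ∀ x : Fin n → ℂ, ‖x‖ < δ → ∀ t ∈ ball (0 : ℂ) δ,
      (x, t) ∈ ball ((0 : Fin n → ℂ), (0 : ℂ)) δ := by
    intro x hx t ht
    rw [mem_ball, dist_eq_norm, Prod.norm_def]
    rw [mem_ball, dist_zero_right] at ht
    simpa using ⟨hx, ht⟩
  refine triv_log_of_eventually (K := 2 * M + 1) hr (by positivity) ?_ ?_ ?_ ?_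
  · exact analyticAt_pull (p := ((0 : Fin n → ℂ), (0 : ℂ))) hf hg (by rw [f0, g0]; exact hφ)
  · have h1 : AnalyticAt ℂ (fun q : (Fin n → ℂ) × ℂ => g q.1) (0, 0) :=
      AnalyticAt.comp (g := g) (f := fun q : (Fin n → ℂ) × ℂ => q.1)
        (x := ((0 : Fin n → ℂ), (0 : ℂ))) hg analyticAt_fst
    exact h1.pow 2
  · filter_upwards [h0] with t ht
    refine ⟨?_, ?_⟩
    · simp only [pull, f0, g0]
      exact ht
    · simp only [g0]
      norm_num
  · have hsmall : ∀ᶠ p in 𝓝 ((0 : Fin n → ℂ), (0 : ℂ)), ‖p.1‖ < δ ∧ p.2 ∈ ball (0 : ℂ) δ ∧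
        p.2 ∈ ball (0 : ℂ) δ' := by
      have h1 : Tendsto (fun p : (Fin n → ℂ) × ℂ => ‖p.1‖) (𝓝 (0, 0)) (𝓝 0) := by
        have h2 : Continuous (fun p : (Fin n → ℂ) × ℂ => ‖p.1‖) := continuous_fst.norm
        have h3 := h2.tendsto ((0 : Fin n → ℂ), (0 : ℂ))
        simpa using h3
      have h4 : Tendsto (fun p : (Fin n → ℂ) × ℂ => p.2) (𝓝 (0, 0)) (𝓝 0) :=
        (continuous_snd (X := Fin n → ℂ) (Y := ℂ)).tendsto (0, 0)
      exact (h1.eventually (gt_mem_nhds hδ)).and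
        ((h4.eventually (ball_mem_nhds _ hδ)).and (h4.eventually (ball_mem_nhds _ hδ')))
    filter_upwards [hsurj, hnb, evf, evg, evφ, evu, hder, hder.eventually_nhds, hsmall,
      (analyticAt_pull (p := ((0 : Fin n → ℂ), (0 : ℂ))) hf hg
        (by rw [f0, g0]; exact hφ) : AnalyticAt ℂ (pull f g φ) (0, 0)).eventually_analyticAt]
      with p p1 p2 p3 p4 p5 p6 p7 p8 p9 p10 hne
    obtain ⟨v₀, hv₀⟩ := p1 hne
    refine ⟨surjective_of_ne_zero hv₀, fun hF hE => ?_, fun hF hE => ?_⟩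
    · -- `g ≠ 0`
      have hgne : g p.1 ≠ 0 := fun h => hE (by simp [h])
      obtain ⟨v, w, hvw⟩ := p2 hF hgne
      have hdE : ∀ v, dX (fun p : (Fin n → ℂ) × ℂ => g p.1 ^ 2) p v =
          2 * g p.1 * fderiv ℂ g p.1 v := by
        intro v
        have k2 : HasFDerivAt (fun q : (Fin n → ℂ) × ℂ => g q.1)
            ((fderiv ℂ g p.1).comp (ContinuousLinearMap.fst ℂ _ ℂ)) p :=
          p4.differentiableAt.hasFDerivAt.comp p hasFDerivAt_fst
        rw [dX_apply, (k2.pow 2).fderiv]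
        simp
      refine surjective_of_minor (u := v) (v := w) ?_
      rw [dX_pull p3 p4 p5, dX_pull p3 p4 p5, hdE, hdE]
      have e : (fderiv ℂ φ (f p.1, g p.1, p.2) (1, 0, 0) * fderiv ℂ f p.1 v +
          fderiv ℂ φ (f p.1, g p.1, p.2) (0, 1, 0) * fderiv ℂ g p.1 v) *
            (2 * g p.1 * fderiv ℂ g p.1 w) -
          (fderiv ℂ φ (f p.1, g p.1, p.2) (1, 0, 0) * fderiv ℂ f p.1 w +
          fderiv ℂ φ (f p.1, g p.1, p.2) (0, 1, 0) * fderiv ℂ g p.1 w) *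
            (2 * g p.1 * fderiv ℂ g p.1 v) =
          2 * g p.1 * fderiv ℂ φ (f p.1, g p.1, p.2) (1, 0, 0) *
            (fderiv ℂ f p.1 v * fderiv ℂ g p.1 w - fderiv ℂ f p.1 w * fderiv ℂ g p.1 v) := by
        ring
      rw [e]
      exact mul_ne_zero (mul_ne_zero (mul_ne_zero two_ne_zero hgne) p6) hvw
    · -- `f = g = 0`
      have hg0 : g p.1 = 0 := by
        have h3 : g p.1 ^ 2 = 0 := hE
        exact pow_eq_zero_iff two_ne_zero |>.1 h3
      obtain ⟨q1, q2, ⟨q3, q3'⟩, q4⟩ := p7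
      have hff : f p.1 = 0 := by
        rw [hF, hg0, mul_zero, add_zero] at q3'
        exact (mul_eq_zero.1 q3'.symm).resolve_left q3
      -- the covectors are independent of the parameter
      have hcov : ∀ t ∈ ball (0 : ℂ) δ,
          ∃ v, fderiv ℂ f p.1 v + κ₀ t * fderiv ℂ g p.1 v ≠ 0 := by
        intro t ht
        obtain ⟨k1, ⟨-, -, k2, k3⟩, -⟩ := hbox (p.1, t) (hdist p.1 p9.1 t ht)
        obtain ⟨v, hv⟩ := k1 hne
        refine ⟨v, fun hc => hv ?_⟩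
        rw [dX_apply, k3]
        simp only [hff, hg0, mul_zero, add_zero, zero_add]
        rw [hκc p.1 hff hg0, hc, mul_zero]
      obtain ⟨ν', hν1, hν2⟩ := huni (fderiv ℂ f p.1) (fderiv ℂ g p.1) hcov p.2 p9.2.2
      have hdXν : dX (pull f g φ) p ((a p)⁻¹ • ν') = 1 := by
        rw [map_smul, smul_eq_mul, dX_apply, q4]
        simp only [hff, hg0, mul_zero, add_zero, zero_add]
        have h3 : κ p = κ₀ p.2 := hκc p.1 hff hg0 p.2
        rw [h3, hν1, mul_one, inv_mul_cancel₀ q3]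
      have hκt : fderiv ℂ κ p (0, 1) = deriv κ₀ p.2 := by
        have h3 : HasFDerivAt (fun t : ℂ => (p.1, t)) (ContinuousLinearMap.inr ℂ (Fin n → ℂ) ℂ)
            p.2 := hasFDerivAt_prodMk_right p.1 p.2
        have h4 : HasFDerivAt κ (fderiv ℂ κ p) ((fun t : ℂ => (p.1, t)) p.2) :=
          q2.differentiableAt.hasFDerivAt
        have h5 := (HasFDerivAt.comp p.2 h4 h3).hasDerivAt
        have h6 : (κ ∘ fun t : ℂ => (p.1, t)) = κ₀ := by
          funext t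
          exact hκc p.1 hff hg0 t
        rw [h6] at h5
        rw [h5.deriv]
        simp
      refine logField_of (F := pull f g φ) (a := a) (κ := κ) (g := g) (p₀ := p) (M := M)
        (K := 2 * M + 1) (by positivity) (by linarith) p10 q1 q2 p4 q3 hne hF hg0 ?_ hdXν ?_
      · filter_upwards [p8] with q hq
        obtain ⟨-, -, ⟨k1, k2⟩, k3⟩ := hq
        rw [k3, k2]
        simp only [map_zero, mul_zero, add_zero, zero_add]
        field_simp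
      · rw [map_smul, smul_eq_mul, hκt]
        have e : a p * deriv κ₀ p.2 * ((a p)⁻¹ * fderiv ℂ g p.1 ν') =
            deriv κ₀ p.2 * fderiv ℂ g p.1 ν' := by
          field_simp
        rw [e]
        exact hν2

end Vale.Agent.P298.H119
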