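import Vale.Agent.P298.H119.Pencil
import Vale.Agent.P298.H119.Germ

namespace Vale.Agent.P298.H119

open Set Metric Filter Topology Vale.Agent.P298
open scoped NNReal ContDiff Manifold

variable {n : ℕ} {f g : (Fin n → ℂ) → ℂ}

/-- The trivialization fixes the zeros of the controlling function. -/
theorem isTriv_of_logTriv {r : ℝ} {φ : ℂ × ℂ × ℂ → ℂ} {E : (Fin n → ℂ) × ℂ → ℂ}
    (hφ : ∀ t ∈ ball (0 : ℂ) r, φ (0, 0, t) = 0)
    (hE : ∀ p : (Fin n → ℂ) × ℂ, f p.1 = 0 → g p.1 = 0 → E p = 0)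
    (h : LogTriv r (pull f g φ) E) :
    ∃ δ : ℝ, 0 < δ ∧ δ ≤ r ∧ ∃ Φ, IsTriv δ (fun x t => φ (f x, g x, t)) Φ ∧
      ∀ p ∈ Φ.source, f p.1 = 0 → g p.1 = 0 → Φ p = p := by
  obtain ⟨δ, hδ, hδr, e, e1, e2, e3, e4, e5, e6⟩ := h
  refine ⟨δ, hδ, hδr, e, ⟨?_, ?_, ?_⟩, ?_⟩
  · intro p hp
    rw [mem_ball, dist_zero_right]
    exact e1 p hp
  · intro t ht
    rw [mem_ball, dist_zero_right] at ht
    exact ⟨e2 t ht, e4 t⟩
  · intro p hp
    refine ⟨e3 p, ?_⟩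
    have := e5 p hp
    simp only [pull] at this
    rw [e3 p] at this
    exact this
  · intro p hp h1 h2
    refine e6 p hp fun τ hτ => ⟨?_, hE _ h1 h2⟩
    simp only [pull, h1, h2]
    refine hφ _ ?_
    rw [mem_ball, dist_zero_right, norm_smul, Real.norm_eq_abs, abs_of_nonneg hτ.1]
    have h3 := e1 p hp
    have h4 := mul_le_of_le_one_left (norm_nonneg p.2) hτ.2
    linarith

/-- **Families of functions of two fixed functions**, near a parameter where the outer function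
is a submersion. -/
theorem isTriv_of_grad {r : ℝ} (hr : 0 < r) {φ : ℂ × ℂ × ℂ → ℂ}
    (hf : AnalyticAt ℂ f 0) (hg : AnalyticAt ℂ g 0) (f0 : f 0 = 0) (g0 : g 0 = 0)
    (hφ : AnalyticAt ℂ φ 0) (h0 : ∀ t ∈ ball (0 : ℂ) r, φ (0, 0, t) = 0) {μ : ℕ}
    (hμ : ∀ t ∈ ball (0 : ℂ) r, Milnor (fun x => φ (f x, g x, t)) μ)
    (hgr : fderiv ℂ φ 0 (1, 0, 0) ≠ 0 ∨ fderiv ℂ φ 0 (0, 1, 0) ≠ 0) :
    ∃ δ : ℝ, 0 < δ ∧ δ ≤ r ∧ ∃ Φ, IsTriv δ (fun x t => φ (f x, g x, t)) Φ ∧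
      ∀ p ∈ Φ.source, f p.1 = 0 → g p.1 = 0 → Φ p = p := by
  have hnr : ∀ᶠ t in 𝓝 (0 : ℂ), t ∈ ball (0 : ℂ) r := isOpen_ball.mem_nhds (mem_ball_self hr)
  rcases hgr with hu | hv
  · exact isTriv_of_logTriv h0 (fun p _ h => by rw [h]; norm_num)
      (logTriv_of_u hr hf hg f0 g0 hφ (hnr.mono h0) (hnr.mono hμ) hu)
  · -- exchange the two functions
    set sw : ℂ × ℂ × ℂ →L[ℂ] ℂ × ℂ × ℂ :=
      ((ContinuousLinearMap.fst ℂ ℂ ℂ).comp (ContinuousLinearMap.snd ℂ ℂ (ℂ × ℂ))).prod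
        ((ContinuousLinearMap.fst ℂ ℂ (ℂ × ℂ)).prod
          ((ContinuousLinearMap.snd ℂ ℂ ℂ).comp (ContinuousLinearMap.snd ℂ ℂ (ℂ × ℂ)))) with hsw
    have hswa : ∀ u v t : ℂ, sw (u, v, t) = (v, u, t) := fun u v t => rfl
    have hsw0 : sw 0 = 0 := map_zero sw
    have hφs : AnalyticAt ℂ (fun q => φ (sw q)) 0 := by
      have h1 : AnalyticAt ℂ φ (sw 0) := by rw [hsw0]; exact hφ
      exact AnalyticAt.comp (g := φ) (f := sw) h1 (sw.analyticAt 0)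
    have hder : fderiv ℂ (fun q => φ (sw q)) 0 (1, 0, 0) = fderiv ℂ φ 0 (0, 1, 0) := by
      have h1 : HasFDerivAt φ (fderiv ℂ φ 0) (sw 0) := by
        rw [hsw0]
        exact hφ.differentiableAt.hasFDerivAt
      have h2 := HasFDerivAt.comp (g := φ) (f := sw) (0 : ℂ × ℂ × ℂ) h1 sw.hasFDerivAt
      have h3 : fderiv ℂ (fun q => φ (sw q)) 0 = (fderiv ℂ φ 0).comp sw := h2.fderiv
      rw [h3]
      rfl
    have h4 := logTriv_of_u (φ := fun q => φ (sw q)) hr hg hf g0 f0 hφs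
      (hnr.mono fun t ht => h0 t ht) (μ := μ) (hnr.mono fun t ht => hμ t ht)
      (by rw [hder]; exact hv)
    exact isTriv_of_logTriv (f := f) (g := g) h0 (fun p h _ => by rw [h]; norm_num) h4

variable {Λ : Type*} [NormedAddCommGroup Λ] [NormedSpace ℂ Λ]

/-- Restriction to a line through a parameter. -/
theorem analyticAt_line {φ : ℂ × ℂ × Λ → ℂ} {l₀ w : Λ} {s : ℂ}
    (hφ : AnalyticAt ℂ φ (0, 0, l₀ + s • w)) :
    AnalyticAt ℂ (fun q : ℂ × ℂ × ℂ => φ (q.1, q.2.1, l₀ + q.2.2 • w)) (0, 0, s) := by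
  have h1 : AnalyticAt ℂ (fun q : ℂ × ℂ × ℂ => (q.1, q.2.1, l₀ + q.2.2 • w)) (0, 0, s) :=
    analyticAt_fst.prod ((analyticAt_fst.comp analyticAt_snd).prod
      (analyticAt_const.add ((analyticAt_snd.comp analyticAt_snd).smul analyticAt_const)))
  exact AnalyticAt.comp (g := φ) (f := fun q : ℂ × ℂ × ℂ => (q.1, q.2.1, l₀ + q.2.2 • w)) hφ h1

/-- The gradient condition for the outer function. -/
def GradCond (n : ℕ) : Prop :=
  ∀ (f g : (Fin n → ℂ) → ℂ) (ψ : ℂ × ℂ → ℂ), AnalyticAt ℂ f 0 → AnalyticAt ℂ g 0 → f 0 = 0 →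
    g 0 = 0 → AnalyticAt ℂ ψ 0 → ψ 0 = 0 → ∀ μ : ℕ, Milnor (fun x => ψ (f x, g x)) μ →
    fderiv ℂ ψ 0 ≠ 0

theorem grad_of_gradCond (hn : GradCond n) (hf : AnalyticAt ℂ f 0) (hg : AnalyticAt ℂ g 0)
    (f0 : f 0 = 0) (g0 : g 0 = 0) {φ : ℂ × ℂ × ℂ → ℂ} (hφ : AnalyticAt ℂ φ 0)
    (h0 : φ (0, 0, 0) = 0) {μ : ℕ} (hμ : Milnor (fun x => φ (f x, g x, 0)) μ) :
    fderiv ℂ φ 0 (1, 0, 0) ≠ 0 ∨ fderiv ℂ φ 0 (0, 1, 0) ≠ 0 := by
  by_contra hc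
  push Not at hc
  set i : ℂ × ℂ →L[ℂ] ℂ × ℂ × ℂ := (ContinuousLinearMap.fst ℂ ℂ ℂ).prod
    ((ContinuousLinearMap.snd ℂ ℂ ℂ).prod 0) with hi
  have hia : ∀ u v : ℂ, i (u, v) = (u, v, 0) := fun u v => rfl
  have hi0 : i 0 = 0 := map_zero i
  have hψ : AnalyticAt ℂ (fun q => φ (i q)) 0 := by
    have h1 : AnalyticAt ℂ φ (i 0) := by rw [hi0]; exact hφ
    exact AnalyticAt.comp (g := φ) (f := i) h1 (i.analyticAt 0)
  have h1 := hn f g (fun q => φ (i q)) hf hg f0 g0 hψ h0 μ hμ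
  apply h1
  have h2 : HasFDerivAt φ (fderiv ℂ φ 0) (i 0) := by
    rw [hi0]
    exact hφ.differentiableAt.hasFDerivAt
  have h3 := HasFDerivAt.comp (g := φ) (f := i) (0 : ℂ × ℂ) h2 i.hasFDerivAt
  have h4 : fderiv ℂ (fun q => φ (i q)) 0 = (fderiv ℂ φ 0).comp i := h3.fderiv
  rw [h4]
  ext
  · exact hc.1
  · exact hc.2

/-- Local triviality at every parameter and in every direction. -/
theorem isTriv_line (hn : GradCond n) (hf : AnalyticAt ℂ f 0) (hg : AnalyticAt ℂ g 0)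
    (f0 : f 0 = 0) (g0 : g 0 = 0) {φ : ℂ × ℂ × Λ → ℂ} {l₀ w : Λ} {r : ℝ} (hr : 0 < r)
    (hφ : ∀ s ∈ ball (0 : ℂ) r, AnalyticAt ℂ φ (0, 0, l₀ + s • w) ∧ φ (0, 0, l₀ + s • w) = 0)
    {μ : ℕ} (hμ : ∀ s ∈ ball (0 : ℂ) r, Milnor (fun x => φ (f x, g x, l₀ + s • w)) μ) :
    ∃ δ : ℝ, 0 < δ ∧ δ ≤ r ∧ ∃ Φ, IsTriv δ (fun x s => φ (f x, g x, l₀ + s • w)) Φ ∧
      ∀ p ∈ Φ.source, f p.1 = 0 → g p.1 = 0 → Φ p = p := by
  have h0r : (0 : ℂ) ∈ ball (0 : ℂ) r := mem_ball_self hr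
  have h1 : AnalyticAt ℂ (fun q : ℂ × ℂ × ℂ => φ (q.1, q.2.1, l₀ + q.2.2 • w)) 0 :=
    analyticAt_line (hφ 0 h0r).1
  exact isTriv_of_grad (φ := fun q : ℂ × ℂ × ℂ => φ (q.1, q.2.1, l₀ + q.2.2 • w)) hr hf hg f0 g0
    h1 (fun t ht => (hφ t ht).2) (fun t ht => hμ t ht)
    (grad_of_gradCond hn hf hg f0 g0 h1 (hφ 0 h0r).2 (hμ 0 h0r))

/-- Topological right-equivalence along a disk. -/
theorem rightEquiv_disk (hn : GradCond n) (hf : AnalyticAt ℂ f 0) (hg : AnalyticAt ℂ g 0)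
    (f0 : f 0 = 0) (g0 : g 0 = 0) {φ : ℂ × ℂ × Λ → ℂ} {l₀ w : Λ} {r : ℝ}
    (hφ : ∀ s ∈ ball (0 : ℂ) r, AnalyticAt ℂ φ (0, 0, l₀ + s • w) ∧ φ (0, 0, l₀ + s • w) = 0)
    {μ : ℕ} (hμ : ∀ s ∈ ball (0 : ℂ) r, Milnor (fun x => φ (f x, g x, l₀ + s • w)) μ) :
    ∀ s ∈ ball (0 : ℂ) r, ∀ s' ∈ ball (0 : ℂ) r,
      RightEquiv (fun x => φ (f x, g x, l₀ + s • w)) (fun x => φ (f x, g x, l₀ + s' • w)) := by
  have hloc : ∀ s₀ ∈ ball (0 : ℂ) r, ∀ᶠ s in 𝓝[ball (0 : ℂ) r] s₀,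
      RightEquiv (fun x => φ (f x, g x, l₀ + s₀ • w)) (fun x => φ (f x, g x, l₀ + s • w)) := by
    intro s₀ hs₀
    obtain ⟨ρ, hρ, hball⟩ := Metric.isOpen_iff.1 isOpen_ball s₀ hs₀
    have hmem : ∀ s ∈ ball (0 : ℂ) ρ, s₀ + s ∈ ball (0 : ℂ) r := by
      intro s hs
      apply hball
      rw [mem_ball, dist_eq_norm]
      rw [mem_ball, dist_zero_right] at hs
      simpa using hs
    have e1 : ∀ s : ℂ, l₀ + s₀ • w + s • w = l₀ + (s₀ + s) • w := by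
      intro s
      rw [add_smul, add_assoc]
    obtain ⟨δ, hδ, -, Φ, hΦ, -⟩ := isTriv_line (l₀ := l₀ + s₀ • w) (w := w) hn hf hg f0 g0 hρ
      (fun s hs => by rw [e1]; exact hφ _ (hmem s hs))
      (fun s hs => by rw [e1]; exact hμ _ (hmem s hs))
    have hnear : ∀ᶠ s in 𝓝 s₀, s - s₀ ∈ ball (0 : ℂ) δ := by
      have hc : ContinuousAt (fun s : ℂ => s - s₀) s₀ := by fun_prop
      refine hc.eventually_mem ?_
      rw [sub_self]
      exact ball_mem_nhds _ hδ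
    refine eventually_nhdsWithin_of_eventually_nhds ?_
    filter_upwards [hnear] with s hs
    have h5 := rightEquiv_of_isTriv hΦ hs
    have e2 : l₀ + s₀ • w + (0 : ℂ) • w = l₀ + s₀ • w := by rw [zero_smul, add_zero]
    have e3 : l₀ + s₀ • w + (s - s₀) • w = l₀ + s • w := by
      rw [e1]; congr 2; ring
    simp only [e2, e3] at h5
    exact h5
  intro s hs s' hs'
  refine (convex_ball (0 : ℂ) r).isPreconnected.induction₂'
    (fun s s' => RightEquiv (fun x => φ (f x, g x, l₀ + s • w))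
      (fun x => φ (f x, g x, l₀ + s' • w)))
    (fun z hz => ?_) (fun a b c _ _ _ hab hbc => hab.trans hbc) hs hs'
  filter_upwards [hloc z hz] with y hy
  exact ⟨hy, hy.symm⟩

/-- Topological right-equivalence over connected open sets of parameters. -/
theorem rightEquiv_of_connected (hn : GradCond n) (hf : AnalyticAt ℂ f 0)
    (hg : AnalyticAt ℂ g 0) (f0 : f 0 = 0) (g0 : g 0 = 0) {φ : ℂ × ℂ × Λ → ℂ} {T : Set Λ}
    (hT : IsOpen T) (hTc : IsPreconnected T)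
    (hφ : ∀ l ∈ T, AnalyticAt ℂ φ (0, 0, l) ∧ φ (0, 0, l) = 0) {μ : ℕ}
    (hμ : ∀ l ∈ T, Milnor (fun x => φ (f x, g x, l)) μ) :
    ∀ l ∈ T, ∀ l' ∈ T, RightEquiv (fun x => φ (f x, g x, l)) (fun x => φ (f x, g x, l')) := by
  intro l hl l' hl'
  refine hTc.induction₂' (fun l l' => RightEquiv (fun x => φ (f x, g x, l))
      (fun x => φ (f x, g x, l')))
    (fun z hz => ?_) (fun a b c _ _ _ hab hbc => hab.trans hbc) hl hl'
  obtain ⟨ρ, hρ, hball⟩ := Metric.isOpen_iff.1 hT z hz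
  refine eventually_nhdsWithin_of_eventually_nhds ?_
  filter_upwards [ball_mem_nhds z (half_pos hρ)] with y hy
  rw [mem_ball, dist_eq_norm] at hy
  have hmem : ∀ s ∈ ball (0 : ℂ) 2, z + s • (y - z) ∈ T := by
    intro s hs
    apply hball
    rw [mem_ball, dist_zero_right] at hs
    rw [mem_ball, dist_eq_norm, add_sub_cancel_left, norm_smul]
    have h1 := norm_nonneg s
    have h2 := norm_nonneg (y - z)
    nlinarith
  have h3 := rightEquiv_disk (l₀ := z) (w := y - z) (r := 2) hn hf hg f0 g0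
    (fun s hs => hφ _ (hmem s hs)) (fun s hs => hμ _ (hmem s hs)) 0 (by simp) 1
    (by rw [mem_ball, dist_zero_right, norm_one]; norm_num)
  have e1 : z + (0 : ℂ) • (y - z) = z := by rw [zero_smul, add_zero]
  have e2 : z + (1 : ℂ) • (y - z) = y := by rw [one_smul]; abel
  rw [e1, e2] at h3
  exact ⟨h3, h3.symm⟩

end Vale.Agent.P298.H119
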