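import Vale.Agent.P298.H119.LogPencil

namespace Vale.Agent.P298.H119

open Set Metric Filter Topology Vale.Agent.P298
open scoped NNReal ContDiff Manifold

section Germ

variable {X : Type*} [NormedAddCommGroup X] [NormedSpace ℂ X] [FiniteDimensional ℂ X]

/-- The conclusion of the theorems on logarithmically controlled families. -/
def LogTriv (r : ℝ) (F E : X × ℂ → ℂ) : Prop :=
  ∃ δ : ℝ, 0 < δ ∧ δ ≤ r ∧ ∃ e : OpenPartialHomeomorph (X × ℂ) (X × ℂ),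
      (∀ p ∈ e.source, ‖p.2‖ < δ) ∧ (∀ t : ℂ, ‖t‖ < δ → (0, t) ∈ e.source) ∧
      (∀ p, (e p).2 = p.2) ∧ (∀ t, e (0, t) = (0, t)) ∧
      (∀ p ∈ e.source, F (e p) = F (p.1, 0)) ∧
      (∀ p ∈ e.source, (∀ τ ∈ Icc (0 : ℝ) 1, F (p.1, τ • p.2) = 0 ∧ E (p.1, τ • p.2) = 0) →
        e p = p)

/-- The germ form of the theorem on logarithmically controlled families. -/
theorem triv_log_of_eventually {F E : X × ℂ → ℂ} {r K : ℝ} (hr : 0 < r) (hK : 0 ≤ K)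
    (aF : AnalyticAt ℂ F (0, 0)) (aE : AnalyticAt ℂ E (0, 0))
    (hz : ∀ᶠ t in 𝓝 (0 : ℂ), F (0, t) = 0 ∧ E (0, t) = 0)
    (hg : ∀ᶠ p in 𝓝 ((0 : X), (0 : ℂ)), p.1 ≠ 0 → Function.Surjective (dX F p) ∧
      (F p = 0 → E p ≠ 0 → Function.Surjective ((dX F p).prod (dX E p))) ∧
      (F p = 0 → E p = 0 → LogField K F E p)) : LogTriv r F E := by
  have hall := (aF.eventually_analyticAt.and aE.eventually_analyticAt).and hg
  obtain ⟨ε, hε, hball⟩ := Metric.eventually_nhds_iff_ball.1 hall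
  obtain ⟨ε', hε', hball'⟩ := Metric.eventually_nhds_iff_ball.1 hz
  have hexp : ∀ᶠ s in 𝓝 (0 : ℝ), Real.exp (K * s) < 2 := by
    have hc : ContinuousAt (fun s : ℝ => Real.exp (K * s)) 0 := by fun_prop
    refine hc.eventually (gt_mem_nhds ?_)
    simp
  obtain ⟨ε'', hε'', hball''⟩ := Metric.eventually_nhds_iff_ball.1 hexp
  set ρ : ℝ := min (min (ε / 2) (ε' / 2)) (min (r / 2) (ε'' / 2)) with hρ
  have hρ0 : 0 < ρ := lt_min (lt_min (by linarith) (by linarith))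
    (lt_min (by linarith) (by linarith))
  have hρε : ρ < ε := (min_le_left _ _).trans_lt ((min_le_left _ _).trans_lt (by linarith))
  have hρε' : ρ < ε' := (min_le_left _ _).trans_lt ((min_le_right _ _).trans_lt (by linarith))
  have hρr : ρ < r := (min_le_right _ _).trans_lt ((min_le_left _ _).trans_lt (by linarith))
  have hρε'' : ρ < ε'' := (min_le_right _ _).trans_lt ((min_le_right _ _).trans_lt (by linarith))
  have hbox : ∀ p : X × ℂ, ‖p.1‖ ≤ ρ → ‖p.2‖ ≤ ρ → p ∈ ball ((0 : X), (0 : ℂ)) ε := by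
    intro p h1 h2
    rw [mem_ball, dist_eq_norm]
    refine lt_of_le_of_lt ?_ hρε
    rw [Prod.norm_def]
    simpa using ⟨h1, h2⟩
  have hmem : ∀ p ∈ (closedBall (0 : X) ρ ×ˢ closedBall (0 : ℂ) ρ),
      p ∈ ball ((0 : X), (0 : ℂ)) ε := by
    rintro p ⟨h1, h2⟩
    exact hbox p (by simpa using h1) (by simpa using h2)
  have ht : ∀ t : ℂ, ‖t‖ ≤ ρ → t ∈ ball (0 : ℂ) ε' := by
    intro t h
    rw [mem_ball, dist_zero_right]
    linarith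
  have hKρ : Real.exp (K * ρ) < 2 := hball'' ρ (by
    rw [mem_ball, dist_zero_right, Real.norm_eq_abs, abs_of_pos hρ0]
    exact hρε'')
  obtain ⟨e, e1, e2, e3, e4, e5, e6⟩ := trivial_of_log (F := F) (E := E) hρ0 hρ0 hK hKρ
    (fun p hp => (hball p (hmem p hp)).1.1) (fun p hp => (hball p (hmem p hp)).1.2)
    (fun t h => (hball' t (ht t h)).1) (fun t h => (hball' t (ht t h)).2)
    (fun p h1 h2 h3 => ((hball p (hbox p h1 h2)).2 h3).1)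
    (fun p h1 h2 h3 h4 h5 => ((hball p (hbox p h1 h2)).2 h3).2.1 h4 h5)
    (fun p h1 h2 h3 h4 h5 => ((hball p (hbox p h1 h2)).2 h3).2.2 h4 h5)
  exact ⟨ρ / 2, by linarith, by linarith, e, e1, e2, e3, e4, e5, e6⟩

end Germ

variable {n : ℕ}

/-- The family `φ(f(x), g(x), t)`. -/
def pull (f g : (Fin n → ℂ) → ℂ) (φ : ℂ × ℂ × ℂ → ℂ) : (Fin n → ℂ) × ℂ → ℂ :=
  fun p => φ (f p.1, g p.1, p.2)

section Pull

variable {f g : (Fin n → ℂ) → ℂ} {φ : ℂ × ℂ × ℂ → ℂ}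

theorem analyticAt_pull {p : (Fin n → ℂ) × ℂ} (hf : AnalyticAt ℂ f p.1) (hg : AnalyticAt ℂ g p.1)
    (hφ : AnalyticAt ℂ φ (f p.1, g p.1, p.2)) : AnalyticAt ℂ (pull f g φ) p := by
  have h1 : AnalyticAt ℂ (fun q : (Fin n → ℂ) × ℂ => f q.1) p := hf.comp analyticAt_fst
  have h2 : AnalyticAt ℂ (fun q : (Fin n → ℂ) × ℂ => g q.1) p := hg.comp analyticAt_fst
  exact AnalyticAt.comp (g := φ) (f := fun q : (Fin n → ℂ) × ℂ => (f q.1, g q.1, q.2)) hφ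
    (h1.prod (h2.prod analyticAt_snd))

/-- The chain rule. -/
theorem dX_pull {p : (Fin n → ℂ) × ℂ} (hf : AnalyticAt ℂ f p.1) (hg : AnalyticAt ℂ g p.1)
    (hφ : AnalyticAt ℂ φ (f p.1, g p.1, p.2)) (v : Fin n → ℂ) :
    dX (pull f g φ) p v = fderiv ℂ φ (f p.1, g p.1, p.2) (1, 0, 0) * fderiv ℂ f p.1 v +
      fderiv ℂ φ (f p.1, g p.1, p.2) (0, 1, 0) * fderiv ℂ g p.1 v := by
  have h1 : HasFDerivAt (fun q : (Fin n → ℂ) × ℂ => f q.1)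
      ((fderiv ℂ f p.1).comp (ContinuousLinearMap.fst ℂ _ ℂ)) p :=
    hf.differentiableAt.hasFDerivAt.comp p hasFDerivAt_fst
  have h2 : HasFDerivAt (fun q : (Fin n → ℂ) × ℂ => g q.1)
      ((fderiv ℂ g p.1).comp (ContinuousLinearMap.fst ℂ _ ℂ)) p :=
    hg.differentiableAt.hasFDerivAt.comp p hasFDerivAt_fst
  have h3 : HasFDerivAt φ (fderiv ℂ φ (f p.1, g p.1, p.2)) (f p.1, g p.1, p.2) :=
    hφ.differentiableAt.hasFDerivAt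
  have h4 := HasFDerivAt.comp (f := fun q : (Fin n → ℂ) × ℂ => (f q.1, g q.1, q.2)) p h3
    (h1.prodMk (h2.prodMk hasFDerivAt_snd))
  have h5 : fderiv ℂ (pull f g φ) p = _ := h4.fderiv
  rw [dX_apply, h5]
  have e1 : ((fderiv ℂ f p.1 v, fderiv ℂ g p.1 v, (0 : ℂ)) : ℂ × ℂ × ℂ) =
      (fderiv ℂ f p.1 v) • ((1, 0, 0) : ℂ × ℂ × ℂ) + (fderiv ℂ g p.1 v) • ((0, 1, 0) : ℂ × ℂ × ℂ) := by
    ext <;> simp
  change fderiv ℂ φ (f p.1, g p.1, p.2) (fderiv ℂ f p.1 v, fderiv ℂ g p.1 v, (0 : ℂ)) = _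
  rw [e1, map_add, map_smul, map_smul, smul_eq_mul, smul_eq_mul]
  ring

end Pull

/-- Division by the ideal `(u, v)`. -/
theorem exists_uv {φ : ℂ × ℂ × ℂ → ℂ} (hφ : AnalyticAt ℂ φ 0)
    (h0 : ∀ᶠ t in 𝓝 (0 : ℂ), φ (0, 0, t) = 0) :
    ∃ A B : ℂ × ℂ × ℂ → ℂ, AnalyticAt ℂ A 0 ∧ AnalyticAt ℂ B 0 ∧
      (∀ᶠ q in 𝓝 (0 : ℂ × ℂ × ℂ), φ q = q.1 * A q + q.2.1 * B q) ∧
      A 0 = fderiv ℂ φ 0 (1, 0, 0) := by
  let π : (ℂ × ℂ × ℂ) →L[ℂ] (ℂ × ℂ × ℂ) :=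
    (ContinuousLinearMap.inr ℂ ℂ (ℂ × ℂ)).comp ((ContinuousLinearMap.inr ℂ ℂ ℂ).comp
      ((ContinuousLinearMap.snd ℂ ℂ ℂ).comp (ContinuousLinearMap.snd ℂ ℂ (ℂ × ℂ))))
  have hπa : ∀ v, π v = (0, 0, v.2.2) := fun v => rfl
  have hπ : ‖π‖ ≤ 1 := by
    refine ContinuousLinearMap.opNorm_le_bound _ zero_le_one fun v => ?_
    rw [hπa, one_mul, Prod.norm_def, Prod.norm_def, Prod.norm_def, Prod.norm_def]
    simp
  obtain ⟨Q, hQ, h⟩ := exists_division π hπ hφ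
  have hA : AnalyticAt ℂ (fun q => Q q (1, 0, 0)) 0 :=
    (ContinuousLinearMap.apply ℂ ℂ ((1, 0, 0) : ℂ × ℂ × ℂ)).analyticAt _ |>.comp hQ
  have hB : AnalyticAt ℂ (fun q => Q q (0, 1, 0)) 0 :=
    (ContinuousLinearMap.apply ℂ ℂ ((0, 1, 0) : ℂ × ℂ × ℂ)).analyticAt _ |>.comp hQ
  have ht : Tendsto (fun q : ℂ × ℂ × ℂ => q.2.2) (𝓝 0) (𝓝 0) :=
    Continuous.tendsto' (by fun_prop) _ _ rfl
  have hev : ∀ᶠ q in 𝓝 (0 : ℂ × ℂ × ℂ), φ q = q.1 * Q q (1, 0, 0) + q.2.1 * Q q (0, 1, 0) := by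
    filter_upwards [h, ht.eventually h0] with q h1 h2
    have e1 : (0 : ℂ × ℂ × ℂ) + π (q - 0) = (0, 0, q.2.2) := by
      rw [hπa]; simp
    rw [e1, h2, sub_zero] at h1
    have e2 : q - ((0, 0, q.2.2) : ℂ × ℂ × ℂ) = q.1 • ((1, 0, 0) : ℂ × ℂ × ℂ) +
        q.2.1 • ((0, 1, 0) : ℂ × ℂ × ℂ) := by
      ext <;> simp
    rw [h1, e2, map_add, map_smul, map_smul, smul_eq_mul, smul_eq_mul]
  refine ⟨fun q => Q q (1, 0, 0), fun q => Q q (0, 1, 0), hA, hB, hev, ?_⟩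
  -- the derivative in the direction of `u`
  have hl : HasFDerivAt (fun u : ℂ => ((u, 0, 0) : ℂ × ℂ × ℂ))
      (ContinuousLinearMap.inl ℂ ℂ (ℂ × ℂ)) 0 := hasFDerivAt_prodMk_left (0 : ℂ) ((0 : ℂ), (0 : ℂ))
  have h1 : HasDerivAt (fun u : ℂ => φ (u, 0, 0)) (fderiv ℂ φ 0 (1, 0, 0)) 0 := by
    have h2 : HasFDerivAt φ (fderiv ℂ φ 0) ((fun u : ℂ => ((u, 0, 0) : ℂ × ℂ × ℂ)) 0) :=
      hφ.differentiableAt.hasFDerivAt
    exact (HasFDerivAt.comp (0 : ℂ) h2 hl).hasDerivAt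
  have h3 : HasDerivAt (fun u : ℂ => u * Q (u, 0, 0) (1, 0, 0)) (Q 0 (1, 0, 0)) 0 := by
    have h4 : HasFDerivAt (fun q => Q q (1, 0, 0)) (fderiv ℂ (fun q => Q q (1, 0, 0)) 0)
        ((fun u : ℂ => ((u, 0, 0) : ℂ × ℂ × ℂ)) 0) := hA.differentiableAt.hasFDerivAt
    have h5 : HasDerivAt (fun u : ℂ => Q (u, 0, 0) (1, 0, 0))
        (fderiv ℂ (fun q => Q q (1, 0, 0)) 0 (1, 0, 0)) 0 :=
      (HasFDerivAt.comp (g := fun q : ℂ × ℂ × ℂ => Q q (1, 0, 0)) (0 : ℂ) h4 hl).hasDerivAt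
    have h6 : HasDerivAt (fun u : ℂ => u * Q (u, 0, 0) (1, 0, 0))
        (1 * Q (0, 0, 0) (1, 0, 0) + 0 * fderiv ℂ (fun q => Q q (1, 0, 0)) 0 (1, 0, 0)) 0 :=
      (hasDerivAt_id (0 : ℂ)).mul h5
    refine h6.congr_deriv ?_
    rw [one_mul, zero_mul, add_zero]
    rfl
  have htl : Tendsto (fun u : ℂ => ((u, 0, 0) : ℂ × ℂ × ℂ)) (𝓝 0) (𝓝 0) :=
    Continuous.tendsto' (by fun_prop) _ _ rfl
  have h7 : (fun u : ℂ => φ (u, 0, 0)) =ᶠ[𝓝 0] fun u : ℂ => u * Q (u, 0, 0) (1, 0, 0) := by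
    filter_upwards [htl.eventually hev] with u hu
    rw [hu]
    simp
  exact ((h3.congr_of_eventuallyEq h7).unique h1)

end Vale.Agent.P298.H119
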