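import Vale.Agent.P298.H119.Flag
import Mathlib.Analysis.ODE.Gronwall

namespace Vale.Agent.P298.H119

open Set Metric Filter Topology Vale.Agent.P298
open scoped NNReal ContDiff Manifold

section Barrier

variable {Y : Type*} [NormedAddCommGroup Y] [NormedSpace ℝ Y]

/-- Gronwall's inequality on a segment. -/
theorem gronwall_seg {f f' : ℝ → Y} {s₀ s₁ K : ℝ} (h01 : s₀ ≤ s₁)
    (hf : ∀ s ∈ Icc s₀ s₁, HasDerivWithinAt f (f' s) (Icc s₀ s₁) s)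
    (hb : ∀ s ∈ Icc s₀ s₁, ‖f' s‖ ≤ K * ‖f s‖) :
    ‖f s₁‖ ≤ ‖f s₀‖ * Real.exp (K * (s₁ - s₀)) := by
  have h := norm_le_gronwallBound_of_norm_deriv_right_le (f := f) (f' := f') (δ := ‖f s₀‖)
    (K := K) (ε := 0) (a := s₀) (b := s₁) (HasDerivWithinAt.continuousOn hf)
    (fun s hs => (hf s ⟨hs.1, hs.2.le⟩).mono_of_mem_nhdsWithin (Icc_mem_nhdsGE_of_mem hs)) le_rfl
    (fun s hs => by rw [add_zero]; exact hb s ⟨hs.1, hs.2.le⟩) s₁ ⟨h01, le_rfl⟩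
  rwa [gronwallBound_ε0] at h

/-- A first exit argument. -/
theorem lt_zero_of_step {b : ℝ} {m : ℝ → ℝ} (hm : ContinuousOn m (Icc 0 b)) (h0 : m 0 < 0)
    (step : ∀ s₁ ∈ Ioc 0 b, (∀ s ∈ Ico 0 s₁, m s < 0) → m s₁ ≤ 0 → m s₁ ≠ 0) :
    ∀ s ∈ Icc 0 b, m s < 0 := by
  by_contra hc
  push Not at hc
  obtain ⟨s', hs', hs'm⟩ := hc
  have hcl : IsCompact (Icc 0 b ∩ {s | 0 ≤ m s}) :=
    isCompact_Icc.of_isClosed_subset (hm.preimage_isClosed_of_isClosed isClosed_Icc isClosed_Ici)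
      inter_subset_left
  obtain ⟨s₁, hs₁, hmin⟩ := hcl.exists_isLeast ⟨s', hs', hs'm⟩
  have hs₁m : 0 ≤ m s₁ := hs₁.2
  have hpos : 0 < s₁ := by
    rcases eq_or_lt_of_le hs₁.1.1 with h | h
    · rw [← h] at hs₁m
      linarith
    · exact h
  have hlt : ∀ s ∈ Ico 0 s₁, m s < 0 := by
    intro s hs
    by_contra hge
    have h1 := hmin (show s ∈ Icc 0 b ∩ {s | 0 ≤ m s} from
      ⟨⟨hs.1, hs.2.le.trans hs₁.1.2⟩, not_lt.1 hge⟩)
    exact absurd hs.2 (not_lt.2 h1)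
  have hle : m s₁ ≤ 0 := by
    have hc1 : ContinuousWithinAt m (Ico 0 s₁) s₁ :=
      (hm s₁ hs₁.1).mono fun s hs => ⟨hs.1, hs.2.le.trans hs₁.1.2⟩
    have : (𝓝[Ico 0 s₁] s₁).NeBot := by
      rw [nhdsWithin_Ico_eq_nhdsLT hpos]
      infer_instance
    exact le_of_tendsto hc1 (eventually_nhdsWithin_of_forall fun s hs => (hlt s hs).le)
  exact step s₁ ⟨hpos, hs₁.1.2⟩ hlt hle (le_antisymm hle hs₁m)

theorem no_touch {y y' : ℝ → Y} {K θ θ' s₁ : ℝ} (hs₁ : 0 < s₁) (hK : 0 ≤ K)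
    (hθ0 : 0 < θ') (hθ : θ / 2 < θ')
    (hy : ∀ s ∈ Icc 0 s₁, HasDerivWithinAt y (y' s) (Icc 0 s₁) s)
    (hlt : ∀ s ∈ Ico 0 s₁, ‖y s‖ < θ' * Real.exp (K * s))
    (hb : ∀ s ∈ Icc 0 s₁, θ / 2 ≤ ‖y s‖ → ‖y' s‖ ≤ K * ‖y s‖) :
    ‖y s₁‖ ≠ θ' * Real.exp (K * s₁) := by
  intro heq
  have h1 : θ / 2 < ‖y s₁‖ := by
    rw [heq]
    have : 1 ≤ Real.exp (K * s₁) := Real.one_le_exp (by positivity)
    nlinarith
  have hc : ContinuousWithinAt (fun s => ‖y s‖) (Icc 0 s₁) s₁ :=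
    (hy s₁ ⟨hs₁.le, le_rfl⟩).continuousWithinAt.norm
  have hev : ∀ᶠ s in 𝓝[Icc 0 s₁] s₁, θ / 2 < ‖y s‖ := hc.eventually (lt_mem_nhds h1)
  rw [eventually_nhdsWithin_iff, Metric.eventually_nhds_iff] at hev
  obtain ⟨δ, hδ, hδ'⟩ := hev
  set s₀ : ℝ := max 0 (s₁ - δ / 2) with hs₀
  have h2 : 0 ≤ s₀ := le_max_left _ _
  have h3 : s₀ < s₁ := max_lt hs₁ (by linarith)
  have h4 : s₁ - δ / 2 ≤ s₀ := le_max_right _ _
  have h5 : ∀ s ∈ Icc s₀ s₁, θ / 2 ≤ ‖y s‖ := by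
    intro s hs
    refine (hδ' ?_ ⟨h2.trans hs.1, hs.2⟩).le
    rw [Real.dist_eq, abs_lt]
    constructor <;> linarith [hs.1, hs.2]
  have hsub : Icc s₀ s₁ ⊆ Icc 0 s₁ := Icc_subset_Icc h2 le_rfl
  have h6 := gronwall_seg (f := y) (f' := y') (K := K) h3.le
    (fun s hs => (hy s (hsub hs)).mono hsub) (fun s hs => hb s (hsub hs) (h5 s hs))
  have h7 := hlt s₀ ⟨h2, h3⟩
  have h8 : θ' * Real.exp (K * s₀) * Real.exp (K * (s₁ - s₀)) = θ' * Real.exp (K * s₁) := by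
    rw [mul_assoc, ← Real.exp_add]
    ring_nf
  have h9 : ‖y s₀‖ * Real.exp (K * (s₁ - s₀)) <
      θ' * Real.exp (K * s₀) * Real.exp (K * (s₁ - s₀)) :=
    mul_lt_mul_of_pos_right h7 (Real.exp_pos _)
  rw [h8, ← heq] at h9
  linarith

/-- The barrier argument for quasi-invariant neighbourhoods. -/
theorem barrier_quasi {b K β ε β' ε' : ℝ} {e e' : ℝ → ℂ} {x x' : ℝ → Y}
    (hK : 0 ≤ K) (hβ0 : 0 < β') (hε0 : 0 < ε') (hβ : β / 2 < β') (hε : ε / 2 < ε')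
    (hβ2 : β' * Real.exp (K * b) ≤ 2 * β) (hε2 : ε' * Real.exp (K * b) ≤ 2 * ε)
    (he : ∀ s ∈ Icc 0 b, HasDerivWithinAt e (e' s) (Icc 0 b) s)
    (hx : ∀ s ∈ Icc 0 b, HasDerivWithinAt x (x' s) (Icc 0 b) s)
    (h1 : ∀ s ∈ Icc 0 b, β / 2 ≤ ‖e s‖ → ‖e s‖ ≤ 2 * β → ‖x s‖ ≤ 2 * ε → ‖e' s‖ ≤ K * ‖e s‖)
    (h2 : ∀ s ∈ Icc 0 b, ‖e s‖ ≤ 2 * β → ε / 2 ≤ ‖x s‖ → ‖x s‖ ≤ 2 * ε → ‖x' s‖ ≤ K * ‖x s‖)
    (e0 : ‖e 0‖ < β') (x0 : ‖x 0‖ < ε') :
    ∀ s ∈ Icc 0 b, ‖e s‖ < β' * Real.exp (K * s) ∧ ‖x s‖ < ε' * Real.exp (K * s) := by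
  set m : ℝ → ℝ := fun s => max (‖e s‖ - β' * Real.exp (K * s)) (‖x s‖ - ε' * Real.exp (K * s))
    with hm
  have hec : ContinuousOn e (Icc 0 b) := HasDerivWithinAt.continuousOn he
  have hxc : ContinuousOn x (Icc 0 b) := HasDerivWithinAt.continuousOn hx
  have hmc : ContinuousOn m (Icc 0 b) := by
    refine ContinuousOn.sup (hec.norm.sub ?_) (hxc.norm.sub ?_)
    · exact Continuous.continuousOn (by fun_prop)
    · exact Continuous.continuousOn (by fun_prop)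
  have hexp : ∀ s ∈ Icc 0 b, Real.exp (K * s) ≤ Real.exp (K * b) := fun s hs =>
    Real.exp_le_exp.2 (mul_le_mul_of_nonneg_left hs.2 hK)
  have key : ∀ s ∈ Icc 0 b, m s < 0 := by
    refine lt_zero_of_step hmc ?_ ?_
    · simp only [hm, mul_zero, Real.exp_zero, mul_one]
      exact max_lt (by linarith) (by linarith)
    · intro s₁ hs₁ hlt hle h0
      have hsub : Icc 0 s₁ ⊆ Icc 0 b := Icc_subset_Icc le_rfl hs₁.2
      -- bounds on the closed segment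
      have hall : ∀ s ∈ Icc 0 s₁, m s ≤ 0 := by
        intro s hs
        rcases eq_or_lt_of_le hs.2 with h | h
        · rw [h]; exact hle
        · exact (hlt s ⟨hs.1, h⟩).le
      have be : ∀ s ∈ Icc 0 s₁, ‖e s‖ ≤ 2 * β := by
        intro s hs
        have h3 := (le_max_left _ _).trans (hall s hs)
        have h4 := mul_le_mul_of_nonneg_left (hexp s (hsub hs)) hβ0.le
        linarith
      have bx : ∀ s ∈ Icc 0 s₁, ‖x s‖ ≤ 2 * ε := by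
        intro s hs
        have h3 := (le_max_right _ _).trans (hall s hs)
        have h4 := mul_le_mul_of_nonneg_left (hexp s (hsub hs)) hε0.le
        linarith
      have n1 : ‖e s₁‖ ≠ β' * Real.exp (K * s₁) := by
        refine no_touch (θ := β) hs₁.1 hK hβ0 hβ (fun s hs => (he s (hsub hs)).mono hsub)
          (fun s hs => ?_) (fun s hs h => h1 s (hsub hs) h (be s hs) (bx s hs))
        have h3 := (le_max_left _ _).trans_lt (hlt s hs)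
        linarith
      have n2 : ‖x s₁‖ ≠ ε' * Real.exp (K * s₁) := by
        refine no_touch (θ := ε) hs₁.1 hK hε0 hε (fun s hs => (hx s (hsub hs)).mono hsub)
          (fun s hs => ?_) (fun s hs h => h2 s (hsub hs) (be s hs) h (bx s hs))
        have h3 := (le_max_right _ _).trans_lt (hlt s hs)
        linarith
      rcases max_choice (‖e s₁‖ - β' * Real.exp (K * s₁)) (‖x s₁‖ - ε' * Real.exp (K * s₁))
        with h3 | h3
      · simp only [hm] at h0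
        rw [h3] at h0
        exact n1 (by linarith)
      · simp only [hm] at h0
        rw [h3] at h0
        exact n2 (by linarith)
  intro s hs
  have h3 := key s hs
  constructor
  · have h4 := (le_max_left _ _).trans_lt h3
    linarith
  · have h4 := (le_max_right _ _).trans_lt h3
    linarith

end Barrier

variable {X : Type*} [NormedAddCommGroup X] [NormedSpace ℂ X]

/-- Reversing a part of a trajectory. -/
theorem Traj_rev {G : Set (X × ℂ)} {u : X × ℂ → X} {c₀ c₁ b : ℝ} {t : ℂ} {x : ℝ → X}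
    (h : Traj G u c₀ c₁ t b x) {s : ℝ} (hs : s ∈ Icc 0 b) :
    Traj G u (c₀ + c₁ * s) (-c₁) t s (fun v => x (s - v)) := by
  intro v hv
  have hv' : s - v ∈ Icc (0 : ℝ) b := ⟨by linarith [hv.2], by linarith [hv.1, hs.2]⟩
  have hmaps : MapsTo (fun w : ℝ => s - w) (Icc 0 s) (Icc 0 b) := fun w hw =>
    ⟨by linarith [hw.2], by linarith [hw.1, hs.2]⟩
  have e1 : c₀ + c₁ * s + -c₁ * v = c₀ + c₁ * (s - v) := by ring
  obtain ⟨h1, h2⟩ := h (s - v) hv'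
  rw [e1]
  refine ⟨h1, ?_⟩
  have h3 : HasDerivWithinAt (fun w : ℝ => s - w) (-1) (Icc 0 s) v := by
    simpa using (hasDerivWithinAt_id v (Icc 0 s)).const_sub s
  have h4 : HasDerivWithinAt (x ∘ fun w : ℝ => s - w)
      ((-1 : ℝ) • (c₁ • t • u (x (s - v), (c₀ + c₁ * (s - v)) • t))) (Icc 0 s) v :=
    HasDerivWithinAt.scomp v h2 h3 hmaps
  have e2 : (-1 : ℝ) • (c₁ • t • u (x (s - v), (c₀ + c₁ * (s - v)) • t)) =
      -c₁ • t • u (x (s - v), (c₀ + c₁ * (s - v)) • t) := by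
    rw [smul_smul]; ring_nf
  rw [e2] at h4
  exact h4

end Vale.Agent.P298.H119
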