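import Vale.Agent.P298.H119.Quasi

namespace Vale.Agent.P298.H119

open Set Metric Filter Topology Vale.Agent.P298
open scoped NNReal ContDiff Manifold

variable {X : Type*} [NormedAddCommGroup X] [NormedSpace ℂ X] [FiniteDimensional ℂ X]

/-- The endpoint map in one direction, from forward invariant neighbourhoods `P k` and backward
invariant neighbourhoods `N k`. -/
theorem endpoint_quasi {η' : ℝ} {G : Set (X × ℂ)} (hG : IsOpen G)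
    (hG0 : ∀ p ∈ G, p.1 ≠ 0)
    {u : X × ℂ → X} (hu : ContDiffOn ℝ 1 u G) {P N : ℕ → Set (X × ℂ)} {C : Set (X × ℂ)}
    (hP : ∀ k, IsOpen (P k)) (hN : ∀ k, IsOpen (N k)) (hP0k : ∀ k, P k ⊆ P 0)
    (axP : ∀ k, ∀ t : ℂ, ‖t‖ ≤ η' → ((0 : X), t) ∈ P k)
    (axN : ∀ k, ∀ t : ℂ, ‖t‖ ≤ η' → ((0 : X), t) ∈ N k)
    (hC : IsCompact C) (hCG : ∀ p ∈ C, ‖p.2‖ ≤ η' → p.1 ≠ 0 → p ∈ G)
    (hPC : ∀ p ∈ P 0, ‖p.2‖ ≤ η' → p ∈ C)
    (shP : ∀ δ > 0, ∃ k, ∀ p ∈ P k, ‖p.2‖ ≤ η' → ‖p.1‖ < δ)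
    (shN : ∀ δ > 0, ∃ k, ∀ p ∈ N k, ‖p.2‖ ≤ η' → ‖p.1‖ < δ) {c₀ c₁ : ℝ}
    (hc : ∀ s ∈ Icc (0 : ℝ) 1, c₀ + c₁ * s ∈ Icc (0 : ℝ) 1)
    (barP : ∀ k, ∀ t : ℂ, ‖t‖ ≤ η' → ∀ b ∈ Icc (0 : ℝ) 1, ∀ x, Traj G u c₀ c₁ t b x →
      ∀ s ∈ Icc 0 b, (x 0, c₀ • t) ∈ P k → (x s, (c₀ + c₁ * s) • t) ∈ P k)
    (barN : ∀ k, ∀ t : ℂ, ‖t‖ ≤ η' → ∀ b ∈ Icc (0 : ℝ) 1, ∀ x, Traj G u c₀ c₁ t b x →
      ∀ s ∈ Icc 0 b, (x s, (c₀ + c₁ * s) • t) ∈ N k → (x 0, c₀ • t) ∈ N k) :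
    ∃ φ : X × ℂ → X,
      ContinuousOn φ {p | ‖p.2‖ < η' ∧ (p.1, c₀ • p.2) ∈ P 0} ∧
      (∀ p : X × ℂ, p.1 = 0 → φ p = 0) ∧
      (∀ p : X × ℂ, ‖p.2‖ < η' → (p.1, c₀ • p.2) ∈ P 0 → p.1 ≠ 0 →
        (∃ x, Traj G u c₀ c₁ p.2 1 x ∧ x 0 = p.1 ∧ x 1 = φ p) ∧
        (∀ x, Traj G u c₀ c₁ p.2 1 x → x 0 = p.1 → x 1 = φ p)) ∧
      (∀ p : X × ℂ, ‖p.2‖ < η' → (p.1, c₀ • p.2) ∈ P 0 → (φ p, (c₀ + c₁) • p.2) ∈ P 0) := by
  classical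
  have hscale : ∀ s ∈ Icc (0 : ℝ) 1, ∀ t : ℂ, ‖t‖ ≤ η' → ‖(c₀ + c₁ * s) • t‖ ≤ η' := by
    intro s hs t ht
    rw [norm_smul, Real.norm_eq_abs, abs_of_nonneg (hc s hs).1]
    calc (c₀ + c₁ * s) * ‖t‖ ≤ 1 * ‖t‖ := by
          gcongr
          exact (hc s hs).2
      _ ≤ η' := by rw [one_mul]; exact ht
  have hscale0 : ∀ t : ℂ, ‖t‖ ≤ η' → ‖c₀ • t‖ ≤ η' := fun t ht => by
    have := hscale 0 (by simp) t ht
    simpa using this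
  have hflow : ∀ k, ∃ Φ : X × ℂ → X,
      ContinuousOn Φ {p | ‖p.2‖ ≤ η' ∧ (p.1, c₀ • p.2) ∈ P 0 ∧ (p.1, c₀ • p.2) ∉ N k} ∧
      ∀ p : X × ℂ, ‖p.2‖ ≤ η' → (p.1, c₀ • p.2) ∈ P 0 → (p.1, c₀ • p.2) ∉ N k →
        (∃ x, Traj G u c₀ c₁ p.2 1 x ∧ x 0 = p.1 ∧ x 1 = Φ p) ∧
        (∀ x, Traj G u c₀ c₁ p.2 1 x → x 0 = p.1 → x 1 = Φ p) := by
    intro k
    refine exists_flow hG hu (hN k) hC ?_ hPC hc (barP 0) (barN k)
    intro p hp hp2 hpQ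
    refine hCG p hp hp2 ?_
    intro h0
    apply hpQ
    have : p = (0, p.2) := by rw [← h0]
    rw [this]
    exact axN k _ hp2
  choose Φ hΦc hΦ using hflow
  set φ : X × ℂ → X := fun p =>
    if h : ∃ x, Traj G u c₀ c₁ p.2 1 x ∧ x 0 = p.1 then (Classical.choose h) 1 else 0 with hφdef
  -- every nonzero point is outside some `N k`
  have hout : ∀ p : X × ℂ, ‖p.2‖ ≤ η' → p.1 ≠ 0 → ∃ k, ∀ q : X × ℂ, ‖q.2‖ ≤ η' →
      ‖p.1‖ / 2 < ‖q.1‖ → (q.1, c₀ • q.2) ∉ N k := by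
    intro p hp2 hp
    obtain ⟨k, hk⟩ := shN (‖p.1‖ / 2) (by positivity)
    refine ⟨k, fun q hq hq1 hmem => ?_⟩
    have := hk _ hmem (hscale0 _ hq)
    exact absurd this (not_lt.2 hq1.le)
  have hφ : ∀ k, ∀ p : X × ℂ, ‖p.2‖ ≤ η' → (p.1, c₀ • p.2) ∈ P 0 → (p.1, c₀ • p.2) ∉ N k →
      φ p = Φ k p := by
    intro k p h1 h2 h3
    obtain ⟨⟨x, hx, hx0, hx1⟩, huniq⟩ := hΦ k p h1 h2 h3
    have hex : ∃ x, Traj G u c₀ c₁ p.2 1 x ∧ x 0 = p.1 := ⟨x, hx, hx0⟩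
    simp only [hφdef]
    rw [dif_pos hex]
    have hs := Classical.choose_spec hex
    exact huniq _ hs.1 hs.2
  have hφ0 : ∀ p : X × ℂ, p.1 = 0 → φ p = 0 := by
    intro p hp
    simp only [hφdef]
    rw [dif_neg]
    rintro ⟨x, hx, hx0⟩
    have := (hx 0 (by simp)).1
    exact hG0 _ this (by simp only [hx0, hp])
  have hmem : ∀ k, ∀ p : X × ℂ, ‖p.2‖ ≤ η' → (p.1, c₀ • p.2) ∈ P k →
      (φ p, (c₀ + c₁) • p.2) ∈ P k := by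
    intro k p h1 h2
    by_cases hp : p.1 = 0
    · rw [hφ0 p hp]
      refine axP k _ ?_
      have := hscale 1 (by simp) p.2 h1
      simpa using this
    · obtain ⟨j, hj⟩ := hout p h1 hp
      have hpj : (p.1, c₀ • p.2) ∉ N j := hj p h1 (by
        have : 0 < ‖p.1‖ := norm_pos_iff.2 hp
        linarith)
      have hp0 : (p.1, c₀ • p.2) ∈ P 0 := hP0k k h2
      obtain ⟨⟨x, hx, hx0, hx1⟩, -⟩ := hΦ j p h1 hp0 hpj
      rw [hφ j p h1 hp0 hpj, ← hx1]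
      have hb := barP k p.2 h1 1 (by simp) x hx 1 (by simp) (by rw [hx0]; exact h2)
      simpa using hb
  refine ⟨φ, ?_, hφ0, ?_, fun p h1 h2 => hmem 0 p h1.le h2⟩
  · intro p hp
    obtain ⟨h1, h2⟩ := hp
    by_cases hp0 : p.1 = 0
    · -- continuity on the axis
      rw [ContinuousWithinAt, hφ0 p hp0, Metric.tendsto_nhdsWithin_nhds]
      intro δ hδ
      obtain ⟨k, hk⟩ := shP δ hδ
      have hopen : IsOpen {q : X × ℂ | (q.1, c₀ • q.2) ∈ P k} :=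
        (hP k).preimage (continuous_fst.prodMk (continuous_snd.const_smul c₀))
      have hpk : p ∈ {q : X × ℂ | (q.1, c₀ • q.2) ∈ P k} := by
        change (p.1, c₀ • p.2) ∈ P k
        rw [hp0]
        exact axP k _ (hscale0 _ h1.le)
      obtain ⟨ρ, hρ, hball⟩ := Metric.isOpen_iff.1 hopen p hpk
      refine ⟨ρ, hρ, ?_⟩
      intro q hq hqd
      have hqk : (q.1, c₀ • q.2) ∈ P k := hball hqd
      have h3 := hmem k q hq.1.le hqk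
      have h4 := hk _ h3 (by
        have := hscale 1 (by simp) q.2 hq.1.le
        simpa using this)
      rw [dist_zero_right]
      exact h4
    · obtain ⟨k, hk⟩ := hout p h1.le hp0
      have hpos : 0 < ‖p.1‖ := norm_pos_iff.2 hp0
      have hU : {q : X × ℂ | ‖p.1‖ / 2 < ‖q.1‖} ∈ 𝓝 p := by
        refine (isOpen_lt continuous_const continuous_fst.norm).mem_nhds ?_
        change ‖p.1‖ / 2 < ‖p.1‖
        linarith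
      have hpk : (p.1, c₀ • p.2) ∉ N k := hk p h1.le (by linarith)
      have hc1 : ContinuousWithinAt (Φ k)
          {p | ‖p.2‖ ≤ η' ∧ (p.1, c₀ • p.2) ∈ P 0 ∧ (p.1, c₀ • p.2) ∉ N k} p :=
        hΦc k p ⟨h1.le, h2, hpk⟩
      have hc2 : ContinuousWithinAt (Φ k)
          ({p : X × ℂ | ‖p.2‖ < η' ∧ (p.1, c₀ • p.2) ∈ P 0} ∩ {q : X × ℂ | ‖p.1‖ / 2 < ‖q.1‖}) p :=
        hc1.mono fun q hq => ⟨hq.1.1.le, hq.1.2, hk q hq.1.1.le hq.2⟩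
      have hc3 : ContinuousWithinAt φ
          ({p : X × ℂ | ‖p.2‖ < η' ∧ (p.1, c₀ • p.2) ∈ P 0} ∩ {q : X × ℂ | ‖p.1‖ / 2 < ‖q.1‖}) p :=
        hc2.congr (fun q hq => hφ k q hq.1.1.le hq.1.2 (hk q hq.1.1.le hq.2))
          (hφ k p h1.le h2 hpk)
      exact (continuousWithinAt_inter hU).1 hc3
  · intro p h1 h2 hp0
    obtain ⟨k, hk⟩ := hout p h1.le hp0
    have hpos : 0 < ‖p.1‖ := norm_pos_iff.2 hp0
    have hpk : (p.1, c₀ • p.2) ∉ N k := hk p h1.le (by linarith)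
    rw [hφ k p h1.le h2 hpk]
    exact hΦ k p h1.le h2 hpk

/-- The flow homeomorphism from quasi-invariant neighbourhoods: the `P k` are invariant for
increasing and the `N k` for decreasing `|t|`. -/
theorem homeo_quasi {η' : ℝ} {G : Set (X × ℂ)} (hG : IsOpen G)
    (hG0 : ∀ p ∈ G, p.1 ≠ 0)
    {u : X × ℂ → X} (hu : ContDiffOn ℝ 1 u G) {P N : ℕ → Set (X × ℂ)} {C : Set (X × ℂ)}
    (hP : ∀ k, IsOpen (P k)) (hN : ∀ k, IsOpen (N k)) (hP0k : ∀ k, P k ⊆ P 0)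
    (hN0k : ∀ k, N k ⊆ N 0)
    (axP : ∀ k, ∀ t : ℂ, ‖t‖ ≤ η' → ((0 : X), t) ∈ P k)
    (axN : ∀ k, ∀ t : ℂ, ‖t‖ ≤ η' → ((0 : X), t) ∈ N k)
    (hC : IsCompact C) (hCG : ∀ p ∈ C, ‖p.2‖ ≤ η' → p.1 ≠ 0 → p ∈ G)
    (hPC : ∀ p ∈ P 0, ‖p.2‖ ≤ η' → p ∈ C) (hNC : ∀ p ∈ N 0, ‖p.2‖ ≤ η' → p ∈ C)
    (shP : ∀ δ > 0, ∃ k, ∀ p ∈ P k, ‖p.2‖ ≤ η' → ‖p.1‖ < δ)
    (shN : ∀ δ > 0, ∃ k, ∀ p ∈ N k, ‖p.2‖ ≤ η' → ‖p.1‖ < δ)
    (barP : ∀ k, ∀ c₀ : ℝ, ∀ t : ℂ, ‖t‖ ≤ η' → ∀ b ∈ Icc (0 : ℝ) 1,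
      (∀ s ∈ Icc 0 b, c₀ + 1 * s ∈ Icc (0 : ℝ) 1) → ∀ x, Traj G u c₀ 1 t b x →
      ∀ s ∈ Icc 0 b, (x 0, c₀ • t) ∈ P k → (x s, (c₀ + 1 * s) • t) ∈ P k)
    (barN : ∀ k, ∀ c₀ : ℝ, ∀ t : ℂ, ‖t‖ ≤ η' → ∀ b ∈ Icc (0 : ℝ) 1,
      (∀ s ∈ Icc 0 b, c₀ + -1 * s ∈ Icc (0 : ℝ) 1) → ∀ x, Traj G u c₀ (-1) t b x →
      ∀ s ∈ Icc 0 b, (x 0, c₀ • t) ∈ N k → (x s, (c₀ + -1 * s) • t) ∈ N k) :
    ∃ e : OpenPartialHomeomorph (X × ℂ) (X × ℂ),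
      (∀ p ∈ e.source, ‖p.2‖ < η' ∧ (p.1, 0) ∈ P 0) ∧ (∀ t : ℂ, ‖t‖ < η' → (0, t) ∈ e.source) ∧
      (∀ p, (e p).2 = p.2) ∧ (∀ t, e (0, t) = (0, t)) ∧
      ∀ p ∈ e.source, p.1 ≠ 0 → (∃ x, Traj G u 0 1 p.2 1 x ∧ x 0 = p.1 ∧ x 1 = (e p).1) ∧
        (∀ x, Traj G u 0 1 p.2 1 x → x 0 = p.1 → x 1 = (e p).1) := by
  have hc1 : ∀ s ∈ Icc (0 : ℝ) 1, (0 : ℝ) + 1 * s ∈ Icc (0 : ℝ) 1 := fun s hs => by
    rw [zero_add, one_mul]; exact hs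
  have hc2 : ∀ s ∈ Icc (0 : ℝ) 1, (1 : ℝ) + (-1) * s ∈ Icc (0 : ℝ) 1 := fun s hs =>
    ⟨by linarith [hs.2], by linarith [hs.1]⟩
  -- backward invariance from forward invariance of the reversed trajectories
  have revN : ∀ k, ∀ t : ℂ, ‖t‖ ≤ η' → ∀ b ∈ Icc (0 : ℝ) 1, ∀ x, Traj G u 0 1 t b x →
      ∀ s ∈ Icc 0 b, (x s, ((0 : ℝ) + 1 * s) • t) ∈ N k → (x 0, (0 : ℝ) • t) ∈ N k := by
    intro k t ht b hb x hx s hs h
    have h1 := Traj_rev hx hs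
    have h2 := barN k (0 + 1 * s) t ht s ⟨hs.1, hs.2.trans hb.2⟩ (fun v hv => by
      constructor <;> linarith [hv.1, hv.2, hs.1, hs.2, hb.2]) _ h1 s ⟨hs.1, le_rfl⟩ (by
      simpa using h)
    simpa using h2
  have revP : ∀ k, ∀ t : ℂ, ‖t‖ ≤ η' → ∀ b ∈ Icc (0 : ℝ) 1, ∀ x, Traj G u 1 (-1) t b x →
      ∀ s ∈ Icc 0 b, (x s, ((1 : ℝ) + -1 * s) • t) ∈ P k → (x 0, (1 : ℝ) • t) ∈ P k := by
    intro k t ht b hb x hx s hs h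
    have h1 := Traj_rev hx hs
    rw [neg_neg] at h1
    have h2 := barP k (1 + -1 * s) t ht s ⟨hs.1, hs.2.trans hb.2⟩ (fun v hv => by
      constructor <;> linarith [hv.1, hv.2, hs.1, hs.2, hb.2]) _ h1 s ⟨hs.1, le_rfl⟩ (by
      simpa using h)
    have e1 : (1 : ℝ) + -1 * s + 1 * s = 1 := by ring
    rw [e1, sub_self] at h2
    exact h2
  obtain ⟨φ, φc, φ0, φt, φP⟩ := endpoint_quasi (c₀ := 0) (c₁ := 1) hG hG0 hu hP hN hP0k axP axN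
    hC hCG hPC shP shN hc1
    (fun k t ht b hb x hx s hs h => barP k 0 t ht b hb (fun v hv => hc1 v ⟨hv.1, hv.2.trans hb.2⟩)
      x hx s hs h) revN
  obtain ⟨ψ, ψc, ψ0, ψt, ψN⟩ := endpoint_quasi (c₀ := 1) (c₁ := -1) hG hG0 hu hN hP hN0k axN axP
    hC hCG hNC shN shP hc2
    (fun k t ht b hb x hx s hs h => barN k 1 t ht b hb (fun v hv => hc2 v ⟨hv.1, hv.2.trans hb.2⟩)
      x hx s hs h) revP
  simp only [zero_smul, one_smul, zero_add, add_neg_cancel] at φc φt φP ψc ψt ψN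
  have hleft : ∀ p : X × ℂ, ‖p.2‖ < η' → (p.1, (0 : ℂ)) ∈ P 0 → (φ p, p.2) ∈ N 0 →
      ψ (φ p, p.2) = p.1 := by
    intro p h1 h2 h3
    by_cases hp : p.1 = 0
    · rw [φ0 p hp, ψ0 (0, p.2) rfl, hp]
    · obtain ⟨⟨x, hx, hx0, hx1⟩, -⟩ := φt p h1 h2 hp
      have hne : φ p ≠ 0 := by
        rw [← hx1]
        exact hG0 _ (hx 1 (by simp)).1
      have hrev := hx.reverse
      rw [zero_add] at hrev
      have := (ψt (φ p, p.2) h1 h3 hne).2 _ hrev (by simp [hx1])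
      simp only [sub_self] at this
      rw [← this, hx0]
  have hright : ∀ p : X × ℂ, ‖p.2‖ < η' → (p.1, p.2) ∈ N 0 → (ψ p, (0 : ℂ)) ∈ P 0 →
      φ (ψ p, p.2) = p.1 := by
    intro p h1 h2 h3
    by_cases hp : p.1 = 0
    · rw [ψ0 p hp, φ0 (0, p.2) rfl, hp]
    · obtain ⟨⟨x, hx, hx0, hx1⟩, -⟩ := ψt p h1 h2 hp
      have hne : ψ p ≠ 0 := by
        rw [← hx1]
        exact hG0 _ (hx 1 (by simp)).1
      have hrev := hx.reverse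
      rw [add_neg_cancel, neg_neg] at hrev
      have := (φt (ψ p, p.2) h1 h3 hne).2 _ hrev (by simp [hx1])
      simp only [sub_self] at this
      rw [← this, hx0]
  have hs1 : IsOpen {p : X × ℂ | ‖p.2‖ < η' ∧ (p.1, (0 : ℂ)) ∈ P 0} :=
    (isOpen_lt continuous_snd.norm continuous_const).inter
      ((hP 0).preimage (continuous_fst.prodMk continuous_const))
  have hs2 : IsOpen {p : X × ℂ | ‖p.2‖ < η' ∧ p ∈ N 0} :=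
    (isOpen_lt continuous_snd.norm continuous_const).inter (hN 0)
  have ho1 : IsOpen ({p : X × ℂ | ‖p.2‖ < η' ∧ (p.1, (0 : ℂ)) ∈ P 0} ∩
      (fun p => (φ p, p.2)) ⁻¹' N 0) :=
    (φc.prodMk continuousOn_snd).isOpen_inter_preimage hs1 (hN 0)
  have ho2 : IsOpen ({p : X × ℂ | ‖p.2‖ < η' ∧ p ∈ N 0} ∩
      (fun p => (ψ p, (0 : ℂ))) ⁻¹' P 0) :=
    (ψc.prodMk continuousOn_const).isOpen_inter_preimage hs2 (hP 0)
  refine ⟨{ toFun := fun p => (φ p, p.2)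
            invFun := fun p => (ψ p, p.2)
            source := {p : X × ℂ | ‖p.2‖ < η' ∧ (p.1, (0 : ℂ)) ∈ P 0} ∩
              (fun p => (φ p, p.2)) ⁻¹' N 0
            target := {p : X × ℂ | ‖p.2‖ < η' ∧ p ∈ N 0} ∩
              (fun p => (ψ p, (0 : ℂ))) ⁻¹' P 0
            map_source' := fun p hp => ⟨⟨hp.1.1, hp.2⟩, by
              change (ψ (φ p, p.2), (0 : ℂ)) ∈ P 0
              rw [hleft p hp.1.1 hp.1.2 hp.2]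
              exact hp.1.2⟩
            map_target' := fun p hp => ⟨⟨hp.1.1, hp.2⟩, by
              change (φ (ψ p, p.2), p.2) ∈ N 0
              rw [hright p hp.1.1 hp.1.2 hp.2]
              exact hp.1.2⟩
            left_inv' := fun p hp => by
              simp only [hleft p hp.1.1 hp.1.2 hp.2]
            right_inv' := fun p hp => by
              simp only [hright p hp.1.1 hp.1.2 hp.2]
            open_source := ho1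
            open_target := ho2
            continuousOn_toFun := (φc.mono inter_subset_left).prodMk continuousOn_snd
            continuousOn_invFun := (ψc.mono inter_subset_left).prodMk continuousOn_snd },
    fun p hp => hp.1, ?_, fun p => rfl, ?_, ?_⟩
  · intro t ht
    have h0 : ‖(0 : ℂ)‖ ≤ η' := by
      rw [norm_zero]
      exact (norm_nonneg t).trans ht.le
    refine ⟨⟨ht, axP 0 0 h0⟩, ?_⟩
    change (φ (0, t), t) ∈ N 0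
    rw [φ0 _ rfl]
    exact axN 0 t ht.le
  · intro t
    change (φ (0, t), t) = (0, t)
    rw [φ0 _ rfl]
  · intro p hp hp0
    exact φt p hp.1.1 hp.1.2 hp0

end Vale.Agent.P298.H119
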