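import Vale.Agent.P298.H119.Quasi2

namespace Vale.Agent.P298.H119

open Set Metric Filter Topology Vale.Agent.P298
open scoped NNReal ContDiff Manifold

variable {X : Type*} [NormedAddCommGroup X] [NormedSpace ℂ X]

/-- There is a local lift of `∂ₜ` near `p` which preserves `F`, is small with respect to the
distance from the axis and controls `E` logarithmically. -/
def LogField (K : ℝ) (F E : X × ℂ → ℂ) (p : X × ℂ) : Prop :=
  ∃ g : X × ℂ → X, ContDiffAt ℝ 1 g p ∧ ∀ᶠ q in 𝓝 p, fderiv ℂ F q (g q, 1) = 0 ∧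
    ‖g q‖ ≤ K * ‖q.1‖ ∧ (‖F q‖ ≤ ‖E q‖ → ‖fderiv ℂ E q (g q, 1)‖ ≤ K * ‖E q‖) ∧
    (F q = 0 → E q = 0 → g q = 0)

theorem eventually_logField {K : ℝ} {F E : X × ℂ → ℂ} {p : X × ℂ} (h : LogField K F E p) :
    ∀ᶠ q in 𝓝 p, LogField K F E q := by
  obtain ⟨g, h1, h2⟩ := h
  have h3 : ∀ᶠ q in 𝓝 p, ContDiffAt ℝ 1 g q := h1.eventually (by simp)
  filter_upwards [h3, h2.eventually_nhds] with q h4 h5
  exact ⟨g, h4, h5⟩

variable [FiniteDimensional ℂ X]

/-- **Logarithmically controlled families.** -/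
theorem trivial_of_log {F E : X × ℂ → ℂ} {r η K : ℝ}
    (hr : 0 < r) (hη : 0 < η) (hK : 0 ≤ K) (hKη : Real.exp (K * η) < 2)
    (hF : AnalyticOnNhd ℂ F (closedBall 0 r ×ˢ closedBall 0 η))
    (hE : AnalyticOnNhd ℂ E (closedBall 0 r ×ˢ closedBall 0 η))
    (hF0 : ∀ t : ℂ, ‖t‖ ≤ η → F (0, t) = 0) (hE0 : ∀ t : ℂ, ‖t‖ ≤ η → E (0, t) = 0)
    (P1 : ∀ p : X × ℂ, ‖p.1‖ ≤ r → ‖p.2‖ ≤ η → p.1 ≠ 0 → Function.Surjective (dX F p))
    (P2 : ∀ p : X × ℂ, ‖p.1‖ ≤ r → ‖p.2‖ ≤ η → p.1 ≠ 0 → F p = 0 → E p ≠ 0 →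
      Function.Surjective ((dX F p).prod (dX E p)))
    (P3 : ∀ p : X × ℂ, ‖p.1‖ ≤ r → ‖p.2‖ ≤ η → p.1 ≠ 0 → F p = 0 → E p = 0 →
      LogField K F E p) :
    ∃ e : OpenPartialHomeomorph (X × ℂ) (X × ℂ),
      (∀ p ∈ e.source, ‖p.2‖ < η / 2) ∧ (∀ t : ℂ, ‖t‖ < η / 2 → (0, t) ∈ e.source) ∧
      (∀ p, (e p).2 = p.2) ∧ (∀ t, e (0, t) = (0, t)) ∧
      (∀ p ∈ e.source, F (e p) = F (p.1, 0)) ∧
      (∀ p ∈ e.source, (∀ τ ∈ Icc (0 : ℝ) 1, F (p.1, τ • p.2) = 0 ∧ E (p.1, τ • p.2) = 0) →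
        e p = p) := by
  have : ProperSpace X := FiniteDimensional.proper ℂ X
  have : FiniteDimensional ℝ X := FiniteDimensional.complexToReal X
  set B : Set (X × ℂ) := closedBall 0 r ×ˢ closedBall 0 η with hB
  have hBc : IsCompact B := (isCompact_closedBall _ _).prod (isCompact_closedBall _ _)
  have hBmem : ∀ p : X × ℂ, p ∈ B ↔ ‖p.1‖ ≤ r ∧ ‖p.2‖ ≤ η := by
    intro p
    simp [hB, mem_prod]
  have hFc : ContinuousOn F B := hF.continuousOn
  have hEc : ContinuousOn E B := hE.continuousOn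
  have hdc : ∀ {f : X × ℂ → ℂ}, AnalyticOnNhd ℂ f B → ∀ p ∈ B, ContinuousWithinAt (dX f) B p :=
    fun hf p hp => (contDiffAt_dX (hf p hp)).continuousAt.continuousWithinAt
  -- constants
  have hpick : ∀ ε > 0, ∀ κ > 0, ∃ α β : ℝ, 0 < α ∧ 0 < β ∧ α ≤ β / 2 ∧ β ≤ κ ∧
      (∀ p ∈ B, ‖F p‖ ≤ α → ‖E p‖ ≤ 2 * β → ε / 2 ≤ ‖p.1‖ → ‖p.1‖ ≤ 2 * ε →
        LogField K F E p) ∧
      (∀ p ∈ B, ‖F p‖ ≤ α → β / 2 ≤ ‖E p‖ → ‖E p‖ ≤ 2 * β →
        Function.Surjective ((dX F p).prod (dX E p))) := by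
    intro ε hε κ hκ
    have hcl2 : IsCompact (B ∩ {p | ε / 2 ≤ ‖p.1‖ ∧ ‖p.1‖ ≤ 2 * ε}) := by
      refine hBc.inter_right ?_
      exact (isClosed_le continuous_const continuous_fst.norm).inter
        (isClosed_le continuous_fst.norm continuous_const)
    obtain ⟨δ, hδ, hδ'⟩ := exists_pos_of_good (B := B) hcl2 inter_subset_left
      (a := fun p => max ‖F p‖ ‖E p‖)
      ((hFc.norm.sup hEc.norm).mono inter_subset_left)
      (fun p _ => le_max_of_le_left (norm_nonneg _))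
      (good := fun p => LogField K F E p) (by
        intro p hp h0
        have h1 : ‖F p‖ ≤ 0 := (le_max_left _ _).trans h0.le
        have h2 : ‖E p‖ ≤ 0 := (le_max_right _ _).trans h0.le
        have hb := (hBmem p).1 hp.1
        have hne : p.1 ≠ 0 := by
          intro hz
          have h3 : ε / 2 ≤ ‖p.1‖ := hp.2.1
          rw [hz, norm_zero] at h3
          linarith
        exact eventually_nhdsWithin_of_eventually_nhds (eventually_logField
          (P3 p hb.1 hb.2 hne (norm_le_zero_iff.1 h1) (norm_le_zero_iff.1 h2))))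
    set β : ℝ := min (δ / 2) κ with hβdef
    have hβ : 0 < β := lt_min (by positivity) hκ
    have hβδ : β ≤ δ / 2 := min_le_left _ _
    have hcl1 : IsCompact (B ∩ {p | β / 2 ≤ ‖E p‖ ∧ ‖E p‖ ≤ 2 * β}) := by
      refine hBc.of_isClosed_subset ?_ inter_subset_left
      exact hEc.norm.preimage_isClosed_of_isClosed hBc.isClosed isClosed_Icc
    obtain ⟨α', hα', hα''⟩ := exists_pos_of_good (B := B) hcl1 inter_subset_left
      (a := fun p => ‖F p‖) (hFc.norm.mono inter_subset_left)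
      (fun p _ => norm_nonneg _)
      (good := fun p => Function.Surjective ((dX F p).prod (dX E p))) (by
        intro p hp h0
        have hb := (hBmem p).1 hp.1
        have hEne : E p ≠ 0 := by
          intro hz
          have h4 : β / 2 ≤ ‖E p‖ := hp.2.1
          rw [hz, norm_zero] at h4
          linarith
        have hne : p.1 ≠ 0 := by
          intro hz
          have : p = (0, p.2) := by rw [← hz]
          apply hEne
          rw [this, hE0 _ hb.2]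
        refine eventually_surjective (L := fun p => (dX F p).prod (dX E p)) ?_
          (P2 p hb.1 hb.2 hne (norm_eq_zero.1 h0) hEne)
        exact ((hdc hF p hp.1).prodMk (hdc hE p hp.1)) |>.tendsto |>
          fun h => by
            have hc : Continuous (fun q : (X →L[ℂ] ℂ) × (X →L[ℂ] ℂ) => q.1.prod q.2) :=
              contDiff_clm_prod.continuous
            exact (hc.tendsto _).comp h)
    refine ⟨min α' (β / 2), β, lt_min hα' (by positivity), hβ, min_le_right _ _,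
      min_le_right _ _, ?_, ?_⟩
    · intro p hp h1 h2 h3 h4
      have h5 : ‖F p‖ ≤ β / 2 := h1.trans (min_le_right _ _)
      exact hδ' p ⟨hp, h3, h4⟩ (max_le (by linarith) (by linarith))
    · intro p hp h1 h2 h3
      exact hα'' p ⟨hp, h2, h3⟩ (h1.trans (min_le_left _ _))
  -- initial constants
  set ε₀ : ℝ := r / 4 with hε₀def
  have hε₀ : 0 < ε₀ := by positivity
  obtain ⟨α₀, β₀, hα₀, hβ₀, hαβ₀, -, hS2₀, hS1₀⟩ := hpick ε₀ hε₀ 1 one_pos
  have hεk : ∀ k : ℕ, 0 < ε₀ / (k + 1) := fun k => by positivity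
  choose α β hα hβ hαβ hβα hS2 hS1 using fun k : ℕ => hpick (ε₀ / (k + 1)) (hεk k) α₀ hα₀
  set par : ℕ → ℝ × ℝ × ℝ := fun k =>
    Nat.casesOn k (α₀, β₀, ε₀) (fun j => (α j, β j, ε₀ / (j + 1))) with hpar
  have hp1 : ∀ k, 0 < (par k).1 := by
    intro k; cases k with
    | zero => exact hα₀
    | succ j => exact hα j
  have hp2 : ∀ k, (par k).1 ≤ (par k).2.1 / 2 := by
    intro k; cases k with
    | zero => exact hαβ₀
    | succ j => exact hαβ j
  have hp4 : ∀ k, 0 < (par k).2.1 := by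
    intro k; cases k with
    | zero => exact hβ₀
    | succ j => exact hβ j
  have hp5 : ∀ k, 0 < (par k).2.2 := by
    intro k; cases k with
    | zero => exact hε₀
    | succ j => exact hεk j
  have hp6 : ∀ k, (par k).1 ≤ α₀ ∧ (par k).2.1 ≤ β₀ ∧ (par k).2.2 ≤ ε₀ := by
    intro k; cases k with
    | zero => exact ⟨le_rfl, le_rfl, le_rfl⟩
    | succ j =>
      have h1 := hαβ j
      have h2 := hβα j
      have h3 := hβ j
      refine ⟨?_, ?_, ?_⟩
      · change α j ≤ α₀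
        linarith
      · change β j ≤ β₀
        linarith
      · change ε₀ / (j + 1) ≤ ε₀
        exact div_le_self hε₀.le (by simp)
  have hS2' : ∀ k, ∀ p ∈ B, ‖F p‖ ≤ (par k).1 → ‖E p‖ ≤ 2 * (par k).2.1 →
      (par k).2.2 / 2 ≤ ‖p.1‖ → ‖p.1‖ ≤ 2 * (par k).2.2 → LogField K F E p := by
    intro k; cases k with
    | zero => exact hS2₀
    | succ j => exact hS2 j
  have hS1' : ∀ k, ∀ p ∈ B, ‖F p‖ ≤ (par k).1 → (par k).2.1 / 2 ≤ ‖E p‖ →
      ‖E p‖ ≤ 2 * (par k).2.1 → Function.Surjective ((dX F p).prod (dX E p)) := by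
    intro k; cases k with
    | zero => exact hS1₀
    | succ j => exact hS1 j
  have hpsh : ∀ δ > 0, ∃ k₀, ∀ k ≥ k₀, 2 * (par k).2.2 < δ := by
    intro δ hδ
    obtain ⟨n, hn⟩ := exists_nat_gt (2 * ε₀ / δ)
    refine ⟨n + 1, fun k hk => ?_⟩
    cases k with
    | zero => omega
    | succ j =>
      change 2 * (ε₀ / (j + 1)) < δ
      rw [← mul_div_assoc, div_lt_iff₀ (by positivity)]
      have h1 : (n : ℝ) ≤ j := by
        have : n ≤ j := by omega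
        exact_mod_cast this
      have h2 : 2 * ε₀ < n * δ := (div_lt_iff₀ hδ).1 hn
      nlinarith
  -- the barrier shells
  set T2 : ℕ → Set (X × ℂ) := fun k => {p ∈ B | ‖F p‖ ≤ (par k).1 ∧ ‖E p‖ ≤ 2 * (par k).2.1 ∧
    (par k).2.2 / 2 ≤ ‖p.1‖ ∧ ‖p.1‖ ≤ 2 * (par k).2.2} with hT2
  set T1 : ℕ → Set (X × ℂ) := fun k => {p ∈ B | ‖F p‖ ≤ (par k).1 ∧ (par k).2.1 / 2 ≤ ‖E p‖ ∧
    ‖E p‖ ≤ 2 * (par k).2.1 ∧ ‖p.1‖ ≤ 2 * (par k).2.2} with hT1
  have cl : ∀ {f : X × ℂ → ℂ}, ContinuousOn f B → ∀ s : Set ℝ, IsClosed s →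
      IsClosed (B ∩ {p | ‖f p‖ ∈ s}) := fun hf s hs =>
    hf.norm.preimage_isClosed_of_isClosed hBc.isClosed hs
  have hT2c : ∀ k, IsClosed (T2 k) := by
    intro k
    have h1 := cl hFc _ (isClosed_Iic (a := (par k).1))
    have h2 := cl hEc _ (isClosed_Iic (a := 2 * (par k).2.1))
    have h3 : IsClosed {p : X × ℂ | (par k).2.2 / 2 ≤ ‖p.1‖} :=
      isClosed_le continuous_const continuous_fst.norm
    have h4 : IsClosed {p : X × ℂ | ‖p.1‖ ≤ 2 * (par k).2.2} :=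
      isClosed_le continuous_fst.norm continuous_const
    convert h1.inter (h2.inter (h3.inter h4)) using 1
    ext p
    simp only [hT2, mem_inter_iff, mem_ofPred_eq, mem_Iic]
    tauto
  have hT1c : ∀ k, IsClosed (T1 k) := by
    intro k
    have h1 := cl hFc _ (isClosed_Iic (a := (par k).1))
    have h2 := cl hEc _ (isClosed_Icc (a := (par k).2.1 / 2) (b := 2 * (par k).2.1))
    have h4 : IsClosed {p : X × ℂ | ‖p.1‖ ≤ 2 * (par k).2.2} :=
      isClosed_le continuous_fst.norm continuous_const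
    convert h1.inter (h2.inter h4) using 1
    ext p
    simp only [hT1, mem_inter_iff, mem_ofPred_eq, mem_Iic, mem_Icc]
    tauto
  have hT2sh : ∀ δ > 0, ∃ k₀, ∀ k ≥ k₀, ∀ p ∈ T2 k, ‖p.1‖ < δ := by
    intro δ hδ
    obtain ⟨k₀, hk₀⟩ := hpsh δ hδ
    exact ⟨k₀, fun k hk p hp => hp.2.2.2.2.trans_lt (hk₀ k hk)⟩
  have hT1sh : ∀ δ > 0, ∃ k₀, ∀ k ≥ k₀, ∀ p ∈ T1 k, ‖p.1‖ < δ := by
    intro δ hδ
    obtain ⟨k₀, hk₀⟩ := hpsh δ hδ
    exact ⟨k₀, fun k hk p hp => hp.2.2.2.2.trans_lt (hk₀ k hk)⟩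
  -- the open region
  set G : Set (X × ℂ) := {p | p.1 ≠ 0 ∧ ‖p.1‖ < r ∧ ‖p.2‖ < η} with hG
  have hGo : IsOpen G := by
    have h1 : IsOpen {p : X × ℂ | p.1 ≠ 0} := isOpen_ne_fun continuous_fst continuous_const
    have h2 : IsOpen {p : X × ℂ | ‖p.1‖ < r} := isOpen_lt continuous_fst.norm continuous_const
    have h3 : IsOpen {p : X × ℂ | ‖p.2‖ < η} := isOpen_lt continuous_snd.norm continuous_const
    exact h1.inter (h2.inter h3)
  have hGB : ∀ p ∈ G, p ∈ B := fun p hp => (hBmem p).2 ⟨hp.2.1.le, hp.2.2.le⟩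
  -- the vector field
  set V : X × ℂ → Set X := fun p => {v | fderiv ℂ F p (v, 1) = 0 ∧
    ((∃ k, p ∈ T1 k) → ‖fderiv ℂ E p (v, 1)‖ ≤ K * ‖E p‖) ∧
    ((∃ k, p ∈ T2 k) → ‖v‖ ≤ K * ‖p.1‖) ∧ (F p = 0 → E p = 0 → v = 0)} with hV
  have hsplit : ∀ (D : X × ℂ →L[ℂ] ℂ) (v w : X) (a b : ℝ), a + b = 1 →
      D (a • v + b • w, 1) = (a : ℂ) * D (v, 1) + (b : ℂ) * D (w, 1) := by
    intro D v w a b hab
    have e1 : ((a • v + b • w, 1) : X × ℂ) = (a : ℂ) • ((v, 1) : X × ℂ) + (b : ℂ) • ((w, 1) : X × ℂ) := by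
      ext
      · simp [Complex.coe_smul]
      · simp only [Prod.snd_add, Prod.smul_snd, smul_eq_mul, mul_one]
        rw [← Complex.ofReal_add, hab, Complex.ofReal_one]
    rw [e1, map_add, map_smul, map_smul, smul_eq_mul, smul_eq_mul]
  obtain ⟨u, huc, huV⟩ := exists_selection hGo V (by
    intro p _ v hv w hw a b ha hb hab
    refine ⟨?_, fun hk => ?_, fun hk => ?_, fun h1 h2 => ?_⟩
    · rw [hsplit _ _ _ _ _ hab, hv.1, hw.1, mul_zero, mul_zero, add_zero]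
    · rw [hsplit _ _ _ _ _ hab]
      have h1 := hv.2.1 hk
      have h2 := hw.2.1 hk
      refine (norm_add_le _ _).trans ?_
      rw [norm_mul, norm_mul, Complex.norm_real, Complex.norm_real, Real.norm_eq_abs,
        Real.norm_eq_abs, abs_of_nonneg ha, abs_of_nonneg hb]
      have h3 := mul_le_mul_of_nonneg_left h1 ha
      have h4 := mul_le_mul_of_nonneg_left h2 hb
      have h5 : a * (K * ‖E p‖) + b * (K * ‖E p‖) = K * ‖E p‖ := by
        rw [← add_mul, hab, one_mul]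
      linarith
    · have h1 := hv.2.2.1 hk
      have h2 := hw.2.2.1 hk
      refine (norm_add_le _ _).trans ?_
      rw [norm_smul, norm_smul, Real.norm_eq_abs,
        Real.norm_eq_abs, abs_of_nonneg ha, abs_of_nonneg hb]
      have h3 := mul_le_mul_of_nonneg_left h1 ha
      have h4 := mul_le_mul_of_nonneg_left h2 hb
      have h5 : a * (K * ‖p.1‖) + b * (K * ‖p.1‖) = K * ‖p.1‖ := by
        rw [← add_mul, hab, one_mul]
      linarith
    · rw [hv.2.2.2 h1 h2, hw.2.2.2 h1 h2, smul_zero, smul_zero, add_zero]) (by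
    intro p₀ hp₀
    have hp₀B := hGB p₀ hp₀
    have hb := (hBmem p₀).1 hp₀B
    have hne := hp₀.1
    have hBn' : B ∈ 𝓝 p₀ := Filter.mem_of_superset (hGo.mem_nhds hp₀) fun p hp => hGB p hp
    have hFat : ContinuousAt F p₀ := hFc.continuousAt hBn'
    have hEat : ContinuousAt E p₀ := hEc.continuousAt hBn'
    by_cases h2 : (∃ k, p₀ ∈ T2 k) ∨ (F p₀ = 0 ∧ E p₀ = 0)
    · have hlog : LogField K F E p₀ := by
        rcases h2 with ⟨k, hk⟩ | ⟨h3, h4⟩
        · exact hS2' k p₀ hk.1 hk.2.1 hk.2.2.1 hk.2.2.2.1 hk.2.2.2.2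
        · exact P3 p₀ hb.1 hb.2 hne h3 h4
      obtain ⟨g, hg1, hg2⟩ := hlog
      refine ⟨g, hg1, ?_⟩
      filter_upwards [hg2] with p hp
      refine ⟨hp.1, ?_, fun _ => hp.2.1, hp.2.2.2⟩
      rintro ⟨k, hk⟩
      refine hp.2.2.1 ?_
      exact hk.2.1.trans ((hp2 k).trans hk.2.2.1)
    · have h2a : ∀ k, p₀ ∉ T2 k := fun k hk => h2 (Or.inl ⟨k, hk⟩)
      have h2b : ¬ (F p₀ = 0 ∧ E p₀ = 0) := fun hc => h2 (Or.inr hc)
      have h2' : ∀ᶠ p in 𝓝 p₀, ∀ k, p ∉ T2 k :=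
        eventually_notMem_iUnion hT2c hT2sh hne h2a
      have h2'' : ∀ᶠ p in 𝓝 p₀, ¬ (F p = 0 ∧ E p = 0) := by
        by_cases hf : F p₀ = 0
        · have he : E p₀ ≠ 0 := fun he => h2b ⟨hf, he⟩
          filter_upwards [hEat.eventually_ne he] with p hp hc
          exact hp hc.2
        · filter_upwards [hFat.eventually_ne hf] with p hp hc
          exact hp hc.1
      by_cases h1 : ∃ k, p₀ ∈ T1 k
      · have hsurj : Function.Surjective ((dX F p₀).prod (dX E p₀)) := by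
          obtain ⟨k, hk⟩ := h1
          exact hS1' k p₀ hk.1 hk.2.1 hk.2.2.1 hk.2.2.2.1
        obtain ⟨g, hg1, hg2⟩ := exists_local_solution
          (L := fun p => (dX F p).prod (dX E p))
          (b := fun p => (-fderiv ℂ F p (0, 1), -fderiv ℂ E p (0, 1)))
          (p₀ := p₀)
          ((contDiff_clm_prod (W := ℂ) (W' := ℂ)).contDiffAt.comp p₀
            ((contDiffAt_dX (hF p₀ hp₀B)).prodMk (contDiffAt_dX (hE p₀ hp₀B))))
          ((contDiffAt_dT (hF p₀ hp₀B)).neg.prodMk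
            (contDiffAt_dT (hE p₀ hp₀B)).neg) hsurj
        refine ⟨g, hg1, ?_⟩
        filter_upwards [hg2, h2', h2''] with p hp hp2 hp3
        rw [Prod.ext_iff] at hp
        obtain ⟨h1, h2⟩ := hp
        refine ⟨?_, fun _ => ?_, fun hc => ?_, fun h5 h6 => absurd ⟨h5, h6⟩ hp3⟩
        · rw [fderiv_split]
          have : dX F p (g p) = -fderiv ℂ F p (0, 1) := h1
          rw [this]; ring
        · rw [fderiv_split]
          have : dX E p (g p) = -fderiv ℂ E p (0, 1) := h2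
          rw [this, neg_add_cancel, norm_zero]
          positivity
        · obtain ⟨j, hj⟩ := hc
          exact absurd hj (hp2 j)
      · have h1a : ∀ k, p₀ ∉ T1 k := fun k hk => h1 ⟨k, hk⟩
        have h1' : ∀ᶠ p in 𝓝 p₀, ∀ k, p ∉ T1 k :=
          eventually_notMem_iUnion hT1c hT1sh hne h1a
        obtain ⟨g, hg1, hg2⟩ := exists_local_solution
          (L := fun p => dX F p) (b := fun p => -fderiv ℂ F p (0, 1)) (p₀ := p₀)
          (contDiffAt_dX (hF p₀ hp₀B)) (contDiffAt_dT (hF p₀ hp₀B)).neg (P1 p₀ hb.1 hb.2 hne)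
        refine ⟨g, hg1, ?_⟩
        filter_upwards [hg2, h2', h1', h2''] with p hp hp2 hp1 hp3
        refine ⟨?_, fun hc => ?_, fun hc => ?_, fun h5 h6 => absurd ⟨h5, h6⟩ hp3⟩
        · rw [fderiv_split, hp]; ring
        · obtain ⟨j, hj⟩ := hc
          exact absurd hj (hp1 j)
        · obtain ⟨j, hj⟩ := hc
          exact absurd hj (hp2 j))
  -- the quasi-invariant neighbourhoods
  set U : Set (X × ℂ) := {p | ‖p.1‖ < r ∧ ‖p.2‖ < η} with hU
  have hUo : IsOpen U :=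
    (isOpen_lt continuous_fst.norm continuous_const).inter
      (isOpen_lt continuous_snd.norm continuous_const)
  have hUB : U ⊆ B := fun p hp => (hBmem p).2 ⟨hp.1.le, hp.2.le⟩
  set Q : ℝ → ℕ → Set (X × ℂ) := fun σ k => {p | (‖p.1‖ < r ∧ ‖p.2‖ < η) ∧
    ‖F p‖ < (par k).1 ∧ ‖E p‖ < (par k).2.1 * Real.exp (σ * (K * ‖p.2‖)) ∧
    ‖p.1‖ < (par k).2.2 * Real.exp (σ * (K * ‖p.2‖))} with hQ
  have hQo : ∀ σ k, IsOpen (Q σ k) := by
    intro σ k
    have hex : ∀ c : ℝ, Continuous (fun p : X × ℂ => c * Real.exp (σ * (K * ‖p.2‖))) := by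
      intro c; fun_prop
    have h1 : IsOpen (U ∩ {p | ‖F p‖ < (par k).1}) :=
      (hFc.norm.mono hUB).isOpen_inter_preimage hUo isOpen_Iio
    have h2 : IsOpen (U ∩ (fun p => ‖E p‖ - (par k).2.1 * Real.exp (σ * (K * ‖p.2‖))) ⁻¹'
        Iio 0) :=
      ((hEc.norm.mono hUB).sub (hex _).continuousOn).isOpen_inter_preimage hUo isOpen_Iio
    have h3 : IsOpen {p : X × ℂ | ‖p.1‖ < (par k).2.2 * Real.exp (σ * (K * ‖p.2‖))} :=
      isOpen_lt continuous_fst.norm (hex _)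
    convert h1.inter (h2.inter h3) using 1
    ext p
    simp only [hQ, hU, mem_inter_iff, mem_ofPred_eq, mem_preimage, mem_Iio, sub_neg]
    tauto
  have hη2 : η / 2 < η := by linarith
  have hGan : ∀ {f : X × ℂ → ℂ}, AnalyticOnNhd ℂ f B → ∀ p ∈ G, AnalyticAt ℂ f p :=
    fun hf p hp => hf p (hGB p hp)
  have hexp : ∀ σ : ℝ, (σ = 1 ∨ σ = -1) → ∀ τ : ℝ, 0 ≤ τ → τ ≤ η →
      1 / 2 < Real.exp (σ * (K * τ)) ∧ Real.exp (σ * (K * τ)) < 2 := by
    intro σ hσ τ h0 h1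
    have h2 : 0 ≤ K * τ := mul_nonneg hK h0
    have h3 : K * τ ≤ K * η := mul_le_mul_of_nonneg_left h1 hK
    have h4 : Real.exp (K * τ) < 2 := (Real.exp_le_exp.2 h3).trans_lt hKη
    have h5 : 1 ≤ Real.exp (K * τ) := Real.one_le_exp h2
    have h6 : Real.exp (-(K * τ)) * Real.exp (K * τ) = 1 := by
      rw [← Real.exp_add]; simp
    have h7 := Real.exp_pos (-(K * τ))
    rcases hσ with rfl | rfl
    · rw [one_mul]
      exact ⟨by linarith, h4⟩
    · rw [neg_one_mul]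
      constructor <;> nlinarith
  -- `F` is constant along trajectories
  have hconstF : ∀ (c₀ c₁ : ℝ) (t : ℂ) (b : ℝ) (x : ℝ → X), 0 ≤ b → Traj G u c₀ c₁ t b x →
      ∀ s ∈ Icc 0 b, F (x s, (c₀ + c₁ * s) • t) = F (x 0, (c₀ + c₁ * 0) • t) := by
    intro c₀ c₁ t b x hb hx
    refine eq_of_hasDerivWithinAt_zero (f := fun s => F (x s, (c₀ + c₁ * s) • t)) le_rfl le_rfl ?_
    intro s hs
    have h1 := hasDerivWithinAt_traj hx (hGan hF) hs
    rw [(huV _ (hx s hs).1).1, mul_zero] at h1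
    exact h1
  have inv : ∀ σ : ℝ, (σ = 1 ∨ σ = -1) → ∀ k, ∀ c₀ : ℝ, ∀ t : ℂ, ‖t‖ ≤ η / 2 →
      ∀ b ∈ Icc (0 : ℝ) 1, (∀ s ∈ Icc 0 b, c₀ + σ * s ∈ Icc (0 : ℝ) 1) →
      ∀ x, Traj G u c₀ σ t b x → ∀ s ∈ Icc 0 b, (x 0, c₀ • t) ∈ Q σ k →
        (x s, (c₀ + σ * s) • t) ∈ Q σ k := by
    intro σ hσ k c₀ t ht b hb hc x hx s hs hmem
    have hσ2 : σ * σ = 1 := by rcases hσ with rfl | rfl <;> norm_num
    have hσa : ‖(σ : ℂ)‖ = 1 := by rcases hσ with rfl | rfl <;> simp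
    have hσr : ‖σ‖ = 1 := by rcases hσ with rfl | rfl <;> simp
    have hnorm : ∀ s ∈ Icc 0 b, ‖(c₀ + σ * s) • t‖ = (c₀ + σ * s) * ‖t‖ := by
      intro s hs
      rw [norm_smul, Real.norm_eq_abs, abs_of_nonneg (hc s hs).1]
    have hrange : ∀ s ∈ Icc 0 b, 0 ≤ (c₀ + σ * s) * ‖t‖ ∧ (c₀ + σ * s) * ‖t‖ ≤ η := by
      intro s hs
      have h1 := hc s hs
      refine ⟨mul_nonneg h1.1 (norm_nonneg t), ?_⟩
      have h2 : (c₀ + σ * s) * ‖t‖ ≤ 1 * ‖t‖ := mul_le_mul_of_nonneg_right h1.2 (norm_nonneg t)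
      linarith
    have hsplit2 : ∀ s : ℝ, Real.exp (σ * (K * ((c₀ + σ * s) * ‖t‖))) =
        Real.exp (σ * (K * (c₀ * ‖t‖))) * Real.exp (K * ‖t‖ * s) := by
      intro s
      rw [← Real.exp_add]
      congr 1
      linear_combination K * s * ‖t‖ * hσ2
    have h0b : (0 : ℝ) ∈ Icc 0 b := ⟨le_rfl, hb.1⟩
    have hbb : b ∈ Icc 0 b := ⟨hb.1, le_rfl⟩
    have hx0 := hexp σ hσ _ (hrange 0 h0b).1 (hrange 0 h0b).2
    have hxb := hexp σ hσ _ (hrange b hbb).1 (hrange b hbb).2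
    rw [mul_zero, add_zero] at hx0
    rw [hsplit2] at hxb
    have hn0 : ‖c₀ • t‖ = c₀ * ‖t‖ := by
      have := hnorm 0 h0b
      rwa [mul_zero, add_zero] at this
    obtain ⟨m1, m2, m3, m4⟩ := hmem
    simp only at m3 m4
    rw [hn0] at m3 m4
    have hKt : 0 ≤ K * ‖t‖ := mul_nonneg hK (norm_nonneg t)
    have hFs : ∀ s ∈ Icc 0 b, ‖F (x s, (c₀ + σ * s) • t)‖ < (par k).1 := by
      intro s hs
      rw [hconstF c₀ σ t b x hb.1 hx s hs, mul_zero, add_zero]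
      exact m2
    have key := barrier_quasi (b := b) (K := K * ‖t‖) (β := (par k).2.1) (ε := (par k).2.2)
      (β' := (par k).2.1 * Real.exp (σ * (K * (c₀ * ‖t‖))))
      (ε' := (par k).2.2 * Real.exp (σ * (K * (c₀ * ‖t‖))))
      (e := fun s => E (x s, (c₀ + σ * s) • t))
      (e' := fun s => (σ : ℂ) * t * fderiv ℂ E (x s, (c₀ + σ * s) • t)
        (u (x s, (c₀ + σ * s) • t), 1))
      (x := x) (x' := fun s => σ • t • u (x s, (c₀ + σ * s) • t))
      hKt (mul_pos (hp4 k) (Real.exp_pos _)) (mul_pos (hp5 k) (Real.exp_pos _))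
      (by nlinarith [hp4 k, hx0.1]) (by nlinarith [hp5 k, hx0.1])
      (by rw [mul_assoc]; nlinarith [hp4 k, hxb.2]) (by rw [mul_assoc]; nlinarith [hp5 k, hxb.2])
      (fun s hs => hasDerivWithinAt_traj hx (hGan hE) hs) (fun s hs => (hx s hs).2)
      (by
        intro s hs h1 h2 h3
        have hm := (hx s hs).1
        have hT : (x s, (c₀ + σ * s) • t) ∈ T1 k := ⟨hGB _ hm, (hFs s hs).le, h1, h2, h3⟩
        have h4 := (huV _ hm).2.1 ⟨k, hT⟩
        rw [norm_mul, norm_mul, hσa, one_mul]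
        calc ‖t‖ * ‖fderiv ℂ E (x s, (c₀ + σ * s) • t) (u (x s, (c₀ + σ * s) • t), 1)‖
            ≤ ‖t‖ * (K * ‖E (x s, (c₀ + σ * s) • t)‖) :=
              mul_le_mul_of_nonneg_left h4 (norm_nonneg t)
          _ = K * ‖t‖ * ‖E (x s, (c₀ + σ * s) • t)‖ := by ring)
      (by
        intro s hs h1 h2 h3
        have hm := (hx s hs).1
        have hT : (x s, (c₀ + σ * s) • t) ∈ T2 k := ⟨hGB _ hm, (hFs s hs).le, h1, h2, h3⟩
        have h4 := (huV _ hm).2.2.1 ⟨k, hT⟩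
        rw [norm_smul, norm_smul, hσr, one_mul]
        calc ‖t‖ * ‖u (x s, (c₀ + σ * s) • t)‖
            ≤ ‖t‖ * (K * ‖x s‖) := mul_le_mul_of_nonneg_left h4 (norm_nonneg t)
          _ = K * ‖t‖ * ‖x s‖ := by ring)
      (by simpa using m3) (by simpa using m4) s hs
    refine ⟨(hx s hs).1.2, hFs s hs, ?_, ?_⟩
    · simp only
      rw [hnorm s hs, hsplit2, ← mul_assoc]
      exact key.1
    · simp only
      rw [hnorm s hs, hsplit2, ← mul_assoc]
      exact key.2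
  have hcl : ∀ t : ℂ, ‖t‖ ≤ η / 2 → ‖t‖ ≤ η := fun t ht => ht.trans hη2.le
  have mono : ∀ σ k, Q σ k ⊆ Q σ 0 := by
    intro σ k p hp
    obtain ⟨h1, h2, h3, h4⟩ := hp
    have h5 := hp6 k
    have h6 := (Real.exp_pos (σ * (K * ‖p.2‖))).le
    exact ⟨h1, h2.trans_le h5.1, h3.trans_le (mul_le_mul_of_nonneg_right h5.2.1 h6),
      h4.trans_le (mul_le_mul_of_nonneg_right h5.2.2 h6)⟩
  have ax : ∀ σ k, ∀ t : ℂ, ‖t‖ ≤ η / 2 → ((0 : X), t) ∈ Q σ k := by
    intro σ k t ht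
    refine ⟨⟨by simpa using hr, ht.trans_lt hη2⟩, ?_, ?_, ?_⟩
    · rw [hF0 t (hcl t ht), norm_zero]; exact hp1 k
    · rw [hE0 t (hcl t ht), norm_zero]; exact mul_pos (hp4 k) (Real.exp_pos _)
    · simp only
      rw [norm_zero]; exact mul_pos (hp5 k) (Real.exp_pos _)
  have hbd : ∀ σ : ℝ, (σ = 1 ∨ σ = -1) → ∀ k, ∀ p ∈ Q σ k, ‖p.1‖ < 2 * (par k).2.2 := by
    intro σ hσ k p hp
    have h1 := (hexp σ hσ ‖p.2‖ (norm_nonneg _) hp.1.2.le).2
    have h2 := hp.2.2.2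
    nlinarith [hp5 k]
  have sh : ∀ σ : ℝ, (σ = 1 ∨ σ = -1) → ∀ δ > 0, ∃ k, ∀ p ∈ Q σ k, ‖p.2‖ ≤ η / 2 →
      ‖p.1‖ < δ := by
    intro σ hσ δ hδ
    obtain ⟨k₀, hk₀⟩ := hpsh δ hδ
    exact ⟨k₀, fun p hp _ => (hbd σ hσ k₀ p hp).trans (hk₀ k₀ le_rfl)⟩
  have hcomp : ∀ σ : ℝ, (σ = 1 ∨ σ = -1) → ∀ p ∈ Q σ 0, ‖p.2‖ ≤ η / 2 →
      p ∈ closedBall (0 : X) (r / 2) ×ˢ closedBall (0 : ℂ) (η / 2) := by
    intro σ hσ p hp h2
    have h1 := hbd σ hσ 0 p hp
    have h3 : (par 0).2.2 = r / 4 := rfl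
    rw [h3] at h1
    refine ⟨?_, by simpa using h2⟩
    rw [mem_closedBall_zero_iff]
    linarith
  obtain ⟨e, he1, he2, he3, he4, he5⟩ := homeo_quasi (η' := η / 2) (G := G) hGo
    (fun p hp => hp.1) huc (P := Q 1) (N := Q (-1))
    (C := closedBall 0 (r / 2) ×ˢ closedBall 0 (η / 2)) (hQo 1) (hQo (-1)) (mono 1) (mono (-1))
    (ax 1) (ax (-1)) ((isCompact_closedBall _ _).prod (isCompact_closedBall _ _))
    (by
      intro p hp hp2 hne
      have h1 : ‖p.1‖ ≤ r / 2 := by simpa using hp.1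
      exact ⟨hne, by linarith, by linarith⟩)
    (hcomp 1 (Or.inl rfl)) (hcomp (-1) (Or.inr rfl)) (sh 1 (Or.inl rfl)) (sh (-1) (Or.inr rfl))
    (inv 1 (Or.inl rfl)) (inv (-1) (Or.inr rfl))
  have hz : ‖(0 : ℂ)‖ ≤ η := by simpa using hη.le
  refine ⟨e, fun p hp => (he1 p hp).1, he2, he3, he4, ?_, ?_⟩
  · intro p hp
    by_cases hne : p.1 = 0
    · have : p = (0, p.2) := by rw [← hne]
      have ht : ‖p.2‖ ≤ η := by linarith [(he1 p hp).1]
      rw [this, he4, hF0 _ ht, hF0 0 hz]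
    · obtain ⟨x, hx, hx0, hx1⟩ := (he5 p hp hne).1
      have h1 := hconstF 0 1 p.2 1 x zero_le_one hx 1 (by simp)
      have h2 : e p = (x 1, p.2) := by rw [hx1, ← he3 p]
      rw [h2]
      simpa [hx0] using h1
  · intro p hp hfix
    by_cases hne : p.1 = 0
    · have : p = (0, p.2) := by rw [← hne]
      rw [this, he4]
    · have hp1 := he1 p hp
      have hTr : Traj G u 0 1 p.2 1 (fun _ => p.1) := by
        intro τ hτ
        rw [zero_add, one_mul]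
        have hτ2 : ‖τ • p.2‖ < η := by
          rw [norm_smul, Real.norm_eq_abs, abs_of_nonneg hτ.1]
          have h3 := mul_le_of_le_one_left (norm_nonneg p.2) hτ.2
          linarith [hp1.1]
        have hmem : (p.1, τ • p.2) ∈ G := ⟨hne, hp1.2.1.1, hτ2⟩
        refine ⟨hmem, ?_⟩
        have h4 := (huV _ hmem).2.2.2 (hfix τ hτ).1 (hfix τ hτ).2
        rw [h4, smul_zero, smul_zero]
        exact hasDerivWithinAt_const τ _ _
      have h5 := (he5 p hp hne).2 _ hTr rfl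
      have h6 : e p = ((e p).1, (e p).2) := rfl
      rw [h6, ← h5, he3 p]

end Vale.Agent.P298.H119
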